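import Vale.Agent.P281Z.El.Sk
import Vale.Agent.P281Z.An.Img
import Vale.Agent.P277Z.Pj.Prj1

/-!
# P281Z, elimination of indeterminacy: dimension of subsets of manifolds
-/

open scoped Manifold ContDiff Topology
open Set Filter
open Vale.Agent.P272.K
open Vale.Agent.P277Z (Hol Nz at_chart)
open Vale.Agent.P277.H762 (Cv cv_empty cv_of_local not_cv_nhds)

noncomputable section

namespace Vale.Agent.P281Z.El

namespace DmH

variable {D d e : ℕ} {W : Mf D} {A O : Set W.X}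

theorem img {E : Type} [NormedAddCommGroup E] [NormedSpace ℂ E] {F : W.X → E} (hA : Dm d A)
    (hO : IsOpen O) (hF : ∀ w ∈ O, AnV D F w) : Cv d (F '' (A ∩ O)) := by
  refine Ana.Im.cv_local fun x _ => ?_
  have he := at_chart (n := D) x
  set c := chartAt (Cm D) x
  refine ⟨_, c.open_source.mem_nhds he.2, (((hA c he.1).mono (S' := c '' (c.source ∩ (A ∩ O)))
    (image_mono fun y hy => ⟨hy.2.1, hy.1⟩)).image (c.isOpen_inter_preimage_symm hO) ?_
    (F := fun z => F (c.symm z)) fun z hz => ?_).mono ?_⟩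
  · rintro _ ⟨y, hy, rfl⟩
    exact ⟨c.map_source hy.1, by simpa only [mem_preimage, c.left_inv hy.1] using hy.2.2⟩
  · have := hF _ hz.2 c ⟨he.1, c.map_target hz.1⟩
    rwa [c.right_inv hz.1] at this
  · rintro _ ⟨y, hy, rfl⟩
    exact ⟨c y, ⟨y, hy, rfl⟩, by simp only [c.left_inv hy.1]⟩

theorem top (A : Set W.X) : Dm D A := fun _ _ =>
  ⟨fun _ => univ, fun _ => id, fun _ => isOpen_univ, fun _ _ _ => analyticAt_id,
    fun x _ => mem_iUnion.2 ⟨0, x, trivial, rfl⟩⟩

theorem le (hA : Dm e A) (h : e ≤ d) : Dm d A := by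
  induction h with
  | refl => exact hA
  | step _ ih => exact fun c hc => (ih c hc).succ

theorem sub (hA : A.Subsingleton) : Dm d A := fun c _ => by
  rcases hA.eq_empty_or_singleton with rfl | ⟨x, rfl⟩
  · simpa using cv_empty
  · refine ⟨fun _ => univ, fun _ _ => c x, fun _ => isOpen_univ, fun _ _ _ => analyticAt_const, ?_⟩
    rintro _ ⟨y, hy, rfl⟩
    exact mem_iUnion.2 ⟨0, 0, trivial, congrArg c hy.1.symm⟩

theorem cnt (hA : Dm 0 A) : A.Countable := by
  obtain ⟨t, -, htc, ht⟩ := TopologicalSpace.countable_cover_nhdsWithin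
    (f := fun x => (chartAt (Cm D) x).source) (s := A) fun p _ =>
      mem_nhdsWithin_of_mem_nhds (chart_source_mem_nhds _ p)
  refine (htc.biUnion (t := fun x _ => A ∩ (chartAt (Cm D) x).source) fun x _ => ?_).mono
    fun y hy => ?_
  · exact countable_of_injective_of_countable_image
      ((chartAt (Cm D) x).injOn.mono inter_subset_right)
      (P277Z.Pj.H38.countable_of_cv (hA _ (chart_mem_atlas _ x)))
  · obtain ⟨x, hx, h⟩ := mem_iUnion₂.1 (ht hy)
    exact mem_iUnion₂.2 ⟨x, hx, hy, h⟩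

theorem push {F : Mf e} {j : F.X → W.X} {B : Set F.X} (hj : HolM e D j) (hB : Dm d B) :
    Dm d (j '' B) := fun c hc => by
  refine (img (F := fun x => c (j x)) hB (c.open_source.preimage hj.cont)
    fun x hx => (hj.at x).anV ⟨hc, hx⟩).mono ?_
  rintro _ ⟨_, ⟨⟨x, hx, rfl⟩, h⟩, rfl⟩
  exact ⟨x, ⟨hx, h⟩, rfl⟩

theorem thin {F : Mf (d + 1)} {B : Set F.X} (hB : Thin (d + 1) B) : Dm d B := fun c hc => by
  refine cv_of_local ?_
  rintro _ ⟨x, hx, rfl⟩
  have he : At c x := ⟨hc, hx.2⟩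
  obtain ⟨g, h1, h2, h3⟩ := hB.nz x
  obtain ⟨U, hU, hUo, hxU⟩ := mem_nhds_iff.1 (at_ev he ((h1.near.and (h2.near h1)).and h3) |>.and
    (c.open_target.mem_nhds he.mem_target))
  refine ⟨U, hUo.mem_nhds hxU, (P277Z.Pj.H38.cv_zs (J := fun z => g (c.symm z)) hUo (fun z hz => ?_)
    fun z hz h => ?_).mono ?_⟩
  · have := (hU hz).1.1.1 c ⟨hc, c.map_target (hU hz).2⟩
    rwa [c.right_inv (hU hz).2] at this
  · have k : At c (c.symm z) := ⟨hc, c.map_target (hU hz).2⟩
    refine (hU hz).1.1.2 ((P277Z.At.ev k).1 ?_)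
    rwa [c.right_inv (hU hz).2]
  · rintro _ ⟨hz, y, hy, rfl⟩
    exact ⟨hz, (hU hz).1.2 (by rw [c.left_inv hy.2]; exact hy.1)⟩

theorem imm {F : Mf e} {j : F.X → W.X} {v : F.X} (hj : HolM e D j) (hi : Imm e D j v)
    (h : Dm d (range j)) : e ≤ d := by
  obtain ⟨g, h1, h2, h3⟩ := hi.ret (hj.at v)
  have he := at_chart (n := e) v
  set c := chartAt (Cm e) v
  obtain ⟨U, hU, hUo, hxU⟩ := mem_nhds_iff.1
    (h2.near.and (h2.cont.eventually (at_near (e := c) (h1.symm ▸ he))))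
  by_contra hk
  refine not_cv_nhds (x := c v) (by simpa using hk) ?_
    (img (F := fun y => c (g y)) h hUo fun y hy => (hU hy).1.anV (hU hy).2)
  filter_upwards [at_ev he (h3.and (hj.cont.continuousAt.eventually (hUo.mem_nhds hxU))),
    c.open_target.mem_nhds he.mem_target] with z hz hz'
  exact ⟨_, ⟨mem_range_self _, hz.2⟩, by simp only [hz.1, c.right_inv hz']⟩

end DmH

theorem dma : DMA where
  img _ _ _ _ _ _ _ := DmH.img
  top _ _ := DmH.top
  sub _ _ _ _ := DmH.sub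
  cnt _ _ _ := DmH.cnt
  rng _ _ _ _ _ _ hj h := image_univ ▸ DmH.push hj (DmH.le (DmH.top univ) h)
  thc _ _ _ _ _ _ hj h := DmH.push hj (DmH.thin h)
  imm _ _ _ _ _ _ _ := DmH.imm

end Vale.Agent.P281Z.El
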