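import Vale.Agent.P281Z.El.Sk
import Vale.Agent.P281Z.Rs.All

/-!
# P281Z, elimination of indeterminacy: the descending chain condition for analytic sets
-/

open scoped Topology
open Set Filter

noncomputable section

namespace Vale.Agent.P281Z.El

/-- a thin set is a union of images of manifolds of smaller dimension -/
theorem thp {m : ℕ} (V : Mf m) {A : Set V.X} (hA : Thin m A) :
    ∃ (U : ∀ d : Fin m, Mf d) (g : ∀ d, (U d).X → V.X), (∀ d : Fin m, HolM d m (g d)) ∧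
      A = ⋃ d, range (g d) := by
  obtain ⟨B, k1, -, k3, k4⟩ := Ana.reg m V.X A hA.an
  have key : ∀ d : Fin m, ∃ (U : Mf d) (g : U.X → V.X), HolM d m g ∧
      range g = closure (A \ B d) := fun d => by
    obtain ⟨I, hI⟩ := idl m V (B d) (k1 d)
    obtain ⟨U, π, r, E, a, -⟩ := res m d V A I hA.an (hI ▸ k3 d)
    exact ⟨U, π, a.hol, hI ▸ a.range⟩
  choose U g a b using key
  have e : A \ B m = ∅ := eq_empty_of_forall_notMem fun x hx => by
    obtain ⟨c, h, hc, -, h2⟩ := k3 m x hx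
    obtain rfl : c = 0 := by omega
    exact hA.freq x (h2.mono fun y k => not_not.2 (k.2 fun a => a.elim0).1)
  refine ⟨U, g, a, k4.trans (Set.ext fun x => ?_)⟩
  simp only [b, mem_iUnion, Finset.mem_range]
  refine ⟨fun ⟨d, p, q⟩ => ⟨⟨d, (Nat.lt_succ_iff.1 p).lt_of_ne ?_⟩, q⟩,
    fun ⟨d, q⟩ => ⟨d, d.2.trans m.lt_succ_self, q⟩⟩
  rintro rfl
  simp [e] at q

namespace Dcc

/-- decreasing sequences of analytic sets are eventually constant -/
def St {m : ℕ} (V : Mf m) : Prop := ∀ A : ℕ → Set V.X, (∀ k, An m (A k)) → Antitone A →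
  ∃ N, ∀ k, N ≤ k → A N ⊆ A k

theorem cov {m : ℕ} {V : Mf m} {J : Type} [Finite J] {d : J → ℕ} {U : ∀ j, Mf (d j)}
    {g : ∀ j, (U j).X → V.X} (hg : ∀ j, HolM (d j) m (g j)) (hU : ∀ j, St (U j))
    {A : ℕ → Set V.X} (h1 : ∀ k, An m (A k)) (h2 : Antitone A) {N : ℕ}
    (h3 : A N ⊆ ⋃ j, range (g j)) : ∃ N, ∀ k, N ≤ k → A N ⊆ A k := by
  choose M hM using fun j => hU j (fun k => g j ⁻¹' A k) (fun k => (h1 k).pre (hg j))
    fun _ _ h => preimage_mono (h2 h)
  obtain ⟨K, hK⟩ := Finite.exists_le M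
  refine ⟨max N K, fun k hk x hx => ?_⟩
  obtain ⟨j, u, rfl⟩ := mem_iUnion.1 (h3 (h2 (le_max_left _ _) hx))
  exact hM j k ((le_max_of_le_right (hK j)).trans hk) (h2 (le_max_of_le_right (hK j)) hx)

theorem st (m : ℕ) : ∀ V : Mf m, St V := by
  refine Nat.strong_induction_on m fun m ih V A h1 h2 => ?_
  obtain ⟨J, _, W, i, a, b, -, c, -⟩ := comps V
  refine cov (d := fun _ => m) (fun j => (b j).hol) (fun j A h1 h2 => ?_) h1 h2 (N := 0)
    fun x _ => mem_iUnion.2 (c x)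
  by_cases h : ∀ k, A k = univ
  · exact ⟨0, fun k _ => h k ▸ subset_univ _⟩
  obtain ⟨N, hN⟩ := not_forall.1 h
  have := a j
  obtain ⟨U, g, k1, k2⟩ := thp (W j) ((h1 N).thin hN)
  exact cov k1 (fun d => ih d d.2 _) h1 h2 k2.le

end Dcc

/-- **DCC** -/
theorem dcc : DCC := fun n X P h A hA => by
  have wf : WellFounded fun A B : {A : Set X.X // An n A} => A.1 ⊂ B.1 :=
    wellFounded_iff_isEmpty_descending_chain.2 ⟨fun ⟨f, hf⟩ => by
      obtain ⟨N, hN⟩ := Dcc.st n X (fun k => (f k).1) (fun k => (f k).2)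
        (antitone_nat_of_succ_le fun k => (hf k).1)
      exact (hf N).2 (hN _ N.le_succ)⟩
  exact wf.induction (C := fun A => P A.1) ⟨A, hA⟩ fun A k =>
    h A.1 A.2 fun B hB c => k ⟨B, hB⟩ c

end Vale.Agent.P281Z.El
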