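import Vale.Agent.P281Z.El.Sk
import Vale.Agent.P277Z.Oka.Noe
import Vale.Agent.P277.H762.L1a

/-!
# P281Z, elimination of indeterminacy: flatness in a box, finitely many minors
-/

open scoped Manifold ContDiff Topology
open Set Filter
open Vale.Agent.P272.K
open Vale.Agent.P277Z (Hol hol_comp)
open Vale.Agent.P277Z.Oka (gm idl)

noncomputable section

namespace Vale.Agent.P281Z.El

namespace BflA

variable {n D r : ℕ} {X : Mf n} {W : Mf D} {ι : Type} [Fintype ι] {y : X.X} {a : ι → X.X → ℂ}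
  {Γ : Set (X.prod W).X} {b : Box X W r} {t : Cm r}

theorem in_of {c : Chart n X.X} (he : At c y) {F : Cm n → ℂ}
    (h : P277Z.Oka.In (c y) (fun i z => a i (c.symm z)) F) : In y a fun x => F (c x) := by
  obtain ⟨k, hk, e⟩ := h
  refine ⟨fun i x => k i (c x), fun i => hol_comp he (hk i), ?_⟩
  filter_upwards [(c.continuousAt he.2).eventually e, P277Z.At.left he] with x h1 h2
  simpa only [h2] using h1

theorem in_to {c : Chart n X.X} (he : At c y) {F : Cm n → ℂ} (h : In y a fun x => F (c x)) :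
    P277Z.Oka.In (c y) (fun i z => a i (c.symm z)) F := by
  obtain ⟨k, hk, e⟩ := h
  refine ⟨fun i z => k i (c.symm z), fun i => hk i c he, ?_⟩
  filter_upwards [at_ev he e, P277Z.At.right he] with z h1 h2
  simpa only [h2] using h1

theorem coef1 (hC : COEF) {a : ι → Cm n → ℂ} {u : Cm n × Cm r → ℂ} {y : Cm n}
    (ha : ∀ i, AnalyticAt ℂ (a i) y) (hu : AnalyticAt ℂ u (y, t))
    (h : ∀ᶠ s in 𝓝 t, P277Z.Oka.In y a fun x => u (x, s)) :
    P277Z.Oka.In (y, t) (fun i z => a i z.1) u := by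
  obtain ⟨k, hk, e⟩ := hC (Cm r) n ι Unit (fun i _ => a i) (fun _ => u) y t (fun i _ => ha i)
    (fun _ => hu) (h.eventually_nhds.frequently.mono fun s' hs =>
      hs.mono fun s ⟨k, hk, e⟩ => ⟨k, hk, e.mono fun _ h _ => h⟩)
  exact ⟨k, hk, e.mono fun _ h => h ()⟩

theorem an_mn (hb : b.Ok Γ) (hy : y ∈ b.U) (ht : t ∈ b.Δ) (ρ : ℕ) (q) :
    AnalyticAt ℂ (b.mn ρ q) (b.c y, t) :=
  P277.H762.analyticAt_det (M := fun z => Matrix.of fun i j => b.G (q.1 i) (q.2 j) z)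
    fun _ _ => (hb.pp y hy t ht).anG _ _

theorem hol_mn (hb : b.Ok Γ) (hy : y ∈ b.U) (ht : t ∈ b.Δ) (ρ : ℕ) (q) :
    Hol n (fun z => b.mn ρ q (b.c z, t)) y :=
  hol_comp (hb.pp y hy t ht).atc (f := fun z => b.mn ρ q (z, t))
    ((an_mn hb hy ht ρ q).comp_of_eq (analyticAt_id.prod analyticAt_const) rfl)

theorem spr (hS : SPR) (hb : b.Ok Γ) (hy : y ∈ b.U) (ha : ∀ i, Hol n (a i) y) {ρ : ℕ} {q}
    (ht : t ∈ b.Δ)
    (h : P277Z.Oka.In (b.c y, t) (fun i z => a i (b.c.symm z.1)) (b.mn ρ q)) :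
    ∀ s ∈ b.Δ, In y a fun x => b.mn ρ q (b.c x, s) := fun s hs =>
  have he := (hb.pp y hy s hs).atc
  in_of he (F := fun z => b.mn ρ q (z, s))
    ((hS (Cm r) n ι (fun i z => a i (b.c.symm z)) (b.mn ρ q) (b.c y) b.Δ hb.oΔ
      hb.conn.isPreconnected (fun i => ha i _ he) (fun _ hs => an_mn hb hy hs ρ q) ⟨t, ht, h⟩
      s hs).comp (Φ := fun z => (z, s)) (analyticAt_id.prod analyticAt_const) rfl)

/-- finitely many members of a family generate the same ideal of germs -/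
theorem fin_gen {α : Type} {x : Cm n} (g : α → Cm n → ℂ) (hg : ∀ p, AnalyticAt ℂ (g p) x) :
    ∃ (m : ℕ) (p : Fin m → α), ∀ p', P277Z.Oka.In x (fun i => g (p i)) (g p') := by
  have := P277Z.Oka.noe (Cm n)
  obtain ⟨s, hs, e⟩ := (Submodule.fg_span_iff_fg_span_finset_subset (R := P298.H941.O (Cm n))
    (range fun p => gm x (g p))).1 (IsNoetherian.noetherian _)
  choose p hp using fun i : Fin s.card => hs (s.equivFin.symm i).2
  refine ⟨_, p, fun p' => (P277Z.Oka.in_iff (fun i => hg _) (hg _)).2 ?_⟩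
  have h1 : gm x (g p') ∈ Submodule.span _ (s : Set _) :=
    e ▸ Submodule.subset_span (mem_range_self p')
  have h2 : (s : Set _) ⊆ range fun i => gm x (g (p i)) := fun u hu =>
    ⟨s.equivFin ⟨u, hu⟩, by simpa using hp (s.equivFin ⟨u, hu⟩)⟩
  exact Submodule.span_mono h2 h1

end BflA

open BflA

/-- **BFL** -/
theorem bfl_of (hC : COEF) (hS : SPR) (hG : GENR) (hN : NF) (h1 : F1) (h2 : F2) : BFL := by
  intro n D X W Γ hΓ r b y hb hy t ht ι _ a ha
  obtain ⟨ι', G, pp, g1, g2⟩ := hN n D X W Γ hΓ r b y hb hy t ht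
  have he := pp.atc
  have hΔ := hb.oΔ.mem_nhds ht.1
  refine ⟨fun hJ => h1 n D X W Γ hΓ r _ _ b.c b.O b.f y t _ G ι a pp ha fun i j =>
    (g1 i j).trans fun q => ?_, fun hF q => spr hS hb hy ha ht.1 ((g2 q).trans fun s =>
      h2 n D X W Γ hΓ r _ _ b.c b.O b.f y t _ G ι a pp ha (fun i j => ?_) hF _ _)⟩
  · refine coef1 hC (a := fun i z => a i (b.c.symm z)) (fun i => ha i _ he)
      (an_mn hb hy ht.1 _ q) ?_
    filter_upwards [hΔ] with s hs using in_to he (hJ q s hs)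
  · have hz := ((hG n D X W Γ hΓ r b y hb hy).2.2.2.2 (b.rk y)).1 le_rfl
    have k : Tendsto (fun s : Cm r => (b.c y, s)) (𝓝 t) (𝓝 (b.c y, t)) :=
      (continuous_const.prodMk continuous_id).continuousAt
    filter_upwards [k.eventually (g1 i j).van, hΔ] with s k hs using k fun q => hz q s hs

/-- **FG** -/
theorem fg_of (hC : COEF) (hS : SPR) : FG := by
  intro n D X W Γ _ r b x hb hx ρ
  obtain ⟨t₀, ht₀⟩ := hb.conn.nonempty
  have he := (hb.pp x hx t₀ ht₀).atc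
  obtain ⟨m, p, hp⟩ := fin_gen (x := b.c x)
    (fun (p : ((Fin (ρ + 1) → Fin b.l) × (Fin (ρ + 1) → Fin b.k)) × b.Δ) z =>
      b.mn ρ p.1 (b.c (b.c.symm z), p.2)) fun p => hol_mn hb hx p.2.2 ρ p.1 _ he
  refine ⟨m, fun i => (p i).1, fun i => (p i).2, fun i => (p i).2.2,
    fun q t ht => hol_mn hb hx ht ρ q, ?_⟩
  have h1 : ∀ q, P277Z.Oka.In (b.c x, t₀)
      (fun i z => b.mn ρ (p i).1 (b.c (b.c.symm z.1), (p i).2)) (b.mn ρ q) := fun q => by
    refine coef1 hC (a := fun i z => b.mn ρ (p i).1 (b.c (b.c.symm z), (p i).2))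
      (fun i => hol_mn hb hx (p i).2.2 ρ _ _ he) (an_mn hb hx ht₀ ρ q) ?_
    filter_upwards [hb.oΔ.mem_nhds ht₀] with s hs
    exact (hp (q, ⟨s, hs⟩)).congr ((P277Z.At.right he).mono fun z hz => by simp only [hz])
  have k : Tendsto (fun y => (b.c y, t₀)) (𝓝 x) (𝓝 (b.c x, t₀)) :=
    (b.c.continuousAt he.2).prodMk continuousAt_const
  filter_upwards [k.eventually (eventually_all.2 fun q => (h1 q).eventually),
    hb.oU.mem_nhds hx] with y h2 hy q
  exact spr hS hb hy (fun i => hol_mn hb hy (p i).2.2 ρ _) ht₀ (h2 q)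

end Vale.Agent.P281Z.El
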