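import Vale.Agent.P281Z.El.Sk

/-!
# P281Z, elimination of indeterminacy: the length does not increase
-/

open scoped Manifold ContDiff Topology
open Set Filter
open Vale.Agent.P272.K
open Vale.Agent.P277Z (Hol hol_const)

noncomputable section

namespace Vale.Agent.P281Z.El

namespace Blt

variable {n D r : ℕ} {X : Mf n} {W : Mf D} {Γ : Set (X.prod W).X} {y : X.X} {w : W.X}
  {g g' : W.X → ℂ}

theorem fi_cng (h : Fi Γ y w g) (k : ∀ x, g x = g' x) : Fi Γ y w g' :=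
  (funext k : g = g') ▸ h

theorem fi_zero : Fi Γ y w fun _ => 0 :=
  ⟨fun _ => 0, hol_const _ _, .of_forall fun _ _ => rfl, .of_forall fun _ => rfl⟩

theorem fi_add (h : Fi Γ y w g) (h' : Fi Γ y w g') : Fi Γ y w fun x => g x + g' x := by
  obtain ⟨u, u1, u2, u3⟩ := h
  obtain ⟨v, v1, v2, v3⟩ := h'
  refine ⟨fun z => u z + v z, u1.add v1, ?_, ?_⟩
  · filter_upwards [u2, v2] with z k1 k2 hz
    rw [k1 hz, k2 hz, add_zero]
  · filter_upwards [u3, v3] with x k1 k2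
    rw [k1, k2]

theorem fi_mul {a : W.X → ℂ} (ha : Hol D a w) (h : Fi Γ y w g) : Fi Γ y w fun x => a x * g x := by
  obtain ⟨u, u1, u2, u3⟩ := h
  refine ⟨fun z => a (X.p2 W z) * u z, (hol_p2.hol (x := X.pair W y w) ha).mul u1, ?_, ?_⟩
  · filter_upwards [u2] with z k1 hz
    rw [k1 hz, mul_zero]
  · filter_upwards [u3] with x k1
    rw [k1, p2_pair]

theorem fi_sum {ι : Type} (s : Finset ι) {g : ι → W.X → ℂ} (h : ∀ i, Fi Γ y w (g i)) :
    Fi Γ y w fun x => ∑ i ∈ s, g i x := by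
  classical
  induction s using Finset.induction_on with
  | empty => exact fi_cng fi_zero fun _ => by simp
  | insert i s hi ih => exact fi_cng (fi_add (h i) ih) fun _ => by rw [Finset.sum_insert hi]

theorem fi_pull {X₁ : Mf n} {Γ₁ : Set (X₁.prod W).X} {ϖ : X₁.X → X.X} {y : X₁.X}
    (hϖ : HolM n n ϖ) (hs : ∀ x, fib Γ₁ x ⊆ fib Γ (ϖ x)) (h : Fi Γ (ϖ y) w g) : Fi Γ₁ y w g := by
  obtain ⟨u, u1, u2, u3⟩ := h
  have hP : HolM (n + D) (n + D) fun z : (X₁.prod W).X => X.pair W (ϖ (X₁.p1 W z)) (X₁.p2 W z) :=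
    (hϖ.comp hol_p1).pair hol_p2
  refine ⟨fun z => u (X.pair W (ϖ (X₁.p1 W z)) (X₁.p2 W z)), hP.hol (x := X₁.pair W y w) u1, ?_, u3⟩
  filter_upwards [(hP.cont.tendsto (X₁.pair W y w)).eventually u2] with z k hz
  exact k (hs (X₁.p1 W z) (a := X₁.p2 W z) hz)

theorem hol_cf {f : W.X → Cm r} (hf : AnV D f w) {c : Cm r → ℂ} (hc : AnalyticAt ℂ c (f w)) :
    Hol D (fun x => c (f x)) w := hf.cmp hc

theorem lin {m m₁ : ℕ} (B : Matrix (Fin m₁) (Fin m) ℂ) (A : Matrix (Fin m) (Fin m₁) ℂ)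
    (h : B * A = 1) : m₁ ≤ m ∧ ∀ c : Fin m → ℂ, Matrix.vecMul c A = 0 → c ≠ 0 → m₁ < m := by
  have h1 : m₁ ≤ m := by
    have k := (Matrix.rank_mul_le_left B A).trans B.rank_le_width
    rwa [h, Matrix.rank_one, Fintype.card_fin] at k
  refine ⟨h1, fun c hc h0 => lt_of_le_of_ne h1 ?_⟩
  rintro rfl
  apply h0
  rw [← Matrix.vecMul_one c, ← mul_eq_one_comm.1 h, ← Matrix.vecMul_vecMul, hc, Matrix.zero_vecMul]

end Blt

open Blt in
theorem blt : BLT := by
  intro n D r m m₁ X X₁ W Γ Γ₁ ϖ y w f e hϖ hs hf he ⟨e', he'⟩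
  choose B hB kB using fun a => he.gen (e' a) (he'.hol a)
  choose A hA kA using fun i => he'.gen (e i) (he.hol i)
  have key : ∀ c : Fin m → Cm r → ℂ, (∀ i, AnalyticAt ℂ (c i) (f w)) → Fi Γ₁ y w fun x =>
      ∑ i, c i (f x) * e i x - ∑ a, (∑ i, c i (f x) * A i a (f x)) * e' a x := fun c hc =>
    fi_cng (fi_sum Finset.univ fun i => fi_mul (hol_cf hf (hc i)) (kA i)) fun x => by
      simp only [mul_sub, Finset.sum_sub_distrib, Finset.mul_sum, Finset.sum_mul, mul_assoc]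
      rw [Finset.sum_comm]
  have an : ∀ c : Fin m → Cm r → ℂ, (∀ i, AnalyticAt ℂ (c i) (f w)) → ∀ a,
      AnalyticAt ℂ (fun s => ∑ i, c i s * A i a s) (f w) := fun c hc a =>
    Finset.analyticAt_fun_sum _ fun i _ => (hc i).fun_mul (hA i a)
  have h1 : (Matrix.of fun a i => B a i (f w)) * (Matrix.of fun i a => A i a (f w)) = 1 := by
    ext a a'
    have k := he'.ind (fun b s => (1 : Matrix (Fin m₁) (Fin m₁) ℂ) a b - ∑ i, B a i s * A i b s)
      (fun b => analyticAt_const.fun_sub (an _ (hB a) b))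
      (fi_cng (fi_add (fi_pull hϖ hs (kB a)) (key _ (hB a))) fun x => by
        simp only [sub_mul, Finset.sum_sub_distrib, Matrix.one_apply, ite_mul, one_mul, zero_mul,
          Finset.sum_ite_eq, Finset.mem_univ, if_true]
        ring) a'
    exact (sub_eq_zero.1 k.self_of_nhds).symm
  refine ⟨(lin _ _ h1).1, fun c hc kc ⟨i, hi⟩ => (lin _ _ h1).2 (fun i => c i (f w)) ?_
    fun h0 => hi (congrFun h0 i)⟩
  funext a
  exact (he'.ind (fun b s => ∑ i, c i s * A i b s) (an c hc)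
    (fi_cng (fi_add kc (fi_mul (hol_const (-1) w) (key c hc))) fun x => by ring) a).self_of_nhds

end Vale.Agent.P281Z.El
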