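import Vale.Agent.P281Z.El.Sk
import Vale.Agent.P281Z.Rs.All
import Vale.Agent.P281Z.Mf.Sub

/-!
# P281Z, elimination of indeterminacy: the function `φ` is bounded, its top level set is analytic
-/

open scoped Topology
open Set Filter

namespace Vale.Agent.P281Z.El

namespace Bnd

/-- A thin set is a finite union of images of compact manifolds of smaller dimension. -/
theorem thp {m : ℕ} {M : Mf m} {A : Set M.X} (hA : Thin m A) :
    ∃ (V : ∀ d : Fin m, Mf d) (g : ∀ d, (V d).X → M.X), (∀ d : Fin m, HolM d m (g d)) ∧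
      A = ⋃ d, range (g d) := by
  obtain ⟨B, k1, -, k3, k4⟩ := Ana.reg m M.X A hA.1
  have key : ∀ d : Fin m, ∃ (V : Mf d) (g : V.X → M.X), HolM d m g ∧
      range g = closure (A \ B d) := fun d => by
    obtain ⟨I, hI⟩ := idl m M (B d) (k1 d)
    obtain ⟨V, π, r, E, a, -⟩ := res m d M A I hA.1 (hI ▸ k3 d)
    exact ⟨V, π, a.hol, hI ▸ a.range⟩
  choose V g a b using key
  have top : A \ B m = ∅ := eq_empty_of_forall_notMem fun x hx => by
    obtain ⟨c, h, e, -, k⟩ := k3 m x hx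
    obtain rfl : c = 0 := by omega
    obtain ⟨y, p, q⟩ := ((hA.freq x).and_eventually k).exists
    exact p (q.2 fun a => a.elim0).1
  refine ⟨V, g, a, k4.trans ?_⟩
  simp only [b]
  ext x
  simp only [mem_iUnion, Finset.mem_range]
  refine ⟨fun ⟨d, p, q⟩ => ?_, fun ⟨d, q⟩ => ⟨d, d.2.trans m.lt_succ_self, q⟩⟩
  rcases (Nat.lt_succ_iff.1 p).lt_or_eq with k | rfl
  · exact ⟨⟨d, k⟩, q⟩
  · rw [top, closure_empty] at q
    exact q.elim

/-- Induction on the dimension of manifolds over `X`. -/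
theorem ind {n : ℕ} {X : Mf n} (P : ∀ (m : ℕ) (V : Mf m), (V.X → X.X) → Prop)
    (h1 : ∀ (m : ℕ) (V : Mf m) (ρ : V.X → X.X) (J : Type) [Fintype J] (U : J → Mf m)
      (i : ∀ j, (U j).X → V.X), (∀ j, HolM m m (i j)) → (∀ x, ∃ j, x ∈ range (i j)) →
      (∀ j, P m (U j) fun u => ρ (i j u)) → P m V ρ)
    (h2 : ∀ (m : ℕ) (V : Mf m) (ρ : V.X → X.X), ConnectedSpace V.X → HolM m n ρ →
      (∀ d < m, ∀ (U : Mf d) (g : U.X → V.X), HolM d m g → P d U fun u => ρ (g u)) → P m V ρ)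
    (m : ℕ) : ∀ (V : Mf m) (ρ : V.X → X.X), HolM m n ρ → P m V ρ := by
  induction m using Nat.strong_induction_on with
  | _ m ih =>
    intro V ρ hρ
    obtain ⟨J, _, U, i, c1, c2, -, c4, -⟩ := comps V
    exact h1 m V ρ J U i (fun j => (c2 j).hol) c4 fun j =>
      h2 m _ _ (c1 j) (hρ.comp (c2 j).hol) fun d hd W g hg =>
        ih d hd W _ ((hρ.comp (c2 j).hol).comp hg)

end Bnd

open Bnd

theorem bnd_of (H : JMP) : BND := by
  intro n X Θ φ J hΘ hL
  refine ind (fun _ V ρ => ∃ c, ∀ v : V.X, ρ v ∉ Θ → φ (ρ v) ≤ c) ?_ ?_ n X _ holM_id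
  · intro m V ρ κ _ U i _ hc hP
    choose c hc' using hP
    refine ⟨Finset.univ.sup c, fun v hv => ?_⟩
    obtain ⟨j, u, rfl⟩ := hc v
    exact (hc' j u hv).trans (Finset.le_sup (Finset.mem_univ j))
  · intro m V ρ hV hρ ih
    by_cases hv : ∃ v, ρ v ∉ Θ
    · obtain ⟨c, A, hA, a1, -⟩ := H n X Θ φ J hΘ hL m V ρ hV hρ hv
      obtain ⟨U, g, hg, e⟩ := thp hA
      choose c' hc' using fun d : Fin m => ih d d.2 (U d) (g d) (hg d)
      refine ⟨max c (Finset.univ.sup c'), fun v hv => ?_⟩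
      by_cases k : v ∈ A
      · obtain ⟨d, u, rfl⟩ := mem_iUnion.1 (e ▸ k)
        exact le_max_of_le_right ((hc' d u hv).trans (Finset.le_sup (Finset.mem_univ d)))
      · exact le_max_of_le_left (a1 v k).2.le
    · exact ⟨0, fun v k => (hv ⟨v, k⟩).elim⟩

theorem cons_of (H : JMP) : CONS := by
  intro n X Θ φ J hΘ hL c hc
  refine ind (fun m V ρ => An m (ρ ⁻¹' (Θ ∪ {y | φ y = c}) : Set V.X)) ?_ ?_ n X _ holM_id
  · intro m V ρ κ _ U i hi hc hP
    refine (congrArg (An m) ?_).mp (An.iUnion fun j => rem m m (U j) V (i j) _ (hi j) (hP j))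
    ext v
    simp only [mem_iUnion]
    refine ⟨fun ⟨j, u, p, q⟩ => q ▸ p, fun k => ?_⟩
    obtain ⟨j, u, rfl⟩ := hc v
    exact ⟨j, u, k, rfl⟩
  · intro m V ρ hV hρ ih
    by_cases hv : ∃ v, ρ v ∉ Θ
    · obtain ⟨c₀, A, hA, a1, a2⟩ := H n X Θ φ J hΘ hL m V ρ hV hρ hv
      by_cases e0 : c₀ = c
      · refine (congrArg (An m) (eq_univ_of_forall fun v => ?_).symm).mp an_univ
        by_cases k : v ∈ A
        · exact Or.inl (by_contra fun p => (e0 ▸ a2 v k p).not_ge (hc _ p))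
        · exact Or.inr ((a1 v k).2.trans e0)
      · obtain ⟨U, g, hg, e⟩ := thp hA
        refine (congrArg (An m) ?_).mp (An.iUnion fun d : Fin m =>
          rem d m (U d) V (g d) _ (hg d) (ih d d.2 (U d) (g d) (hg d)))
        ext v
        simp only [mem_iUnion]
        refine ⟨fun ⟨j, u, p, q⟩ => q ▸ p, fun k => ?_⟩
        have kA : v ∈ A := by_contra fun p =>
          k.elim (a1 v p).1 fun q => e0 ((a1 v p).2.symm.trans q)
        obtain ⟨d, u, rfl⟩ := mem_iUnion.1 (e ▸ kA)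
        exact ⟨d, u, k, rfl⟩
    · refine (congrArg (An m) (eq_univ_of_forall fun v => ?_).symm).mp an_univ
      exact Or.inl (by_contra fun p => hv ⟨v, p⟩)

end Vale.Agent.P281Z.El
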