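import Vale.Agent.P281Z.El.Sk
import Vale.Agent.P281Z.Rs.Clo

/-!
# P281Z, elimination of indeterminacy: boxes
-/

open scoped Manifold ContDiff Topology
open Set Filter
open Vale.Agent.P272.K Vale.Agent.P272.K.Prod
open Vale.Agent.P277Z (Hol at_chart)

set_option linter.unusedSectionVars false

noncomputable section

namespace Vale.Agent.P281Z.El

namespace Bx

section gen

variable {E Y ι κ ι' κ' : Type} [NormedAddCommGroup E] [NormedSpace ℂ E] [NormedAddCommGroup Y]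
  [NormedSpace ℂ Y] [Fintype ι] [Fintype κ] [Fintype ι'] [Fintype κ'] {R : ι → E → ℂ} {x : E}

theorem inV_iff {v : Unit → E → ℂ} : InV x (fun i _ => R i) v ↔ P277Z.Oka.In x R (v ()) :=
  exists_congr fun _ => and_congr_right fun _ => eventually_congr (.of_forall fun _ =>
    ⟨fun h => h (), fun h _ => h⟩)

theorem sp_iff : x ∈ Sp (fun i (_ : Unit) => R i) ↔ ∀ i, R i x = 0 := by
  classical
  refine ⟨fun h i => by_contra fun k => h fun v => ⟨Pi.single i (v () / R i x), fun _ => ?_⟩,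
    fun h k => ?_⟩
  · rw [Finset.sum_eq_single i (fun j _ m => by rw [Pi.single_eq_of_ne m, zero_mul]) (by simp),
      Pi.single_eq_same, div_mul_cancel₀ _ k]
  · obtain ⟨c, hc⟩ := k fun _ => 1
    simpa [h] using hc ()

theorem in_of (hR : ∀ i, AnalyticAt ℂ (R i) x) (k : ¬ ∀ i, R i x = 0) {h : E → ℂ}
    (hh : AnalyticAt ℂ h x) : P277Z.Oka.In x R h :=
  let ⟨i, hi⟩ := not_forall.1 k
  (((P277Z.Oka.In.self x R i).mul hh).congr (.of_forall fun _ => mul_comm _ _)).of_unit (hR i) hi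

theorem tube [FiniteDimensional ℂ Y] {G : ι → κ → E × Y → ℂ} {x₀ : E × Y} {O M : Set (E × Y)}
    {Ω : Set Y} {e : κ' → κ → E × Y → ℂ} {G' : ι' → κ' → Y → ℂ}
    (h : Psh Prod.snd G x₀ O Ω e G') {z : Y} (hz : z ∈ Ω) (hM : IsOpen M)
    (k : ∀ x ∈ O, x ∈ Sp G → x.2 = z → x ∈ M) :
    ∀ᶠ z' in 𝓝 z, ∀ x ∈ O, x ∈ Sp G → x.2 = z' → x ∈ M := by
  have := FiniteDimensional.proper ℂ Y
  obtain ⟨K, h1, h2, h3⟩ := exists_compact_subset h.opn' hz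
  have h4 := (((h.prp K h3 h1).diff hM).image continuous_snd).isClosed.isOpen_compl
  filter_upwards [mem_interior_iff_mem_nhds.1 h2, h4.mem_nhds
    fun ⟨x, a, b⟩ => a.2 (k x a.1.1.1 a.1.1.2 b)] with z' a b x c d m
  exact by_contra fun r => b ⟨x, ⟨⟨⟨c, d⟩, by rwa [mem_preimage, m]⟩, r⟩, m⟩

end gen

variable {n D r m : ℕ} {X : Mf n} {W : Mf D} (c : Chart n X.X) (e : Chart D W.X)
  (f : W.X → Cm r) (g : Fin m → (X.prod W).X → ℂ)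

/-- from the coordinates to the product -/
def Φ (ξ : Cm D × Cm n × Cm r) : (X.prod W).X := X.pair W (c.symm ξ.2.1) (e.symm ξ.1)

/-- from the product to the coordinates -/
def Ψ (q : (X.prod W).X) : Cm D × Cm n × Cm r :=
  (e (X.p2 W q), c (X.p1 W q), f (X.p2 W q))

/-- the equations -/
def Rw : Fin m ⊕ Fin r → Cm D × Cm n × Cm r → ℂ :=
  Sum.elim (fun i ξ => g i (Φ c e ξ)) fun j ξ => ξ.2.2 j - f (e.symm ξ.1) j

/-- the good points -/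
structure Gd (Γ : Set (X.prod W).X) (q : (X.prod W).X) : Prop where
  c : At c (X.p1 W q)
  e : At e (X.p2 W q)
  f : AnV D f (X.p2 W q)
  hol : ∀ l, Hol (n + D) (g l) q
  mem : q ∈ Γ ↔ ∀ l, g l q = 0
  car : ∀ h, Hol (n + D) h q → (∀ᶠ z in 𝓝 q, z ∈ Γ → h z = 0) →
    ∃ d : Fin m → (X.prod W).X → ℂ, (∀ k, Hol (n + D) (d k) q) ∧
      ∀ᶠ z in 𝓝 q, h z = ∑ k, d k z * g k z

variable {c e f g} {Γ : Set (X.prod W).X} {q : (X.prod W).X} {ξ : Cm D × Cm n × Cm r}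

theorem Gd.ΦΨ (h : Gd c e f g Γ q) : Φ c e (Ψ c e f q) = q :=
  prod_ext (c.left_inv h.c.2) (e.left_inv h.e.2)

theorem an_Φ (hc : At c (X.p1 W (Φ c e ξ))) (he : At e (X.p2 W (Φ c e ξ))) (h1 : ξ.1 ∈ e.target)
    (h2 : ξ.2.1 ∈ c.target) {h : (X.prod W).X → ℂ} (hh : Hol (n + D) h (Φ c e ξ)) :
    AnalyticAt ℂ (fun ζ => h (Φ c e ζ)) ξ := by
  have k : AnalyticAt ℂ (fun ζ : Cm D × Cm n × Cm r => Prod.glue ζ.2.1 ζ.1) ξ :=
    (contDiff_glue (contDiffAt_snd.fst) contDiffAt_fst).analyticAt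
  have k' := (hh _ (at_prod' hc he)).comp_of_eq k (by
    rw [Φ, pc_pair, c.right_inv h2, e.right_inv h1])
  simp only [Function.comp_def, pc_symm, fstP_glue, sndP_glue] at k'
  exact k'

theorem cont_Φ (h1 : ξ.1 ∈ e.target) (h2 : ξ.2.1 ∈ c.target) : ContinuousAt (Φ c e) ξ :=
  ContinuousAt.prodMk (ContinuousAt.comp (f := fun ζ : Cm D × Cm n × Cm r => ζ.2.1)
    (c.continuousAt_symm h2) continuousAt_snd.fst)
    ((e.continuousAt_symm h1).comp continuousAt_fst)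

theorem Gd.anΨ (h : Gd c e f g Γ q) : AnV (n + D) (Ψ c e f) q :=
  ((hol_p2.at q).anV h.e).prod (((hol_p1.at q).anV h.c).prod
    (.pi fun a => (hol_p2.at q).hol (h.f.hol a)))

theorem Gd.t1 (h : Gd c e f g Γ q) : (Ψ c e f q).1 ∈ e.target := e.map_source h.e.2

theorem Gd.t2 (h : Gd c e f g Γ q) : (Ψ c e f q).2.1 ∈ c.target := c.map_source h.c.2

theorem an_F (h : Gd c e f g Γ (Φ c e ξ)) (h1 : ξ.1 ∈ e.target) :
    AnalyticAt ℂ (fun z => f (e.symm z)) ξ.1 := by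
  have := h.f e h.e
  rwa [Φ, p2_pair, e.right_inv h1] at this

theorem an_Rw (h : Gd c e f g Γ (Φ c e ξ)) (h1 : ξ.1 ∈ e.target) (h2 : ξ.2.1 ∈ c.target) :
    ∀ i, AnalyticAt ℂ (Rw c e f g i) ξ
  | .inl i => an_Φ h.c h.e h1 h2 (h.hol i)
  | .inr j => (analyticAt_pi_iff.1 (analyticAt_snd.fun_comp analyticAt_snd) j).sub
      (analyticAt_pi_iff.1 ((an_F h h1).fun_comp analyticAt_fst) j)

theorem zs_iff (h : Gd c e f g Γ (Φ c e ξ)) :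
    (∀ i, Rw c e f g i ξ = 0) ↔ Φ c e ξ ∈ Γ ∧ f (e.symm ξ.1) = ξ.2.2 :=
  Sum.forall.trans (and_congr h.mem.symm
    ⟨fun k => funext fun j => (sub_eq_zero.1 (k j)).symm, fun k j => sub_eq_zero.2 (congrFun k j).symm⟩)

theorem zs_Ψ (h : Gd c e f g Γ q) (k : q ∈ Γ) : ∀ i, Rw c e f g i (Ψ c e f q) = 0 :=
  (zs_iff (h.ΦΨ.symm ▸ h)).2 ⟨h.ΦΨ.symm ▸ k, congrArg f (e.left_inv h.e.2)⟩

theorem vn_of (hq : ∀ᶠ z in 𝓝 q, Gd c e f g Γ z) {h : Cm D × Cm n × Cm r → ℂ}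
    (k : P277Z.Oka.In (Ψ c e f q) (Rw c e f g) h) :
    ∀ᶠ z in 𝓝 q, z ∈ Γ → h (Ψ c e f z) = 0 := by
  filter_upwards [hq, hq.self_of_nhds.anΨ.cont.eventually k.van] with z a b d
    using b (zs_Ψ a d)

theorem of_vn (hH : HAD) (hq : Gd c e f g Γ q) {h : Cm D × Cm n × Cm r → ℂ}
    (hh : AnalyticAt ℂ h (Ψ c e f q)) (k : ∀ᶠ z in 𝓝 q, z ∈ Γ → h (Ψ c e f z) = 0) :
    P277Z.Oka.In (Ψ c e f q) (Rw c e f g) h := by
  obtain ⟨d, h1, h2⟩ := hq.car (fun z => h (Ψ c e f z)) (hq.anΨ.cmp hh) k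
  have hq' : Gd c e f g Γ (Φ c e (Ψ c e f q)) := hq.ΦΨ.symm ▸ hq
  have hF := an_F hq' hq.t1
  have e0 : f (e.symm (Ψ c e f q).1) = (Ψ c e f q).2.2 := congrArg f (e.left_inv hq.e.2)
  have h3 : P277Z.Oka.In (Ψ c e f q) (Rw c e f g) fun ξ => h (ξ.1, ξ.2.1, f (e.symm ξ.1)) := by
    refine (P277Z.Oka.In.sum Finset.univ fun i _ => (P277Z.Oka.In.self _ _ (Sum.inl i)).mul
      (an_Φ hq'.c hq'.e hq.t1 hq.t2 (hq.ΦΨ.symm ▸ h1 i))).congr ?_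
    have ht := (cont_Φ hq.t1 hq.t2).tendsto
    rw [hq.ΦΨ] at ht
    filter_upwards [ht.eventually h2,
      continuousAt_fst.eventually (e.open_target.mem_nhds hq.t1),
      continuousAt_snd.fst.eventually (c.open_target.mem_nhds hq.t2)] with ξ a b d
    refine a.symm.trans (congrArg h ?_)
    rw [Ψ, Φ, p1_pair, p2_pair, e.right_inv b, c.right_inv d]
  have hF' : AnalyticAt ℂ (fun ζ : Cm r × Cm D × Cm n => f (e.symm ζ.2.1))
      (0, (Ψ c e f q).1, (Ψ c e f q).2.1) :=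
    hF.comp_of_eq (analyticAt_fst.fun_comp analyticAt_snd) rfl
  have h4 := hH (Cm D × Cm n) r (fun ζ => h (ζ.2.1, ζ.2.2, ζ.1 + f (e.symm ζ.2.1)) -
    h (ζ.2.1, ζ.2.2, f (e.symm ζ.2.1))) 0 ((Ψ c e f q).1, (Ψ c e f q).2.1)
    ((hh.comp_of_eq ((analyticAt_fst.fun_comp analyticAt_snd).prod
      ((analyticAt_snd.fun_comp analyticAt_snd).prod (analyticAt_fst.add hF')))
        (by simp only [Pi.add_apply, zero_add, e0])).sub
      (hh.comp_of_eq ((analyticAt_fst.fun_comp analyticAt_snd).prod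
        ((analyticAt_snd.fun_comp analyticAt_snd).prod hF')) (by simp only [e0])))
    (.of_forall fun s => by simp)
  have h5 := (h4.comp (Φ := fun ξ : Cm D × Cm n × Cm r => (ξ.2.2 - f (e.symm ξ.1), ξ.1, ξ.2.1))
    (x' := Ψ c e f q) (((analyticAt_snd.fun_comp analyticAt_snd).sub
      (hF.fun_comp analyticAt_fst)).prod (analyticAt_fst.prod
        (analyticAt_fst.fun_comp analyticAt_snd))) (by simp only [e0, sub_self])).trans
    fun j => (P277Z.Oka.In.self _ (Rw c e f g) (.inr j)).congr (.of_forall fun ξ => by simp [Rw])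
  exact (h5.add h3).congr (.of_forall fun ξ => by simp)

/-- the choice of the sets -/
structure Ch (c : Chart n X.X) (e : Chart D W.X) (f : W.X → Cm r) (g : Fin m → (X.prod W).X → ℂ)
    (Γ A : Set (X.prod W).X) (x₀ : Cm D × Cm n × Cm r) (O' : Set (Cm D × Cm n × Cm r))
    (U : Set X.X) (O : Set W.X) (Δ : Set (Cm r)) : Prop where
  oA : IsOpen A
  gd : ∀ q ∈ A, Gd c e f g Γ q
  sub : ∀ ξ ∈ O', ξ.1 ∈ e.target ∧ ξ.2.1 ∈ c.target ∧ Φ c e ξ ∈ A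
  mem : ∀ y ∈ U, ∀ w ∈ O, ∀ t ∈ Δ, (e w, c y, t) ∈ O' ∧ X.pair W y w ∈ A
  base : ∀ w ∈ O, (e w, x₀.2) ∈ O'
  src : ∀ y ∈ U, At c y
  om : ∀ y ∈ U, ∀ t ∈ Δ, ∃ z, (z, c y, t) ∈ O'
  back : ∀ y ∈ U, ∀ t ∈ Δ, ∀ ξ ∈ O', ξ ∈ Sp (fun i (_ : Unit) => Rw c e f g i) → ξ.2 = (c y, t) →
    e.symm ξ.1 ∈ O

variable {A : Set (X.prod W).X} {x₀ : Cm D × Cm n × Cm r} {O' : Set (Cm D × Cm n × Cm r)}
  {U : Set X.X} {O : Set W.X} {Δ : Set (Cm r)} {Ω : Set (Cm n × Cm r)} {k l : ℕ}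
  {ε : Fin k → Unit → Cm D × Cm n × Cm r → ℂ} {G : Fin l → Fin k → Cm n × Cm r → ℂ}
  (H : Ch c e f g Γ A x₀ O' U O Δ) (P : Psh Prod.snd (fun i _ => Rw c e f g i) x₀ O' Ω ε G)
  {y : X.X} {t : Cm r} (hy : y ∈ U) (ht : t ∈ Δ)

include H hy ht

theorem Ch.fw {w : W.X} (hw : w ∈ O) (hf : f w = t) : Ψ c e f (X.pair W y w) ∈ O' ∧
    (Ψ c e f (X.pair W y w)).2 = (c y, t) ∧ ∀ᶠ z in 𝓝 (X.pair W y w), Gd c e f g Γ z :=
  ⟨show (e w, c y, f w) ∈ O' from hf.symm ▸ (H.mem y hy w hw t ht).1,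
    show (c y, f w) = (c y, t) from by rw [hf],
    (H.oA.eventually_mem (H.mem y hy w hw t ht).2).mono H.gd⟩

theorem Ch.phi (h2 : ξ.2 = (c y, t)) : Φ c e ξ = X.pair W y (e.symm ξ.1) := by
  rw [Φ, h2, c.left_inv (H.src y hy).2]

theorem Ch.bw (h1 : ξ ∈ O') (h2 : ξ.2 = (c y, t)) (h3 : ∀ i, Rw c e f g i ξ = 0) :
    e.symm ξ.1 ∈ O ∧ f (e.symm ξ.1) = t ∧ e.symm ξ.1 ∈ fib Γ y ∧
      Ψ c e f (X.pair W y (e.symm ξ.1)) = ξ := by
  obtain ⟨a, b⟩ := (zs_iff (H.gd _ (H.sub ξ h1).2.2)).1 h3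
  rw [H.phi hy ht h2] at a
  rw [h2] at b
  exact ⟨H.back y hy t ht ξ h1 (sp_iff.2 h3) h2, b, a,
    Prod.ext (e.right_inv (H.sub ξ h1).1) (h2 ▸ Prod.ext rfl b)⟩

include P

theorem Ch.inΩ : (c y, t) ∈ Ω :=
  let ⟨_, h⟩ := H.om y hy t ht
  P.maps h

theorem Ch.pp (hH : HAD) (hε : ∀ a i x x', x.1 = x'.1 → ε a i x = ε a i x') :
    PP Γ c O f y t (fun a w => ε a () (e w, x₀.2)) G := by
  have hz := H.inΩ P hy ht
  have hc : ∀ v : Fin k → Cm n × Cm r → ℂ, cmb c f (fun a w => ε a () (e w, x₀.2)) v =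
      fun z => ∑ a, v a (Ψ c e f z).2 * ε a () (Ψ c e f z) := fun v => funext fun z =>
    Finset.sum_congr rfl fun a _ => congrArg _ (hε a () _ _ rfl)
  have hg : ∀ w ∈ O, Gd c e f g Γ (X.pair W y w) := fun w a => H.gd _ (H.mem y hy w a t ht).2
  refine ⟨H.src y hy, fun w a _ => (hg w a).f, fun i w a _ => AnV.cmp (G := ε i ())
    ((anV_chart (hg w a).e).prod (anV_const _ _)) (P.ane i () _ (H.base w a)),
    fun i j => P.anG' i j _ hz, ((P.fin _ hz).image fun ξ => e.symm ξ.1).subset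
      fun w ⟨a, b, d⟩ => ⟨_, ⟨(H.fw hy ht a b).1, sp_iff.2 (zs_Ψ (hg w a) d), (H.fw hy ht a b).2.1⟩,
        e.left_inv (hg w a).e.2⟩, fun v hv => ?_, fun u hu => ?_⟩
  · rw [(P.pres _ hz).rel v hv, hc]
    refine ⟨fun h w a b => vn_of (H.fw hy ht a b).2.2
      (inV_iff.1 (h _ (H.fw hy ht a b).1 (H.fw hy ht a b).2.1)), fun h ξ a b => inV_iff.2 ?_⟩
    have h1 : AnalyticAt ℂ (fun ζ : Cm D × Cm n × Cm r => ∑ a, v a ζ.2 * ε a () ζ) ξ :=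
      Finset.analyticAt_fun_sum _ fun i _ =>
        ((hv i).comp_of_eq analyticAt_snd b).mul (P.ane i () ξ a)
    by_cases d : ∀ i, Rw c e f g i ξ = 0
    · obtain ⟨k1, k2, -, k3⟩ := H.bw hy ht a b d
      rw [← k3] at h1 ⊢
      exact of_vn hH (hg _ k1) h1 (h _ k1 k2)
    · exact in_of (fun i => P.anG i () ξ a) d h1
  classical
  obtain ⟨v, h1, h2⟩ := (P.pres _ hz).sur (fun ξ _ => if e.symm ξ.1 ∈ O ∧ f (e.symm ξ.1) = t then
    fun ζ => u (e.symm ξ.1) (Φ c e ζ) else fun _ => 0) fun ξ a b _ => by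
      split_ifs with d
      · have m := H.gd _ (H.sub ξ a).2.2
        exact an_Φ m.c m.e (H.sub ξ a).1 (H.sub ξ a).2.1 (H.phi hy ht b ▸ hu _ d.1 d.2)
      · exact analyticAt_const
  refine ⟨v, h1, fun w a b => ?_⟩
  obtain ⟨k1, k2, k3⟩ := H.fw hy ht a b
  have k4 := vn_of k3 (inV_iff.1 (h2 _ k1 k2))
  have k5 : e.symm (Ψ c e f (X.pair W y w)).1 = w := e.left_inv (hg w a).e.2
  simp only [k5, a, b, and_self, if_true] at k4
  rw [hc]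
  filter_upwards [k3, k4] with z m1 m2 m3
  rw [← m2 m3, m1.ΦΨ]

theorem Ch.prp (oU : IsOpen U) (oΔ : IsOpen Δ) {N : Set W.X} (hN : IsOpen N)
    (h : ∀ w ∈ O, f w = t → w ∈ fib Γ y → w ∈ N) :
    ∀ᶠ q in 𝓝 (y, t), ∀ w ∈ O, f w = q.2 → w ∈ fib Γ q.1 → w ∈ N := by
  have h1 := tube P (H.inΩ P hy ht) ((e.symm.isOpen_inter_preimage hN).preimage continuous_fst)
    fun ξ a b d => by
      obtain ⟨k1, k2, k3, -⟩ := H.bw hy ht a d (sp_iff.1 b)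
      exact ⟨(H.sub ξ a).1, h _ k1 k2 k3⟩
  have h2 : ContinuousAt (fun q : X.X × Cm r => (c q.1, q.2)) (y, t) :=
    ((c.continuousAt (H.src y hy).2).comp_of_eq continuousAt_fst rfl).prodMk continuousAt_snd
  filter_upwards [h2.eventually h1, (oU.prod oΔ).mem_nhds (mk_mem_prod hy ht)] with q a b w d m s
  obtain ⟨k1, k2, k3⟩ := H.fw b.1 b.2 d m
  have k4 : e.symm (e w) ∈ N := (a _ k1 (sp_iff.2 (zs_Ψ k3.self_of_nhds s)) k2).2
  rwa [e.left_inv (show w ∈ e.source from k3.self_of_nhds.e.2)] at k4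

end Bx

open Bx in
theorem box_of (hH : HAD) (hF : FIN) : BOX := by
  intro n D X W Γ hΓ r y w f hf ⟨N₁, hN₁, hc⟩ N hN
  obtain ⟨c, hc₀⟩ : ∃ c : Chart n X.X, At c y := ⟨_, at_chart y⟩
  obtain ⟨e, he⟩ : ∃ e : Chart D W.X, At e w := ⟨_, at_chart w⟩
  obtain ⟨m, g, hg⟩ := Rs.car_man (hΓ (X.pair W y w))
  have t1 : Tendsto (X.p1 W) (𝓝 (X.pair W y w)) (𝓝 y) := cont_p1.tendsto _
  have t2 : Tendsto (X.p2 W) (𝓝 (X.pair W y w)) (𝓝 w) := cont_p2.tendsto _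
  obtain ⟨A, a1, a2, a3⟩ := eventually_nhds_iff.1 (show ∀ᶠ q in 𝓝 (X.pair W y w),
      Gd c e f g Γ q ∧ X.p2 W q ∈ N ∩ N₁ by
    filter_upwards [hg, t1.eventually (at_near hc₀), t2.eventually (at_near he),
      t2.eventually (eventually_all.2 fun a => (hf.hol a).near), t2.eventually (inter_mem hN hN₁)]
      with q k1 k2 k3 k4 k5 using ⟨⟨k2, k3, .pi k4, k1.1, k1.2.1, k1.2.2⟩, k5⟩)
  have g0 := (a1 _ a3).1
  have n0 : {ξ : Cm D × Cm n × Cm r | ξ.1 ∈ e.target ∧ ξ.2.1 ∈ c.target ∧ Φ c e ξ ∈ A} ∈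
      𝓝 (Ψ c e f (X.pair W y w)) :=
    (continuousAt_fst.eventually (e.open_target.mem_nhds g0.t1)).and
      ((continuousAt_snd.fst.eventually (c.open_target.mem_nhds g0.t2)).and
        ((cont_Φ g0.t1 g0.t2).eventually (a2.mem_nhds (g0.ΦΨ.symm ▸ a3))))
  obtain ⟨O', Ω, k, l, ε, G, b1, P, hε⟩ := hF (Cm n × Cm r) D _ Unit
    (fun i _ => Rw c e f g i) (Ψ c e f (X.pair W y w))
    (fun i _ => an_Rw (g0.ΦΨ.symm ▸ g0) g0.t1 g0.t2 i) ⟨_, n0,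
      (hc.image fun x => Ψ c e f (X.pair W y x)).mono fun ξ ⟨k1, k2, k3⟩ => by
        have k4 : ξ.2 = (c y, f w) := k3
        have k5 : Φ c e ξ = X.pair W y (e.symm ξ.1) := by rw [Φ, k4, c.left_inv hc₀.2]
        obtain ⟨k6, k7⟩ := (zs_iff (a1 _ k1.2.2).1).1 (sp_iff.1 k2)
        rw [k4] at k7
        exact ⟨e.symm ξ.1, ⟨(a1 _ k1.2.2).2.2, k7, show X.pair W y _ ∈ Γ from k5 ▸ k6⟩,
          Prod.ext (e.right_inv k1.1) (k4 ▸ Prod.ext rfl k7)⟩⟩ _ n0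
  have c1 : ContinuousAt (fun q : X.X × Cm r => (c q.1, q.2)) (y, f w) :=
    ((c.continuousAt hc₀.2).comp_of_eq continuousAt_fst rfl).prodMk continuousAt_snd
  have c2 : ContinuousAt (fun s : W.X × X.X × Cm r => (e s.1, c s.2.1, s.2.2)) (w, y, f w) :=
    ((e.continuousAt he.2).comp_of_eq continuousAt_fst rfl).prodMk
      (c1.comp_of_eq continuousAt_snd rfl)
  have c3 : ContinuousAt (fun s : W.X × X.X × Cm r => X.pair W s.2.1 s.1) (w, y, f w) :=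
    continuousAt_snd.fst.prodMk continuousAt_fst
  obtain ⟨O₁, V, d1, d2, d3, d4, d5⟩ := mem_nhds_prod_iff'.1
    ((c2.eventually (P.opn.mem_nhds P.mem)).and (c3.eventually (a2.mem_nhds a3)))
  have h1 := tube P (P.maps P.mem) ((e.symm.isOpen_inter_preimage d1).preimage continuous_fst)
    fun ξ k1 k2 k3 => by
      rw [P.one ξ k1 k2 k3]
      exact ⟨g0.t1, show e.symm (e w) ∈ O₁ from (e.left_inv he.2).symm ▸ d2⟩
  obtain ⟨U, Δ₀, f1, f2, f3, f4, f5⟩ := mem_nhds_prod_iff'.1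
    ((c1.eventually h1).and (d3.eventually_mem d4))
  obtain ⟨ρ, hρ, f6⟩ := Metric.isOpen_iff.1 f3 _ f4
  have hV : ∀ y' ∈ U, ∀ t ∈ Metric.ball (f w) ρ, ∀ w' ∈ O₁,
      (e w', c y', t) ∈ O' ∧ X.pair W y' w' ∈ A := fun y' k1 t k2 w' k3 =>
    d5 (mk_mem_prod k3 (f5 (mk_mem_prod k1 (f6 k2))).2)
  have h0 := Metric.mem_ball_self (x := f w) hρ
  have H : Ch c e f g Γ A (Ψ c e f (X.pair W y w)) O' U (O₁ ∩ f ⁻¹' Metric.ball (f w) ρ)
      (Metric.ball (f w) ρ) :=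
    ⟨a2, fun q k => (a1 q k).1, fun ξ k => b1 k, fun y' k1 w' k2 t k3 => hV y' k1 t k3 w' k2.1,
      fun w' k => (hV y f2 _ h0 w' k.1).1, fun y' k => (a1 _ (hV y' k _ h0 w d2).2).1.c,
      fun y' k1 t k2 => ⟨_, (hV y' k1 t k2 w d2).1⟩, fun y' k1 t k2 ξ k3 k4 k5 =>
        ⟨((f5 (mk_mem_prod k1 (f6 k2))).1 ξ k3 k4 k5).2, by
          rw [mem_preimage, ((zs_iff (a1 _ (b1 k3).2.2).1).1 (sp_iff.1 k4)).2, k5]
          exact k2⟩⟩
  exact ⟨⟨c, U, O₁ ∩ f ⁻¹' Metric.ball (f w) ρ, f, Metric.ball (f w) ρ, k, l, _, G⟩,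
    ⟨f1, ContinuousOn.isOpen_inter_preimage (fun w' k =>
      (a1 _ (hV y f2 _ h0 w' k).2).1.f.cont.continuousWithinAt) d1 Metric.isOpen_ball,
      Metric.isOpen_ball, (convex_ball _ _).isConnected ⟨_, h0⟩, fun _ k => k.2,
      fun y' k1 t k2 => H.pp P k1 k2 hH hε,
      fun y' k1 t k2 N' k3 k4 => H.prp P k1 k2 f1 Metric.isOpen_ball k3 k4⟩,
    rfl, f2, ⟨d2, h0⟩, fun w' k => (a1 _ (hV y f2 _ h0 w' k.1).2).2.1⟩

end Vale.Agent.P281Z.El
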