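import Vale.Agent.P281Z.El.Sk

/-!
# P281Z, elimination of indeterminacy: bases of the local rings of the fibres
-/

open scoped Manifold ContDiff Topology
open Set Filter
open Vale.Agent.P272.K
open Vale.Agent.P277Z (Hol Nz at_chart hol_const)

noncomputable section

namespace Vale.Agent.P281Z.El

namespace Bsp

variable {n D r k : ℕ} {X : Mf n} {W : Mf D} {Γ : Set (X.prod W).X} {c : Chart n X.X}
  {f : W.X → Cm r} {y : X.X} {w : W.X}

theorem anV_two (hc : At c y) (hf : AnV D f w) :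
    AnV (n + D) (fun z : (X.prod W).X => (c (X.p1 W z), f (X.p2 W z))) (X.pair W y w) :=
  ((hol_p1.at (X.pair W y w)).anV hc).prod
    (AnV.pi fun a => (hol_p2.at (X.pair W y w)).hol (a := fun x => f x a) (hf.hol a))

theorem hol_two (hc : At c y) (hf : AnV D f w) {v : Cm n × Cm r → ℂ}
    (hv : AnalyticAt ℂ v (c y, f w)) :
    Hol (n + D) (fun z : (X.prod W).X => v (c (X.p1 W z), f (X.p2 W z))) (X.pair W y w) :=
  (anV_two hc hf).cmp (G := v) hv

theorem hol_cmb (hc : At c y) (hf : AnV D f w) {e : Fin k → W.X → ℂ} (he : ∀ i, Hol D (e i) w)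
    {v : Fin k → Cm n × Cm r → ℂ} (hv : ∀ i, AnalyticAt ℂ (v i) (c y, f w)) :
    Hol (n + D) (cmb c f e v) (X.pair W y w) :=
  Hol.sum _ fun i _ => (hol_two hc hf (hv i)).mul ((hol_p2.at (X.pair W y w)).hol (he i))

/-- division at one point of the fibre -/
theorem sur_one {l : ℕ} {O : Set W.X} {e : Fin k → W.X → ℂ} {G : Fin l → Fin k → Cm n × Cm r → ℂ}
    (P : PP Γ c O f y (f w) e G) (hw : w ∈ O) {u : (X.prod W).X → ℂ}
    (hu : Hol (n + D) u (X.pair W y w)) :
    ∃ v : Fin k → Cm n × Cm r → ℂ, (∀ i, AnalyticAt ℂ (v i) (c y, f w)) ∧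
      Vn Γ y w fun z => u z - cmb c f e v z := by
  classical
  obtain ⟨v, h1, h2⟩ := P.sur (fun x => if x = w then u else fun _ => 0) fun x _ _ => by
    by_cases h : x = w
    · rw [if_pos h, h]; exact hu
    · rw [if_neg h]; exact hol_const _ _
  refine ⟨v, h1, ?_⟩
  simpa only [if_pos] using h2 w hw rfl

/-- a function which vanishes on the slice -/
theorem had_two (H : HAD) (hc : At c y) {u : (X.prod W).X → ℂ} (hu : Hol (n + D) u (X.pair W y w))
    (h0 : ∀ᶠ x in 𝓝 w, u (X.pair W y x) = 0) :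
    ∃ h : Fin n → (X.prod W).X → ℂ, (∀ p, Hol (n + D) (h p) (X.pair W y w)) ∧
      ∀ᶠ z in 𝓝 (X.pair W y w), u z = ∑ p, h p z * (c (X.p1 W z) p - c y p) := by
  have hε := at_chart (n := D) w
  set ε := chartAt (Cm D) w
  have h1 : AnalyticAt ℂ (fun q : Cm n × Cm D => u (X.pair W (c.symm q.1) (ε.symm q.2))) (c y, ε w) := by
    have k1 := hu _ (at_prod hc hε)
    have k2 : AnalyticAt ℂ (fun q : Cm n × Cm D => Prod.glue q.1 q.2) (c y, ε w) :=
      (Prod.contDiff_glue contDiffAt_fst contDiffAt_snd).analyticAt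
    refine (AnalyticAt.fun_comp (f := fun q : Cm n × Cm D => Prod.glue q.1 q.2) k1 k2).congr
      (.of_forall fun q => ?_)
    simp only [pc_symm, Prod.fstP_glue, Prod.sndP_glue]
  obtain ⟨a, h2, h3⟩ := H (Cm D) n _ (c y) (ε w) h1 (by
    filter_upwards [at_ev hε h0] with s hs
    simpa only [hc.left_inv] using hs)
  have h4 := anV_two (X := X) (W := W) hc (anV_chart hε)
  refine ⟨fun p z => a p (c (X.p1 W z), ε (X.p2 W z)), fun p => hol_two hc (anV_chart hε) (h2 p), ?_⟩
  filter_upwards [h4.cont.eventually h3, cont_p1.continuousAt.eventually (at_near hc),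
    cont_p2.continuousAt.eventually (at_near hε)] with z k1 k2 k3
  simpa only [k2.left_inv, k3.left_inv, pair_eta] using k1

theorem slice {t : Cm r} {P : Cm n × Cm r → Prop} {x : Cm n} (h : ∀ᶠ z in 𝓝 (x, t), P z) :
    ∀ᶠ s in 𝓝 t, P (x, s) := (Continuous.prodMk_right x).continuousAt.eventually h

end Bsp

open Bsp

theorem bsp_of (H : HAD) : BSP := by
  intro n D X W Γ hΓ r k l c O f y w e G P hG hw one
  have hf := P.anf w hw rfl
  have he := fun i => P.hol i w hw rfl
  refine ⟨he, fun g hg => ?_, fun a ha ⟨h, h1, h2, h3⟩ i => ?_⟩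
  · have hg' : Hol (n + D) (fun z => g (X.p2 W z)) (X.pair W y w) := (hol_p2.at _).hol hg
    obtain ⟨v, h1, h2⟩ := sur_one P hw hg'
    exact ⟨fun i s => v i (c y, s), fun i => (h1 i).comp_of_eq (analyticAt_const.prod analyticAt_id) rfl,
      _, hg'.sub (hol_cmb P.atc hf he h1), h2, .of_forall fun _ => rfl⟩
  · have ha' : ∀ i, AnalyticAt ℂ (fun q : Cm n × Cm r => a i q.2) (c y, f w) := fun i =>
      (ha i).comp_of_eq analyticAt_snd rfl
    obtain ⟨g, h4, h5⟩ := had_two H P.atc (h1.sub (hol_cmb P.atc hf he ha'))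
      (h3.mono fun x hx => sub_eq_zero.2 hx.symm)
    choose v h6 h7 using fun p => sur_one P hw (h4 p)
    obtain ⟨b, -, h8⟩ := (P.rel (fun i q => a i q.2 + ∑ p, (q.1 p - c y p) * v p i q) fun i =>
      (ha' i).fun_add (Finset.analyticAt_fun_sum _ fun p _ =>
        ((analyticAt_pi_iff.1 analyticAt_fst p).fun_sub analyticAt_const).fun_mul (h6 p i))).2
      fun x hx hx' => by
        by_cases hxw : x = w
        · subst hxw
          filter_upwards [h2, h5, eventually_all.2 h7] with z k1 k2 k3 hz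
          have k4 : ∀ p, g p z = cmb c f e (v p) z := fun p => sub_eq_zero.1 (k3 p hz)
          rw [k1 hz, zero_sub, neg_eq_iff_add_eq_zero] at k2
          refine Eq.trans ?_ k2
          simp only [k4, cmb, add_mul, Finset.sum_add_distrib, Finset.sum_mul]
          rw [Finset.sum_comm]
          exact congrArg _ (Finset.sum_congr rfl fun _ _ => Finset.sum_congr rfl fun _ _ => by ring)
        · filter_upwards [hΓ.closed.isOpen_compl.mem_nhds fun k => hxw (one x hx hx' k)] with z k1 hz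
          exact (k1 hz).elim
    filter_upwards [slice h8, eventually_all.2 fun j => hG j i] with s k1 k2
    simpa [k2] using k1 i

theorem bas_of (h1 : GENR) (h2 : NF) (h3 : BSP) : BAS := by
  intro n D X W Γ hΓ r b y hb hy w hw ht one
  obtain ⟨ι, G, P, k1, -⟩ := h2 n D X W Γ hΓ r b y hb hy _ ht
  have k2 := ((h1 n D X W Γ hΓ r b y hb hy).2.2.2.2 _).1 le_rfl
  refine ⟨_, h3 n D X W Γ hΓ r _ _ _ _ _ y w _ G P (fun i j => ?_) hw one⟩
  filter_upwards [slice (k1 i j).van, hb.oΔ.mem_nhds ht.1] with s k3 k4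
  exact k3 fun q => k2 q s k4

end Vale.Agent.P281Z.El
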