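import Vale.Agent.P281Z.El.Tv
import Vale.Agent.P281Z.Mf.An

/-!
# P281Z, elimination of indeterminacy: generic flatness gives the condition on the minors
-/

open scoped Manifold ContDiff Topology
open Set Filter Function
open Vale.Agent.P272.K
open Vale.Agent.P277Z (Hol)
open Vale.Agent.P277.H762 (Cv not_cv_nhds)

noncomputable section

namespace Vale.Agent.P281Z.El

namespace Can1H

section top

variable {T : Type} [TopologicalSpace T] {t : T}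

/-- the interior of the set defined by `P` is dense near `t` -/
def DN (t : T) (P : T → Prop) : Prop := ∀ᶠ s in 𝓝 t, ∃ᶠ s' in 𝓝 s, ∀ᶠ s'' in 𝓝 s', P s''

theorem DN.and {P Q : T → Prop} (hP : DN t P) (hQ : DN t Q) : DN t fun s => P s ∧ Q s := by
  filter_upwards [hP, hQ.eventually_nhds] with s h1 h2
  rw [frequently_iff] at h1 ⊢
  intro U hU
  obtain ⟨s', k1, k2⟩ := h1 (inter_mem (interior_mem_nhds.2 hU) h2.eventually_nhds)
  have k3 : ∀ᶠ u in 𝓝 s', u ∈ U := mem_interior_iff_mem_nhds.1 k1.1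
  have k4 : ∀ᶠ u in 𝓝 s', ∃ᶠ s' in 𝓝 u, ∀ᶠ s'' in 𝓝 s', Q s'' := k1.2
  obtain ⟨u, l1, l2, l3⟩ := (k4.self_of_nhds.and_eventually (k3.and k2.eventually_nhds)).exists
  exact ⟨u, l2, l3.and l1⟩

theorem DN.all {ι : Type} {I : Set ι} (hI : I.Finite) {P : ι → T → Prop}
    (h : ∀ i ∈ I, DN t (P i)) : DN t fun s => ∀ i ∈ I, P i s := by
  induction I, hI using Set.Finite.induction_on with
  | empty => exact .of_forall fun _ => .of_forall fun _ => .of_forall fun _ _ h => h.elim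
  | insert _ _ ih =>
    have h1 := (h _ (mem_insert _ _)).and (ih fun i hi => h i (mem_insert_of_mem _ hi))
    refine h1.mono fun _ k => k.mono fun _ k => k.mono fun _ k i hi => ?_
    rcases hi with rfl | hi
    · exact k.1
    · exact k.2 i hi

theorem DN.freq {P : T → Prop} (h : DN t P) : ∃ᶠ s in 𝓝 t, P s :=
  h.self_of_nhds.mono fun _ k => k.self_of_nhds

end top

theorem fl_off {n D : ℕ} {X : Mf n} {W : Mf D} {Γ : Set (X.prod W).X} (h : An (n + D) Γ) {y : X.X}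
    {w : W.X} (hw : w ∉ fib Γ y) {ι : Type} [Fintype ι] (a : ι → X.X → ℂ) : Fl Γ y w a := by
  intro m α g c _ _ _ _
  have h1 : ∀ᶠ z in 𝓝 (X.pair W y w), z ∉ Γ := h.closed.isOpen_compl.mem_nhds hw
  exact ⟨0, Fin.elim0, Fin.elim0, fun l => l.elim0, fun l => l.elim0, fun l => l.elim0,
    fun _ => h1.mono fun _ k k' => (k k').elim⟩

variable {n D d : ℕ} {X₀ : Mf n} {W : Mf D} {L : Lab X₀ W d} {S : Sg X₀ W}

theorem sheet (hL : L.Ok) (hS : L.Ad S) {y : S.X.X} {v : L.V.X} (hv : L.Gd S y v)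
    {f : W.X → Cm (d + 1)} (hf : L.Tv f v) {ι : Type} [Fintype ι] {a : ι → S.X.X → ℂ}
    (hG : L.Gen S y a) : ∃ N, IsOpen N ∧ L.j v ∈ N ∧
      DN (f (L.j v)) fun s => ∀ w ∈ N, f w = s → w ∈ fib S.Γ y → Fl S.Γ y w a := by
  obtain ⟨σ, -, -, -, h4⟩ := hf.sec
  obtain ⟨A, hA, oA, mA⟩ := eventually_nhds_iff.1
    (h4.and ((hf.near hL).and ((snc_open_off hL.snc).mem_nhds hv.off)))
  have h5 := (Continuous.prodMk_right (L.g v)).continuousAt.eventually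
    (hL.sheet v hv.off A (oA.mem_nhds mA))
  obtain ⟨N, hN, oN, mN⟩ := eventually_nhds_iff.1 h5
  refine ⟨N, oN, mN, ?_⟩
  have hm : ∀ u ∈ A, L.g u = L.g v →
      map (fun u => f (L.j u)) (𝓝[L.g ⁻¹' {L.g v}] u) = 𝓝 (f (L.j u)) := fun u hu e => by
    rw [← e]
    exact (hA u hu).2.1.map hL
  have hA' : ∀ u ∈ A, ∀ᶠ u' in 𝓝[L.g ⁻¹' {L.g v}] u, u' ∈ A ∧ L.g u' = L.g v := fun u hu =>
    (eventually_nhdsWithin_of_eventually_nhds (oA.mem_nhds hu)).and self_mem_nhdsWithin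
  unfold DN
  rw [← hm v mA rfl, eventually_map]
  filter_upwards [hA' v mA] with u hu
  have hq : ∃ᶠ v' in 𝓝[L.g ⁻¹' {L.g u}] u, ∀ᶠ v'' in 𝓝[L.g ⁻¹' {L.g u}] v',
      Fl S.Γ y (L.j v'') a := hG u ⟨(hA u hu.1).2.2, hu.2 ▸ hv.eq, hv.nm⟩
  rw [hu.2] at hq
  rw [← hm u hu.1 hu.2, frequently_map]
  refine (hq.and_eventually (hA' u hu.1)).mono fun u' k => ?_
  rw [← hm u' k.2.1 k.2.2, eventually_map]
  filter_upwards [k.1, hA' u' k.2.1] with u'' l1 l2 w hw e hw'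
  obtain ⟨v', m1, m2, rfl⟩ := hN w hw (by
    have := hS.sub y hw'
    rwa [← hv.eq] at this)
  have m3 : v' = u'' := by rw [← (hA v' m1).1 m2, e, (hA u'' l2.1).1 l2.2]
  exact m3 ▸ l1

end Can1H

open Can1H

theorem can1_of (hD : DMA) (hR : GENR) (hB : BFL) (hZ : ZER) (hC : CRV) : CAN1 := by
  intro n D d X₀ W L hL S hS y b ι _ a hb hy hT ha hG
  by_cases hyT : S.π y ∈ L.T
  · obtain ⟨b₀, hb₀, -⟩ := hL.ovr.one _ hyT hT
    obtain ⟨-, g1, g2, -⟩ := hR _ _ _ _ _ hS.an _ b y hb hy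
    have hf : ∀ w ∈ b.O, AnV D b.f w := fun w hw => (hb.pp y hy _ (hb.maps hw)).anf w hw rfl
    have hb₁ : L.θ b₀ ∉ L.T' := hb₀ ▸ hT
    have c1 := (hD.img _ _ _ _ _ _ _ (hL.low b₀ hb₁) hb.oO hf).union
      (hC _ _ _ _ _ L hL b₀ b.O b.f hb₁ hb.oO hf)
    obtain ⟨t₁, ht₁⟩ := closure_nonempty_iff.1 (hb.conn.nonempty.mono g2)
    obtain ⟨t₀, ht₀, c2⟩ := not_subset.1 fun k =>
      not_cv_nhds (by simp) (g1.mem_nhds ht₁) (c1.mono k)
    have key : ∀ w, ∃ N, w ∈ {w | w ∈ b.O ∧ b.f w = t₀ ∧ w ∈ fib S.Γ y} → IsOpen N ∧ w ∈ N ∧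
        DN t₀ fun s => ∀ w ∈ N, b.f w = s → w ∈ fib S.Γ y → Fl S.Γ y w a := by
      intro w
      by_cases hw : w ∈ {w | w ∈ b.O ∧ b.f w = t₀ ∧ w ∈ fib S.Γ y}
      · obtain ⟨w1, w2, w3⟩ := hw
        have w4 : w ∈ L.j '' (L.g ⁻¹' {b₀} ∩ off L.G) := by
          by_contra k
          exact c2 (.inl ⟨w, ⟨⟨hb₀ ▸ hS.sub y w3, k⟩, w1⟩, w2⟩)
        obtain ⟨v, ⟨v1, v2⟩, rfl⟩ := w4
        have v3 : L.g v = b₀ := v1
        have v4 : L.Tv b.f v := by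
          by_contra k
          exact c2 (.inr ⟨v, ⟨v3, w1, k⟩, w2⟩)
        obtain ⟨N, k⟩ := sheet hL hS ⟨v2, v3 ▸ hb₀, hT⟩ v4 hG
        exact ⟨N, fun _ => w2 ▸ k⟩
      · exact ⟨∅, fun k => (hw k).elim⟩
    choose N hN using key
    have e1 := (Continuous.prodMk_right y).continuousAt.eventually
      (hb.prp y hy t₀ ht₀.1 (⋃ w ∈ {w | w ∈ b.O ∧ b.f w = t₀ ∧ w ∈ fib S.Γ y}, N w)
        (isOpen_biUnion fun w hw => (hN w hw).1)
        fun w w1 w2 w3 => mem_biUnion (s := {w | w ∈ b.O ∧ b.f w = t₀ ∧ w ∈ fib S.Γ y})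
          ⟨w1, w2, w3⟩ (hN w ⟨w1, w2, w3⟩).2.1)
    obtain ⟨t, t1, t2, t3⟩ := ((DN.all (hb.pp y hy t₀ ht₀.1).fin fun w hw =>
      (hN w hw).2.2).freq.and_eventually (e1.and (g1.mem_nhds ht₀))).exists
    refine (hB _ _ _ _ _ hS.an _ b y hb hy t t3 ι a ha).2 fun w w1 w2 => ?_
    by_cases w3 : w ∈ fib S.Γ y
    · obtain ⟨x, x1, x2⟩ := mem_iUnion₂.1 (t2 w w1 w2 w3)
      exact t1 x x1 w x2 w2 w3
    · exact fl_off hS.an w3 a
  · have h0 : b.k - b.rk y = 0 := hZ _ _ _ _ _ hS.an d b y hb hy (hS.low y hyT)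
    intro q t _
    obtain ⟨i, j, hij, e⟩ := Fintype.exists_ne_map_eq_of_card_lt q.2 (by simp; omega)
    refine ⟨fun _ _ => 0, fun _ _ _ => analyticAt_const, .of_forall fun x => ?_⟩
    simp only [zero_mul, Finset.sum_const_zero]
    exact Matrix.det_zero_of_column_eq hij fun k => by simp only [Matrix.of_apply, e]

end Vale.Agent.P281Z.El
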