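import Vale.Agent.P281Z.El.Sk
import Vale.Agent.P277Z.Oka.Noe

/-!
# P281Z, elimination of indeterminacy: the coefficient lemma
-/

open scoped Topology
open Set Filter
open Vale.Agent.P272.K (Cm)
open Vale.Agent.P277Z.Oka (gm gm_eq_iff gm_congr gm_sum gm_mul gm_sub gm_surj ev0_gm noe)
open Vale.Agent.P298.H941 (O mem_maximalIdeal)

set_option linter.unusedSectionVars false

noncomputable section

namespace Vale.Agent.P281Z.El

namespace Cf

variable {E E' : Type} [NormedAddCommGroup E] [NormedSpace ℂ E] [NormedAddCommGroup E']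
  [NormedSpace ℂ E'] {n : ℕ} {ι κ : Type} [Fintype ι] [Fintype κ]

/-- the germ of `u` is in the power of order `j` of the ideal of the `ξ p` -/
def Od (x : E) (ξ : Fin n → E → ℂ) : ℕ → (E → ℂ) → Prop
  | 0, u => AnalyticAt ℂ u x
  | j + 1, u => ∃ h : Fin n → E → ℂ, (∀ p, Od x ξ j (h p)) ∧ ∀ᶠ z in 𝓝 x, u z = ∑ p, ξ p z * h p z

variable {x : E} {ξ : Fin n → E → ℂ} {j : ℕ} {u u' : E → ℂ}

theorem Od.congr (h : Od x ξ j u) (e : ∀ᶠ z in 𝓝 x, u z = u' z) : Od x ξ j u' := by
  cases j with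
  | zero => exact AnalyticAt.congr h e
  | succ j =>
    obtain ⟨g, hg, k⟩ := h
    exact ⟨g, hg, by filter_upwards [e, k] with z h1 h2 using h1 ▸ h2⟩

theorem Od.zero (x : E) (ξ : Fin n → E → ℂ) (j : ℕ) : Od x ξ j fun _ => 0 := by
  induction j with
  | zero => exact analyticAt_const
  | succ j ih => exact ⟨fun _ _ => 0, fun _ => ih, .of_forall fun z => by simp⟩

theorem Od.add (h : Od x ξ j u) (h' : Od x ξ j u') : Od x ξ j fun z => u z + u' z := by
  induction j generalizing u u' with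
  | zero => exact AnalyticAt.fun_add h h'
  | succ j ih =>
    obtain ⟨g, hg, k⟩ := h
    obtain ⟨g', hg', k'⟩ := h'
    refine ⟨fun p z => g p z + g' p z, fun p => ih (hg p) (hg' p), ?_⟩
    filter_upwards [k, k'] with z h1 h2
    simp only [h1, h2, mul_add, Finset.sum_add_distrib]

theorem Od.mul (h : Od x ξ j u) (h' : AnalyticAt ℂ u' x) : Od x ξ j fun z => u' z * u z := by
  induction j generalizing u with
  | zero => exact h'.fun_mul h
  | succ j ih =>
    obtain ⟨g, hg, k⟩ := h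
    refine ⟨fun p z => u' z * g p z, fun p => ih (hg p), ?_⟩
    filter_upwards [k] with z h1
    simp only [h1, Finset.mul_sum, mul_left_comm]

theorem Od.comp {x' : E'} {Φ : E' → E} (h : Od x ξ j u) (hΦ : AnalyticAt ℂ Φ x') (e : Φ x' = x) :
    Od x' (fun p z => ξ p (Φ z)) j fun z => u (Φ z) := by
  induction j generalizing u with
  | zero => exact AnalyticAt.comp_of_eq h hΦ e
  | succ j ih =>
    obtain ⟨g, hg, k⟩ := h
    exact ⟨fun p z => g p (Φ z), fun p => ih (hg p),
      (e ▸ hΦ.continuousAt.tendsto : Tendsto Φ (𝓝 x') (𝓝 x)).eventually k⟩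

theorem Od.near (h : Od x ξ j u) : ∀ᶠ x' in 𝓝 x, Od x' ξ j u := by
  induction j generalizing u with
  | zero => exact AnalyticAt.eventually_analyticAt h
  | succ j ih =>
    obtain ⟨g, hg, k⟩ := h
    filter_upwards [eventually_all.2 fun p => ih (hg p), k.eventually_nhds] with z h1 h2
      using ⟨g, h1, h2⟩

theorem Od.ana (h : Od x ξ j u) (hξ : ∀ p, AnalyticAt ℂ (ξ p) x) : AnalyticAt ℂ u x := by
  induction j generalizing u with
  | zero => exact h
  | succ j ih =>
    obtain ⟨g, hg, k⟩ := h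
    exact (Finset.analyticAt_fun_sum _ fun p _ => (hξ p).fun_mul (ih (hg p))).congr
      (k.mono fun _ h => h.symm)

theorem Od.mem (h : Od x ξ j u) (hξ : ∀ p, AnalyticAt ℂ (ξ p) x) (h0 : ∀ p, ξ p x = 0) :
    gm x u ∈ IsLocalRing.maximalIdeal (O E) ^ j := by
  induction j generalizing u with
  | zero => simp
  | succ j ih =>
    have ha := h.ana hξ
    obtain ⟨g, hg, k⟩ := h
    rw [gm_congr ha k, gm_sum _ fun p => (hξ p).fun_mul ((hg p).ana hξ), pow_succ']
    refine Ideal.sum_mem _ fun p _ => ?_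
    rw [gm_mul (hξ p) ((hg p).ana hξ)]
    exact Ideal.mul_mem_mul ((mem_maximalIdeal _).2 (by rw [ev0_gm (hξ p), h0])) (ih (hg p))

/-- `v` is a combination of the `G i` up to the order `j` -/
def Md (x : E) (G : ι → κ → E → ℂ) (ξ : Fin n → E → ℂ) (j : ℕ) (v : κ → E → ℂ) : Prop :=
  ∃ c : ι → E → ℂ, (∀ i, AnalyticAt ℂ (c i) x) ∧
    ∀ k, Od x ξ j fun z => v k z - ∑ i, c i z * G i k z

variable {G : ι → κ → E → ℂ} {v v' : κ → E → ℂ}

theorem Md.congr (h : Md x G ξ j v) (e : ∀ k, ∀ᶠ z in 𝓝 x, v k z = v' k z) : Md x G ξ j v' :=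
  let ⟨c, hc, k⟩ := h
  ⟨c, hc, fun a => (k a).congr ((e a).mono fun z hz => by rw [hz])⟩

theorem Md.of_od (h : ∀ k, Od x ξ j (v k)) : Md x G ξ j v :=
  ⟨fun _ _ => 0, fun _ => analyticAt_const, fun k => (h k).congr (.of_forall fun z => by simp)⟩

theorem Md.of_in (h : InV x G v) : Md x G ξ j v :=
  let ⟨c, hc, e⟩ := h
  ⟨c, hc, fun k => (Od.zero x ξ j).congr (e.mono fun z hz => by rw [hz k, sub_self])⟩

theorem Md.add (h : Md x G ξ j v) (h' : Md x G ξ j v') :
    Md x G ξ j fun k z => v k z + v' k z := by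
  obtain ⟨c, hc, e⟩ := h
  obtain ⟨c', hc', e'⟩ := h'
  refine ⟨fun i z => c i z + c' i z, fun i => (hc i).fun_add (hc' i), fun k =>
    ((e k).add (e' k)).congr (.of_forall fun z => ?_)⟩
  simp only [add_mul, Finset.sum_add_distrib]
  ring

theorem Md.mul (h : Md x G ξ j v) (h' : AnalyticAt ℂ u x) :
    Md x G ξ j fun k z => u z * v k z := by
  obtain ⟨c, hc, e⟩ := h
  refine ⟨fun i z => u z * c i z, fun i => h'.fun_mul (hc i), fun k =>
    ((e k).mul h').congr (.of_forall fun z => ?_)⟩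
  simp only [mul_sub, Finset.mul_sum, mul_assoc]

theorem Md.sum {α : Type} (s : Finset α) {w : α → κ → E → ℂ} (h : ∀ a, Md x G ξ j (w a)) :
    Md x G ξ j fun k z => ∑ a ∈ s, w a k z := by
  classical
  induction s using Finset.induction_on with
  | empty => exact .of_od fun _ => Od.zero x ξ j
  | insert a s ha ih =>
    simp only [Finset.sum_insert ha]
    exact (h a).add ih

theorem Md.comp {x' : E'} {Φ : E' → E} (h : Md x G ξ j v) (hΦ : AnalyticAt ℂ Φ x')
    (e : Φ x' = x) :
    Md x' (fun i k z => G i k (Φ z)) (fun p z => ξ p (Φ z)) j fun k z => v k (Φ z) :=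
  let ⟨c, hc, k⟩ := h
  ⟨fun i z => c i (Φ z), fun i => (hc i).comp_of_eq hΦ e, fun a => (k a).comp hΦ e⟩

/-- the intersection theorem of Krull -/
theorem krull [FiniteDimensional ℂ E] (hG : ∀ i k, AnalyticAt ℂ (G i k) x)
    (hv : ∀ k, AnalyticAt ℂ (v k) x) (hξ : ∀ p, AnalyticAt ℂ (ξ p) x) (h0 : ∀ p, ξ p x = 0)
    (h : ∀ j, Md x G ξ j v) : InV x G v := by
  classical
  have := noe E
  set N : Submodule (O E) (κ → O E) := Submodule.span _ (range fun i k => gm x (G i k)) with hN
  have key : ∀ c : ι → E → ℂ, (∀ i, AnalyticAt ℂ (c i) x) → ∀ k,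
      gm x (fun z => ∑ i, c i z * G i k z) = (∑ i, gm x (c i) • fun k => gm x (G i k)) k := by
    intro c hc k
    rw [gm_sum _ fun i => (hc i).fun_mul (hG i k), Finset.sum_apply]
    exact Finset.sum_congr rfl fun i _ => gm_mul (hc i) (hG i k)
  have han : ∀ c : ι → E → ℂ, (∀ i, AnalyticAt ℂ (c i) x) → ∀ k,
      AnalyticAt ℂ (fun z => ∑ i, c i z * G i k z) x := fun c hc k =>
    Finset.analyticAt_fun_sum _ fun i _ => (hc i).fun_mul (hG i k)
  have h1 : N.mkQ (fun k => gm x (v k)) ∈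
      (⨅ j : ℕ, IsLocalRing.maximalIdeal (O E) ^ j • ⊤ : Submodule (O E) ((κ → O E) ⧸ N)) := by
    refine (Submodule.mem_iInf _).2 fun j => ?_
    obtain ⟨c, hc, e⟩ := h j
    have h2 : (fun k => gm x (v k)) = (∑ i, gm x (c i) • fun k => gm x (G i k)) +
        ∑ k, gm x (fun z => v k z - ∑ i, c i z * G i k z) • (Pi.single k 1 : κ → O E) := by
      funext k
      rw [Pi.add_apply, ← key c hc k, Finset.sum_apply, Finset.sum_eq_single k, Pi.smul_apply,
        Pi.single_eq_same, smul_eq_mul, mul_one, gm_sub (hv k) (han c hc k), add_sub_cancel]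
      · intro b _ hb
        rw [Pi.smul_apply, Pi.single_eq_of_ne' hb, smul_zero]
      · simp
    have h3 : N.mkQ (∑ i, gm x (c i) • fun k => gm x (G i k)) = 0 :=
      (Submodule.Quotient.mk_eq_zero N).2 (N.sum_mem fun i _ =>
        N.smul_mem _ (Submodule.subset_span ⟨i, rfl⟩))
    rw [h2, map_add, h3, zero_add, map_sum]
    refine Submodule.sum_mem _ fun k _ => ?_
    rw [map_smul]
    exact Submodule.smul_mem_smul ((e k).mem hξ h0) trivial
  rw [Ideal.iInf_pow_smul_eq_bot_of_isLocalRing _ (IsLocalRing.maximalIdeal.isMaximal _).ne_top,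
    Submodule.mem_bot, Submodule.mkQ_apply, Submodule.Quotient.mk_eq_zero, hN,
    Submodule.mem_span_range_iff_exists_fun] at h1
  obtain ⟨d, hd⟩ := h1
  choose c hc e using fun i => gm_surj x (d i)
  refine ⟨c, hc, eventually_all.2 fun k => (gm_eq_iff (hv k) (han c hc k)).1 ?_⟩
  rw [key c hc k]
  simp only [e]
  exact (congrFun hd k).symm

variable {Y : Type} [NormedAddCommGroup Y] [NormedSpace ℂ Y]

/-- the formula of Taylor -/
theorem taylor {y : Cm n} {t : Y} (hH : ∀ u : Cm n × Y → ℂ, AnalyticAt ℂ u (y, t) →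
    (∀ᶠ s in 𝓝 t, u (y, s) = 0) → P277Z.Oka.In (y, t) (fun (i : Fin n) z => z.1 i - y i) u)
    (j : ℕ) : ∀ v : κ → Cm n × Y → ℂ, (∀ k, AnalyticAt ℂ (v k) (y, t)) →
      ∃ (B : Type) (_ : Fintype B) (c : B → Y → ℂ) (μ : B → κ → Cm n → ℂ),
        (∀ b, AnalyticAt ℂ (c b) t) ∧ (∀ b k, AnalyticAt ℂ (μ b k) y) ∧
        ∀ k, Od (y, t) (fun p z => z.1 p - y p) j fun z => v k z - ∑ b, c b z.2 * μ b k z.1 := by
  classical
  induction j with
  | zero =>
    exact fun v hv => ⟨Empty, inferInstance, fun b => b.elim, fun b => b.elim, fun b => b.elim,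
      fun b => b.elim, fun k => (hv k).congr (.of_forall fun z => by simp)⟩
  | succ j ih =>
    intro v hv
    have h1 : ∀ k, AnalyticAt ℂ (fun s => v k (y, s)) t := fun k =>
      (hv k).comp_of_eq (analyticAt_const.prod analyticAt_id) rfl
    choose h hh e using fun k => hH (fun z => v k z - v k (y, z.2))
      ((hv k).fun_sub ((h1 k).comp_of_eq analyticAt_snd rfl)) (.of_forall fun s => sub_self _)
    choose B _ c μ hc hμ hr using fun p => ih (fun k => h k p) fun k => hh k p
    refine ⟨κ ⊕ Σ p, B p, inferInstance, Sum.elim (fun k s => v k (y, s)) fun q => c q.1 q.2,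
      Sum.elim (fun k' k _ => if k' = k then 1 else 0) fun q k x => (x q.1 - y q.1) * μ q.1 q.2 k x,
      ?_, ?_, fun k => ⟨_, fun p => hr p k, ?_⟩⟩
    · rintro (k | q)
      exacts [h1 k, hc _ _]
    · rintro (k' | q) k
      · exact analyticAt_const
      · exact (((ContinuousLinearMap.proj (R := ℂ) (φ := fun _ : Fin n => ℂ) q.1).analyticAt
          y).fun_sub analyticAt_const).fun_mul (hμ _ _ k)
    · filter_upwards [e k] with z hz
      simp only [Fintype.sum_sum_type, Sum.elim_inl, Sum.elim_inr, mul_ite, mul_one, mul_zero,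
        Finset.sum_ite_eq', Finset.mem_univ, if_true, Fintype.sum_sigma, mul_sub (z.1 _ - y _),
        Finset.sum_sub_distrib, Finset.mul_sum]
      rw [← sub_sub, hz]
      exact congrArg₂ _ (Finset.sum_congr rfl fun _ _ => mul_comm _ _)
        (Finset.sum_congr rfl fun _ _ => Finset.sum_congr rfl fun _ _ => mul_left_comm _ _ _)

/-- the identity theorem for maps with values in a subspace -/
theorem sub_of {B : Type} [Fintype B] (K : Submodule ℂ (B → ℂ)) {c : B → Y → ℂ} {t : Y}
    (hc : ∀ b, AnalyticAt ℂ (c b) t) (h : ∃ᶠ s' in 𝓝 t, ∀ᶠ s in 𝓝 s', (fun b => c b s) ∈ K) :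
    ∃ P : B → B → ℂ, (∀ b, P b ∈ K) ∧ ∀ᶠ s in 𝓝 t, ∀ b, c b s = ∑ b', c b' s * P b' b := by
  classical
  obtain ⟨g, hg⟩ := LinearMap.exists_extend (LinearMap.id : K →ₗ[ℂ] K)
  refine ⟨fun b => g (Pi.single b 1), fun b => (g _).2, eventually_all.2 fun b => ?_⟩
  have h1 : AnalyticAt ℂ (fun s => c b s - ∑ b', c b' s * (g (Pi.single b' 1)).1 b) t :=
    (hc b).fun_sub (Finset.analyticAt_fun_sum _ fun b' _ => (hc b').fun_mul analyticAt_const)
  obtain ⟨r, hr, hb⟩ := Metric.eventually_nhds_iff_ball.1 h1.eventually_analyticAt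
  obtain ⟨s', h2, h3⟩ := (h.and_eventually (Metric.ball_mem_nhds t hr)).exists
  have h4 := AnalyticOnNhd.eqOn_zero_of_preconnected_of_eventuallyEq_zero hb
    (convex_ball t r).isPreconnected h3 (h2.mono fun s hs => by
      have h5 : (g fun b => c b s).1 = fun b => c b s :=
        congrArg Subtype.val (LinearMap.congr_fun hg ⟨_, hs⟩)
      have h6 : (fun b => c b s) = ∑ b', c b' s • (Pi.single b' 1 : B → ℂ) :=
        pi_eq_sum_univ' _
      have h7 : (g (∑ b', c b' s • (Pi.single b' 1 : B → ℂ))).1 b = c b s := by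
        rw [← h6]
        exact congrFun h5 b
      simp only [map_sum, map_smul, Submodule.coe_sum, Submodule.coe_smul, Finset.sum_apply,
        Pi.smul_apply, smul_eq_mul] at h7
      exact sub_eq_zero.2 h7.symm)
  filter_upwards [Metric.ball_mem_nhds t hr] with s hs
  exact sub_eq_zero.1 (h4 hs)

end Cf

open Cf

theorem coef_of (hH : HAD) : COEF := by
  intro Y _ _ _ n ι κ _ _ a v y t ha hv h
  have hp : ∀ p, AnalyticAt ℂ (fun z : Cm n × Y => z.1 p - y p) (y, t) := fun p =>
    (((ContinuousLinearMap.proj (R := ℂ) (φ := fun _ : Fin n => ℂ) p).analyticAt y).comp_of_eq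
      analyticAt_fst rfl).fun_sub analyticAt_const
  refine krull (fun i k => (ha i k).comp_of_eq analyticAt_fst rfl) hv hp (fun p => sub_self _)
    fun j => ?_
  obtain ⟨B, _, c, μ, hc, hμ, hr⟩ := taylor (fun u => hH Y n u y t) j v hv
  let K : Submodule ℂ (B → ℂ) :=
    { carrier := {d | Md y a (fun p x => x p - y p) j fun k x => ∑ b, d b * μ b k x}
      add_mem' := fun h1 h2 => (Md.add h1 h2).congr fun k => .of_forall fun x => by
        simp only [Pi.add_apply, add_mul, Finset.sum_add_distrib]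
      zero_mem' := Md.of_od fun k => (Od.zero _ _ _).congr (.of_forall fun x => by simp)
      smul_mem' := fun r d h1 => (Md.mul h1 (analyticAt_const (v := r))).congr fun k =>
        .of_forall fun x => by simp only [Pi.smul_apply, smul_eq_mul, Finset.mul_sum, mul_assoc] }
  have h1 : ∀ᶠ s in 𝓝 t, ∀ k, Od (y, s) (fun p z => z.1 p - y p) j
      fun z => v k z - ∑ b, c b z.2 * μ b k z.1 :=
    (Continuous.prodMk_right y).continuousAt.eventually (eventually_all.2 fun k => (hr k).near)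
  obtain ⟨P, hP, e⟩ := sub_of K hc ((h.and_eventually h1.eventually_nhds).mono fun s' hs' => by
    filter_upwards [hs'.1, hs'.2] with s h2 h3
    have h4 : Md y a (fun p x => x p - y p) j fun k x => v k (x, s) - ∑ b, c b s * μ b k x :=
      Md.of_od fun k => (h3 k).comp (Φ := fun x => (x, s))
        (analyticAt_id.prod analyticAt_const) rfl
    exact ((Md.of_in h2).add (h4.mul (analyticAt_const (v := -1)))).congr fun k =>
      .of_forall fun x => by ring)
  have h2 := Md.sum Finset.univ fun b => (Md.comp (x' := (y, t)) (hP b) analyticAt_fst rfl).mul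
    ((hc b).comp_of_eq analyticAt_snd rfl)
  refine (h2.add (Md.of_od hr)).congr fun k => ?_
  filter_upwards [continuousAt_snd.eventually (p := fun s => ∀ b, c b s = ∑ b', c b' s * P b' b) e]
    with z hz
  have h3 : ∑ b, c b z.2 * μ b k z.1 = ∑ b', c b' z.2 * ∑ b, P b' b * μ b k z.1 := by
    simp only [Finset.mul_sum, ← mul_assoc]
    rw [Finset.sum_comm]
    exact Finset.sum_congr rfl fun b _ => by rw [hz b, Finset.sum_mul]
  rw [h3]
  exact add_sub_cancel _ _

end Vale.Agent.P281Z.El
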