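import Vale.Agent.P281Z.El.Sk
import Vale.Agent.P281Z.Mf.Loc
import Vale.Agent.P281Z.Mf.An
import Vale.Agent.P277Z.Pj.Prj1

/-!
# P281Z, elimination of indeterminacy: covering boxes, boxes of length zero
-/

open scoped Manifold ContDiff Topology
open Set Filter
open Vale.Agent.P272.K
open Vale.Agent.P277Z (Hol Nz at_chart trans_an)
open Vale.Agent.P277.H762 (Cv not_cv_nhds)

noncomputable section

namespace Vale.Agent.P281Z.El

namespace Cov

variable {n D r : ℕ} {X : Mf n} {W : Mf D} {Γ : Set (X.prod W).X}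

theorem fib_closed (h : IsClosed Γ) (x : X.X) : IsClosed (fib Γ x) :=
  h.preimage (f := fun w => X.pair W x w) (Continuous.prodMk_right x)

/-- a projection with a countable fibre -/
theorem proj {A : Set W.X} (h : Dm r A) (w : W.X) : ∃ f : W.X → Cm r, AnV D f w ∧
    ∃ N ∈ 𝓝 w, {x | x ∈ N ∧ f x = f w ∧ x ∈ A}.Countable := by
  have he := at_chart (n := D) w
  obtain ⟨π, hπ, -⟩ := P277Z.Pj.H38.exists_proj (κ := Empty) (chartAt (Cm D) w w) r _
    (fun j => j.elim) (h _ he.1) fun j => j.elim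
  refine ⟨fun x => π (chartAt (Cm D) w x), fun e k => ?_, _, chart_source_mem_nhds (Cm D) w, ?_⟩
  · exact (π.analyticAt _).fun_comp (trans_an he k)
  · refine countable_of_injective_of_countable_image (f := chartAt (Cm D) w)
      (fun x hx y hy k => (chartAt (Cm D) w).injOn hx.1 hy.1 k) (hπ.mono ?_)
    rintro _ ⟨x, hx, rfl⟩
    exact ⟨⟨x, ⟨hx.2.2, hx.1⟩, rfl⟩, hx.2.1⟩

/-- the tube lemma for the fibres -/
theorem tube (h : IsClosed Γ) {x : X.X} {N : Set W.X} (hN : IsOpen N) (k : fib Γ x ⊆ N) :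
    ∀ᶠ y in 𝓝 x, fib Γ y ⊆ N := by
  have h1 : IsClosed (X.p1 W '' (Γ ∩ X.p2 W ⁻¹' Nᶜ)) :=
    ((h.inter (hN.isClosed_compl.preimage cont_p2)).isCompact.image cont_p1).isClosed
  have h2 : x ∉ X.p1 W '' (Γ ∩ X.p2 W ⁻¹' Nᶜ) := by
    rintro ⟨z, hz, rfl⟩
    exact hz.2 (k hz.1)
  filter_upwards [h1.isOpen_compl.mem_nhds h2] with y hy w hw
  exact by_contra fun c => hy ⟨X.pair W y w, ⟨hw, c⟩, rfl⟩

theorem vn_of_not (h : IsClosed Γ) {y : X.X} {w : W.X} (k : w ∉ fib Γ y)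
    (g : (X.prod W).X → ℂ) : Vn Γ y w g := by
  filter_upwards [h.isOpen_compl.mem_nhds k] with z hz c
  exact (hz c).elim

/-- a matrix whose rows generate the space has full rank -/
theorem rank_eq {l k : ℕ} (M : Matrix (Fin l) (Fin k) ℂ)
    (h : ∀ j, ∃ c : Fin l → ℂ, ∀ i, (1 : Matrix (Fin k) (Fin k) ℂ) j i = ∑ a, c a * M a i) :
    k ≤ M.rank := by
  choose c hc using h
  have h1 : (1 : Matrix (Fin k) (Fin k) ℂ) = Matrix.of c * M := by
    ext j i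
    rw [hc, Matrix.mul_apply]
    rfl
  have h2 := Matrix.rank_mul_le_right (Matrix.of c) M
  rwa [← h1, Matrix.rank_one, Fintype.card_fin] at h2

end Cov

open Cov

theorem covb_of (hB : BOX) : COVB := by
  intro n D X W Γ hΓ r x hx
  have h1 : ∀ w, ∃ b : Box X W r, b.Ok Γ ∧ x ∈ b.U ∧ w ∈ b.O := fun w => by
    obtain ⟨f, hf, hN⟩ := proj hx w
    obtain ⟨b, h1, -, h2, h3, -⟩ := hB n D X W Γ hΓ r x w f hf hN univ univ_mem
    exact ⟨b, h1, h2, h3⟩
  choose b hb hU hO using h1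
  obtain ⟨s, hs⟩ := isCompact_univ.elim_finite_subcover (fun w => (b w).O) (fun w => (hb w).oO)
    fun w _ => mem_iUnion.2 ⟨w, hO w⟩
  refine ⟨s.card, fun k => b (s.equivFin.symm k), fun k => ⟨hb _, hU _⟩,
    .of_forall fun y w _ => ?_⟩
  obtain ⟨v, hv, h⟩ := mem_iUnion₂.1 (hs (mem_univ w))
  exact ⟨s.equivFin ⟨v, hv⟩, by simpa only [Equiv.symm_apply_apply] using h⟩

theorem zer_of (hD : DMA) : ZER := by
  intro n D X W Γ hΓ d b y hb hy hd
  obtain ⟨t₀, ht₀⟩ := hb.conn.nonempty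
  have h1 : Cv d (b.f '' (fib Γ y ∩ b.O)) := hD.img D d _ W _ _ b.f hd hb.oO fun w hw =>
    (hb.pp y hy _ (hb.maps hw)).anf w hw rfl
  have h2 : ¬ b.Δ ⊆ b.f '' (fib Γ y ∩ b.O) := fun k =>
    not_cv_nhds (by simp) (hb.oΔ.mem_nhds ht₀) (h1.mono k)
  obtain ⟨t, ht, ht'⟩ := not_subset.1 h2
  have h3 : b.k ≤ b.rank y t := rank_eq _ fun j => by
    obtain ⟨c, -, hc⟩ := ((hb.pp y hy t ht).rel
      (fun i _ => (1 : Matrix (Fin b.k) (Fin b.k) ℂ) j i) fun _ => analyticAt_const).2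
      fun w hw k => vn_of_not hΓ.closed (fun c => ht' ⟨w, ⟨c, hw⟩, k⟩) _
    exact ⟨fun a => c a (b.c y, t), hc.self_of_nhds⟩
  have h4 : b.rank y t ≤ b.rk y := le_csSup ⟨b.k, by
    rintro _ ⟨s, -, rfl⟩
    exact (Matrix.rank_le_width _)⟩ ⟨t, ht, rfl⟩
  exact Nat.sub_eq_zero_of_le (h3.trans h4)

end Vale.Agent.P281Z.El
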