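import Vale.Agent.P281Z.El.Sk

/-!
# P281Z, elimination of indeterminacy: the general length drops
-/

open scoped Manifold ContDiff Topology
open Set Filter
open Vale.Agent.P272.K
open Vale.Agent.P277Z (Hol Nz at_chart)

set_option linter.unusedSectionVars false

noncomputable section

namespace Vale.Agent.P281Z.El

namespace DropH

section loc

variable {E F : Type} [NormedAddCommGroup E] [NormedSpace ℂ E] [NormedAddCommGroup F]
  [NormedSpace ℂ F] {φ : E → ℂ} {x : E}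

theorem zero_of {u : E → ℂ} (hu : AnalyticAt ℂ u x) (hφ : AnalyticAt ℂ φ x)
    (h0 : ¬ ∀ᶠ z in 𝓝 x, φ z = 0) (h : ∀ᶠ z in 𝓝 x, u z * φ z = 0) : ∀ᶠ z in 𝓝 x, u z = 0 := by
  obtain ⟨ε, hε, hb⟩ := Metric.eventually_nhds_iff_ball.1
    (hu.eventually_analyticAt.and (hφ.eventually_analyticAt.and h))
  obtain ⟨z, hz, hz'⟩ :=
    ((not_eventually.1 h0).and_eventually (Metric.ball_mem_nhds x hε)).exists
  have h1 : u =ᶠ[𝓝 z] 0 := by
    filter_upwards [Metric.isOpen_ball.mem_nhds hz',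
      (hb z hz').2.1.continuousAt.eventually_ne hz] with a k1 k2
    exact (mul_eq_zero.1 (hb a k1).2.2).resolve_right k2
  have h2 := AnalyticOnNhd.eqOn_zero_of_preconnected_of_eventuallyEq_zero
    (fun a ha => (hb a ha).1) (convex_ball x ε).isPreconnected hz' h1
  filter_upwards [Metric.ball_mem_nhds x hε] with a ha using h2 ha

theorem cancel {u v : E → ℂ} (hu : AnalyticAt ℂ u x) (hv : AnalyticAt ℂ v x)
    (hφ : AnalyticAt ℂ φ x) (h0 : ¬ ∀ᶠ z in 𝓝 x, φ z = 0)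
    (h : ∀ᶠ z in 𝓝 x, u z * φ z = v z * φ z) : u x = v x :=
  sub_eq_zero.1 (zero_of (hu.fun_sub hv) hφ h0
    (h.mono fun z hz => by rw [sub_mul, hz, sub_self])).self_of_nhds

theorem an_l {u : E × F → ℂ} {s : F} (hu : AnalyticAt ℂ u (x, s)) :
    AnalyticAt ℂ (fun z => u (z, s)) x :=
  hu.fun_comp (f := fun z => (z, s)) (analyticAt_id.prod analyticAt_const)

theorem an_r {u : E × F → ℂ} {s : F} (hu : AnalyticAt ℂ u (x, s)) :
    AnalyticAt ℂ (fun t => u (x, t)) s :=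
  hu.fun_comp (f := fun t => (x, t)) (analyticAt_const.prod analyticAt_id)

theorem ev_l {P : E × F → Prop} {s : F} (h : ∀ᶠ z in 𝓝 (x, s), P z) : ∀ᶠ z in 𝓝 x, P (z, s) :=
  ((Continuous.prodMk_left s).tendsto x).eventually h

theorem ev_r {P : E × F → Prop} {s : F} (h : ∀ᶠ z in 𝓝 (x, s), P z) : ∀ᶠ t in 𝓝 s, P (x, t) :=
  ((Continuous.prodMk_right x).tendsto s).eventually h

theorem cancel2 {u v : E × F → ℂ} {s : F} (hu : AnalyticAt ℂ u (x, s))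
    (hv : AnalyticAt ℂ v (x, s)) (hφ : AnalyticAt ℂ φ x) (h0 : ¬ ∀ᶠ z in 𝓝 x, φ z = 0)
    (h : ∀ᶠ z in 𝓝 (x, s), u z * φ z.1 = v z * φ z.1) : u (x, s) = v (x, s) :=
  cancel (u := fun z => u (z, s)) (v := fun z => v (z, s)) (an_l hu) (an_l hv) hφ h0 (ev_l h)

/-- the set where the quotient does not vanish is open and dense -/
theorem dense_val {H : E × F → ℂ} {Δ : Set F} (hΔ : IsOpen Δ) (hc : IsPreconnected Δ)
    (hφ : AnalyticAt ℂ φ x) (h0 : ¬ ∀ᶠ z in 𝓝 x, φ z = 0) {U : F → E × F → ℂ}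
    (hU : ∀ t ∈ Δ, AnalyticAt ℂ (U t) (x, t))
    (hU' : ∀ t ∈ Δ, ∀ᶠ z in 𝓝 (x, t), H z = U t z * φ z.1) {t₀ : F} (ht₀ : t₀ ∈ Δ)
    (hne : U t₀ (x, t₀) ≠ 0) :
    IsOpen {s | s ∈ Δ ∧ U s (x, s) ≠ 0} ∧ Δ ⊆ closure {s | s ∈ Δ ∧ U s (x, s) ≠ 0} := by
  have ha : AnalyticOnNhd ℂ (fun s => U s (x, s)) Δ := fun t ht => by
    refine (an_r (hU t ht)).congr ?_
    filter_upwards [hΔ.mem_nhds ht, ev_r (hU t ht).eventually_analyticAt,
      ev_r (hU' t ht).eventually_nhds] with s k1 k2 k3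
    refine cancel2 k2 (hU s k1) hφ h0 ?_
    filter_upwards [k3, hU' s k1] with z k4 k5
    rw [← k4, k5]
  refine ⟨isOpen_iff_mem_nhds.2 fun s hs => ?_, fun t ht => ?_⟩
  · filter_upwards [hΔ.mem_nhds hs.1, (ha s hs.1).continuousAt.eventually_ne hs.2] with a k1 k2
    exact ⟨k1, k2⟩
  · rw [mem_closure_iff_frequently]
    by_contra k
    refine hne (ha.eqOn_zero_of_preconnected_of_eventuallyEq_zero hc ht ?_ ht₀)
    filter_upwards [not_frequently.1 k, hΔ.mem_nhds ht] with s k1 k2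
    by_contra k3
    exact k1 ⟨k2, k3⟩

end loc

variable {n D r : ℕ} {X X₁ : Mf n} {W : Mf D} {Γ : Set (X.prod W).X} {Γ₁ : Set (X₁.prod W).X}

theorem anV_cmb {c : Chart n X.X} {f : W.X → Cm r} {y : X.X} {w : W.X} (hc : At c y)
    (hf : AnV D f w) :
    AnV (n + D) (fun z => (c (X.p1 W z), f (X.p2 W z))) (X.pair W y w) :=
  ((hol_p1.at _).anV hc).prod (AnV.pi fun a => (hol_p2.at (X.pair W y w)).hol (hf.hol a))

theorem hol_cmb {c : Chart n X.X} {f : W.X → Cm r} {y : X.X} {w : W.X} {k : ℕ}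
    {e : Fin k → W.X → ℂ} {v : Fin k → Cm n × Cm r → ℂ} (hc : At c y) (hf : AnV D f w)
    (he : ∀ i, Hol D (e i) w) (hv : ∀ i, AnalyticAt ℂ (v i) (c y, f w)) :
    Hol (n + D) (cmb c f e v) (X.pair W y w) :=
  P277Z.Hol.sum _ fun i _ => P277Z.Hol.mul ((anV_cmb hc hf).cmp (hv i))
    ((hol_p2.at (X.pair W y w)).hol (he i))

theorem vn_pull {ϖ : X₁.X → X.X} {y : X₁.X} {w : W.X} {h : (X.prod W).X → ℂ} (hϖ : HolM n n ϖ)
    (hs : ∀ x, fib Γ₁ x ⊆ fib Γ (ϖ x)) (hh : Vn Γ (ϖ y) w h) :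
    Vn Γ₁ y w fun z => h (X.pair W (ϖ (X₁.p1 W z)) (X₁.p2 W z)) := by
  have hc : Continuous fun z => X.pair W (ϖ (X₁.p1 W z)) (X₁.p2 W z) :=
    ((hϖ.comp hol_p1).pair hol_p2).cont
  filter_upwards [(hc.tendsto (X₁.pair W y w)).eventually hh] with z k1 k2
  exact k1 (hs (X₁.p1 W z) (a := X₁.p2 W z) k2)

theorem inV_self {E : Type} [NormedAddCommGroup E] [NormedSpace ℂ E] {ι κ : Type} [Fintype ι]
    (x : E) (G : ι → κ → E → ℂ) (i : ι) : InV x G (G i) := by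
  classical
  refine ⟨fun j _ => if j = i then 1 else 0, fun _ => analyticAt_const, .of_forall fun y k => ?_⟩
  simp

theorem an_mn {b : Box X W r} (hb : b.Ok Γ) {y : X.X} (hy : y ∈ b.U) {t : Cm r} (ht : t ∈ b.Δ)
    (ρ : ℕ) (q : (Fin (ρ + 1) → Fin b.l) × (Fin (ρ + 1) → Fin b.k)) :
    AnalyticAt ℂ (b.mn ρ q) (b.c y, t) :=
  P277.H762.analyticAt_det (M := fun z => Matrix.of fun i j => b.G (q.1 i) (q.2 j) z)
    fun _ _ => (hb.pp y hy t ht).anG _ _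

end DropH

open DropH

theorem drop_of (hC : COEF) (hG : GENR) (hN : NF) (hB : BSP) (hL : BLT) : DROP := by
  intro n D X W Γ hΓ r b X₁ Γ₁ ϖ y φ hb hy hϖ hs hφ hz hsat hall hex t ht
  obtain ⟨q₀, t₀, ht₀, u₀, hu₀, hne, hq₀⟩ := hex
  obtain ⟨-, g1, g2, -, g3⟩ := hG n D X W Γ hΓ r b (ϖ y) hb hy
  have he := at_chart (n := n) y
  set c₁ := chartAt (Cm n) y with hc₁
  have hc : At b.c (ϖ y) := (hb.pp _ hy t ht).atc
  have hφ' : AnalyticAt ℂ (fun z => φ (c₁.symm z)) (c₁ y) := hφ _ he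
  have h0 : ¬ ∀ᶠ z in 𝓝 (c₁ y), φ (c₁.symm z) = 0 := fun k =>
    hz ((P277Z.At.ev he (p := fun x => φ x = 0)).1 k)
  have hΨ : ∀ s : Cm r, AnalyticAt ℂ (fun z : Cm n × Cm r => (b.c (ϖ (c₁.symm z.1)), z.2))
      (c₁ y, s) := fun s =>
    (((hϖ.at y).an he hc).fun_comp (f := Prod.fst) (x := (c₁ y, s)) analyticAt_fst).prod
      analyticAt_snd
  have hΨ0 : ∀ s : Cm r, (b.c (ϖ (c₁.symm (c₁ y))), s) = (b.c (ϖ y), s) := fun s => by
    rw [he.left_inv]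
  have pa : ∀ {g : Cm n × Cm r → ℂ} {s}, AnalyticAt ℂ g (b.c (ϖ y), s) →
      AnalyticAt ℂ (fun z : Cm n × Cm r => g (b.c (ϖ (c₁.symm z.1)), z.2)) (c₁ y, s) :=
    fun {g s} k => k.comp_of_eq (hΨ s) (hΨ0 s)
  have pe : ∀ {P : Cm n × Cm r → Prop} {s}, (∀ᶠ z in 𝓝 (b.c (ϖ y), s), P z) →
      ∀ᶠ z in 𝓝 (c₁ y, s), P (b.c (ϖ (c₁.symm z.1)), z.2) := fun {P s} k =>
    (hΨ s).continuousAt.eventually ((hΨ0 s).symm ▸ k :)
  have hU : ∀ q, ∀ s ∈ b.Δ, ∃ U : Cm n × Cm r → ℂ, AnalyticAt ℂ U (c₁ y, s) ∧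
      ∀ᶠ z in 𝓝 (c₁ y, s), b.mn (b.rk (ϖ y)) q (b.c (ϖ (c₁.symm z.1)), z.2) =
        U z * φ (c₁.symm z.1) := fun q s hs => by
    obtain ⟨c, k1, k2⟩ := hC (Cm r) n Unit Unit (fun _ _ z => φ (c₁.symm z))
      (fun _ z => b.mn (b.rk (ϖ y)) q (b.c (ϖ (c₁.symm z.1)), z.2)) (c₁ y) s (fun _ _ => hφ')
      (fun _ => pa (an_mn hb hy hs _ q)) (Eventually.frequently (by
        filter_upwards [eventually_eventually_nhds.2 (hb.oΔ.mem_nhds hs)] with s' k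
        filter_upwards [k] with a ha
        obtain ⟨u, k1, k2⟩ := hall q a ha
        refine ⟨fun _ z => u (c₁.symm z), fun _ => k1 _ he, ?_⟩
        filter_upwards [at_ev he k2] with z k3 _
        rw [k3, Fintype.sum_unique]))
    exact ⟨c (), k1 (), k2.mono fun z k => (k ()).trans (Fintype.sum_unique _)⟩
  choose! U hU hU' using hU
  obtain ⟨o1, o2⟩ := dense_val hb.oΔ hb.conn.isPreconnected hφ' h0 (hU q₀) (hU' q₀) ht₀ (by
    rw [cancel (an_l (hU q₀ t₀ ht₀)) (hu₀ _ he) hφ' h0 (by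
      filter_upwards [ev_l (hU' q₀ t₀ ht₀), at_ev he hq₀] with z k1 k2
      rw [← k1, k2]), he.left_inv]
    exact hne)
  have hd : t ∈ closure ({s | s ∈ b.Δ ∧ U q₀ s (c₁ y, s) ≠ 0} ∩ b.Gn (ϖ y)) :=
    closure_minimal (fun s hs => o1.inter_closure ⟨hs, g2 hs.1⟩) isClosed_closure (o2 ht)
  refine (mem_closure_iff_frequently.1 hd).mono fun t' ht' => ?_
  filter_upwards [(o1.inter g1).mem_nhds ht'] with s hs' w hw hf hone m hm
  subst hf
  obtain ⟨⟨hΔ, hv⟩, hg⟩ := hs'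
  obtain ⟨ι, G, pp, n1, n2⟩ := hN n D X W Γ hΓ r b (ϖ y) hb hy _ hg
  choose cf cf1 cf2 using n1
  obtain ⟨d, d1, d2⟩ := n2 q₀
  set H : Fin b.l → Fin (b.a (ϖ y)) → Cm n × Cm r → ℂ := fun i j z =>
    ∑ q, cf i j q (b.c (ϖ (c₁.symm z.1)), z.2) * U q (b.f w) z with hH
  have H1 : ∀ i j, AnalyticAt ℂ (H i j) (c₁ y, b.f w) := fun i j =>
    Finset.analyticAt_fun_sum _ fun q _ => (pa (cf1 i j q)).fun_mul (hU q _ hΔ)
  have H2 : ∀ᶠ z in 𝓝 (c₁ y, b.f w), ∀ i j,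
      G i j (b.c (ϖ (c₁.symm z.1)), z.2) = H i j z * φ (c₁.symm z.1) := by
    filter_upwards [eventually_all.2 fun q => hU' q _ hΔ,
      eventually_all.2 fun i => eventually_all.2 fun j => pe (cf2 i j)] with z k1 k2 i j
    rw [k2 i j, hH, Finset.sum_mul]
    exact Finset.sum_congr rfl fun q _ => by rw [k1 q, mul_assoc]
  have H3 := cancel2 (hU q₀ _ hΔ)
    (v := fun z => ∑ p : _ × _, d p (b.c (ϖ (c₁.symm z.1)), z.2) * H p.1 p.2 z)
    (Finset.analyticAt_fun_sum _ fun p _ => (pa (d1 p)).fun_mul (H1 _ _)) hφ' h0 (by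
      filter_upwards [hU' q₀ _ hΔ, pe d2, H2] with z k1 k2 k3
      rw [← k1, k2, Finset.sum_mul]
      exact Finset.sum_congr rfl fun p _ => by rw [k3, mul_assoc])
  obtain ⟨⟨i, j⟩, hij⟩ : ∃ p : _ × _, H p.1 p.2 (c₁ y, b.f w) ≠ 0 := by
    by_contra k
    push Not at k
    exact hv (H3.trans (Finset.sum_eq_zero fun p _ => by rw [k p, mul_zero]))
  have hf := pp.anf w hw rfl
  have hbs := hB n D X W Γ hΓ r _ _ b.c b.O b.f (ϖ y) w _ G pp (fun i j => by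
    filter_upwards [ev_r (cf2 i j), hb.oΔ.mem_nhds hΔ] with a k1 k2
    rw [k1]
    exact Finset.sum_eq_zero fun q _ => by rw [(g3 _).1 le_rfl q a k2, mul_zero]) hw hone
  refine (hL n D r _ m X X₁ W Γ Γ₁ ϖ y w b.f _ hϖ hs hf hbs hm).2 (fun j a => H i j (c₁ y, a))
    (fun j => an_r (H1 i j)) ?_ ⟨j, hij⟩
  have hh := hol_cmb he hf (fun j => pp.hol j w hw rfl) (H1 i)
  refine ⟨_, hh, hsat w _ hh ?_, .of_forall fun _ => rfl⟩
  filter_upwards [vn_pull hϖ hs ((pp.rel _ (pp.anG i)).1 (inV_self _ G i) w hw rfl),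
    (anV_cmb he hf).cont.eventually H2,
    (cont_p1.tendsto (X₁.pair W y w)).eventually (at_near he)] with z k1 k2 k3 k4
  refine Eq.trans ?_ (k1 k4)
  simp only [cmb, p1_pair, p2_pair, Finset.mul_sum]
  refine Finset.sum_congr rfl fun j _ => ?_
  have k5 := k2 i j
  simp only [k3.left_inv] at k5
  rw [k5]
  ring

end Vale.Agent.P281Z.El
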