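import Vale.Agent.P281Z.El.Sk
import Vale.Agent.P281Z.Rs.Clo
import Vale.Agent.P277Z.Oka.All

/-!
# P281Z, elimination of indeterminacy: the global ideal
-/

open scoped Manifold ContDiff Topology
open Set Filter
open Vale.Agent.P272.K Vale.Agent.P277Z Vale.Agent.P277Z.Slc
open Vale.Agent.P277Z.Oka (Zs gm idl in_iff col_all cap_all nul_all noe gm_mul gm_pow gm_surj)

noncomputable section

namespace Vale.Agent.P281Z.El

namespace ExtB

open Ana

section lin

variable {E : Type} [NormedAddCommGroup E] [NormedSpace ℂ E] [FiniteDimensional ℂ E]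
  {ι κ : Type} [Fintype ι] [Fintype κ] {x : E}

theorem sat {g : ι → E → ℂ} {h : E → ℂ} (hg : ∀ i, AnalyticAt ℂ (g i) x) (hh : AnalyticAt ℂ h x) :
    ∃ (N m : ℕ) (s : Fin m → E → ℂ), (∀ l, AnalyticAt ℂ (s l) x) ∧ ∀ᶠ y in 𝓝 x, ∀ f,
      AnalyticAt ℂ f y → ((∃ M, Oka.In y g fun z => h z ^ M * f z) → Oka.In y s f) ∧
        (Oka.In y s f → Oka.In y g fun z => f z * h z ^ N) := by
  haveI := noe E
  obtain ⟨N, hN⟩ := monotone_stabilizes_iff_noetherian.2 (inferInstance : IsNoetherian _ _)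
    (⟨fun N => (idl x g).colon {gm x h ^ N}, monotone_nat_of_le_succ fun N a ha => by
      rw [Submodule.mem_colon_singleton, smul_eq_mul] at ha ⊢
      rw [pow_succ, ← mul_assoc]
      exact Ideal.mul_mem_right _ _ ha⟩ : ℕ →o Ideal (P298.H941.O E))
  obtain ⟨m, s, hs, h1, h2⟩ := col_all E ι x g (fun z => h z ^ (N + 1)) hg (hh.fun_pow _)
  have h3 : ∀ l, Oka.In x g fun z => s l z * h z ^ N := fun l => by
    have k := (in_iff hg ((hs l).fun_mul (hh.fun_pow _))).1 (h1 l)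
    rw [gm_mul (hs l) (hh.fun_pow _), gm_pow hh, ← smul_eq_mul, ← Submodule.mem_colon_singleton] at k
    rw [in_iff hg ((hs l).fun_mul (hh.fun_pow _)), gm_mul (hs l) (hh.fun_pow _), gm_pow hh,
      ← smul_eq_mul, ← Submodule.mem_colon_singleton]
    exact (hN (N + 1) (Nat.le_succ N)).ge k
  refine ⟨N, m, s, hs, ?_⟩
  filter_upwards [h2, eventually_all.2 fun l => (h3 l).eventually, hh.eventually_analyticAt]
    with y a b c f hf
  refine ⟨fun ⟨M, hM⟩ => ?_, fun k => Oka.CarAux.in_mul k b⟩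
  have key : ∀ j, Oka.In y g (fun z => h z ^ j * f z * h z ^ (N + 1)) → Oka.In y s f := by
    intro j
    induction j with
    | zero => exact fun k => a f hf (k.congr (.of_forall fun z => by simp))
    | succ j ih =>
      exact fun k => ih ((Oka.CarAux.in_mul (a _ ((c.fun_pow _).fun_mul hf) k) b).congr
        (.of_forall fun z => by ring))
  exact key M ((hM.mul (c.fun_pow (N + 1))).congr (.of_forall fun z => by ring))

theorem one_in {g : ι → E → ℂ} {f : E → ℂ} (hg : ∀ i, AnalyticAt ℂ (g i) x) (hf : AnalyticAt ℂ f x)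
    (h : x ∉ Zs g) : Oka.In x g f := by
  obtain ⟨i, hi⟩ := not_forall.1 h
  exact (((Oka.In.self x g i).mul hf).congr (.of_forall fun y => mul_comm _ _)).of_unit (hg i) hi

theorem loc1 {g : ι → E → ℂ} {L : Set E} (hg : ∀ i, AnalyticAt ℂ (g i) x)
    (hL : AnE (Zs g \ L) x) : ∃ (m : ℕ) (q : Fin m → E → ℂ), (∀ l, AnalyticAt ℂ (q l) x) ∧
      ∀ᶠ y in 𝓝 x, ∀ f, AnalyticAt ℂ f y →
        (Oka.In y q f ↔ ∀ᶠ z in 𝓝 y, z ∈ L → Oka.In z g f) := by
  obtain ⟨k, h, hh, e⟩ := hL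
  choose N m s hs h1 using fun i => sat hg (hh i)
  obtain ⟨m', q, hq, h2, h3⟩ := cap_all E (Fin k) (fun i => Fin (m i)) x s hs
  refine ⟨m', q, hq, ?_⟩
  filter_upwards [eventually_all.2 h1, h3, e.eventually_nhds,
    eventually_all.2 fun l => eventually_all.2 fun i => (h2 l i).eventually,
    eventually_all.2 fun i => (hg i).eventually_analyticAt,
    eventually_all.2 fun i => (hh i).eventually_analyticAt] with y a b c d g1 g2 f hf
  have g3 := eventually_all.2 fun i => (g1 i).eventually_analyticAt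
  refine ⟨fun k1 => ?_, fun k1 => b f hf fun i => (a i f hf).1 ?_⟩
  · filter_upwards [c, g3, hf.eventually_analyticAt,
      eventually_all.2 fun i => (g2 i).eventually_analyticAt,
      eventually_all.2 fun i => ((a i f hf).2 (k1.trans fun l => d l i)).eventually]
      with z c1 c2 c3 c4 c5 hz
    obtain ⟨i, hi⟩ := not_forall.1 (mt c1.2 fun k => k.2 hz)
    exact ((c5 i).congr (.of_forall fun w => mul_comm _ _)).of_unit ((c4 i).fun_pow _)
      (pow_ne_zero _ hi)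
  · obtain ⟨m₁, r, hr, r1, r2⟩ := col_all E ι y g f g1 hf
    obtain ⟨M, hM⟩ := nul_all E _ y r hr (h i) (g2 i) (by
      filter_upwards [c, k1, r2, g3, hf.eventually_analyticAt] with z c1 c2 c3 c4 c5 hz
      have h4 : ¬ Oka.In z g f := fun k2 => one_ne_zero
        ((c3 (fun _ => 1) analyticAt_const (k2.congr (.of_forall fun w => (one_mul _).symm))).van.self_of_nhds hz)
      exact c1.1 ⟨by_contra fun k2 => h4 (one_in c4 c5 k2), fun k2 => h4 (c2 k2)⟩ i)
    exact ⟨M, Oka.CarAux.in_mul hM r1⟩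

theorem loc2 {α : Type} [Finite α] {ι : α → Type} [∀ a, Fintype (ι a)] {g : ∀ a, ι a → E → ℂ}
    {L : α → Set E} (hg : ∀ a i, AnalyticAt ℂ (g a i) x) (hL : ∀ a, AnE (Zs (g a) \ L a) x) :
    ∃ (m : ℕ) (q : Fin m → E → ℂ), (∀ l, AnalyticAt ℂ (q l) x) ∧
      ∀ᶠ y in 𝓝 x, ∀ f, AnalyticAt ℂ f y →
        (Oka.In y q f ↔ ∀ a, ∀ᶠ z in 𝓝 y, z ∈ L a → Oka.In z (g a) f) := by
  choose m s hs h1 using fun a => loc1 (hg a) (hL a)
  obtain ⟨m', q, hq, h2, h3⟩ := cap_all E α (fun a => Fin (m a)) x s hs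
  refine ⟨m', q, hq, ?_⟩
  filter_upwards [eventually_all.2 h1, h3,
    eventually_all.2 fun l => eventually_all.2 fun a => (h2 l a).eventually] with y a b c f hf
  exact ⟨fun k i => (a i f hf).1 (k.trans fun l => c l i),
    fun k => b f hf fun i => (a i f hf).2 (k i)⟩

end lin

variable {n : ℕ} {X : Mf n}

theorem in_chart {ι : Type} [Fintype ι] {c : Chart n X.X} {y : X.X} (he : At c y)
    {a : ι → X.X → ℂ} {f : X.X → ℂ} :
    In y a f ↔ Oka.In (c y) (fun i z => a i (c.symm z)) fun z => f (c.symm z) :=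
  ⟨fun ⟨k, hk, e⟩ => ⟨fun i z => k i (c.symm z), fun i => hk i c he, ev_symm he e⟩,
    fun ⟨k, hk, e⟩ => ⟨fun i x => k i (c x), fun i => Ana.hol_chart he (hk i), by
      filter_upwards [(c.continuousAt he.2).eventually e, c.open_source.mem_nhds he.2] with x h1 h2
      simpa only [c.left_inv h2] using h1⟩⟩

theorem loc3 {α : Type} [Finite α] {ι : α → Type} [∀ a, Fintype (ι a)] {g : ∀ a, ι a → X.X → ℂ}
    {L : α → Set X.X} {x : X.X} (hg : ∀ a i, Hol n (g a i) x)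
    (hL : ∀ a, AnAt n ({y | ∀ i, g a i y = 0} \ L a) x) :
    ∃ (m : ℕ) (q : Fin m → X.X → ℂ), ∀ᶠ y in 𝓝 x, (∀ l, Hol n (q l) y) ∧ ∀ f, Hol n f y →
      (In y q f ↔ ∀ a, ∀ᶠ z in 𝓝 y, z ∈ L a → In z (g a) f) := by
  have he := at_chartAt (n := n) x
  set e := chartAt (Cm n) x
  obtain ⟨m, q, hq, h⟩ := loc2 (g := fun a i z => g a i (e.symm z)) (L := fun a => e.symm ⁻¹' L a)
    (fun a i => hg a i e he) fun a => (hL a).chart he
  refine ⟨m, fun l y => q l (e y), ?_⟩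
  filter_upwards [eventually_all.2 fun l => (Ana.hol_chart he (hq l)).near, at_near he,
    (e.continuousAt he.2).eventually h] with y a b c
  refine ⟨a, fun f hf => ?_⟩
  have h1 : In y (fun l y => q l (e y)) f ↔ Oka.In (e y) q fun z => f (e.symm z) := by
    rw [in_chart b]
    have h2 := e.open_target.mem_nhds (e.map_source b.2)
    refine exists_congr fun k => and_congr_right fun _ => eventually_congr ?_
    filter_upwards [h2] with z hz
    simp only [e.right_inv hz]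
  rw [h1, c _ (hf e b)]
  refine forall_congr' fun i => ⟨fun k => ?_, fun k => ?_⟩
  · filter_upwards [(e.continuousAt b.2).eventually k, at_near b] with z k1 k2 hz
    exact (in_chart k2).2 (k1 (by simpa only [mem_preimage, e.left_inv k2.2] using hz))
  · filter_upwards [ev_symm b (k.and (at_near b)), e.open_target.mem_nhds (e.map_source b.2)]
      with z k1 k2 hz
    simpa only [e.right_inv k2] using (in_chart k1.2).1 (k1.1 hz)

theorem In.near {ι : Type} [Fintype ι] {y : X.X} {a : ι → X.X → ℂ} {f : X.X → ℂ} (h : In y a f) :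
    ∀ᶠ z in 𝓝 y, In z a f := by
  obtain ⟨c, hc, e⟩ := h
  filter_upwards [eventually_all.2 fun i => (hc i).near, e.eventually_nhds] with z h1 h2
    using ⟨c, h1, h2⟩

theorem claim {Θ : Set X.X} {φ : X.X → ℕ} {J : X.X → (X.X → ℂ) → Prop} {c : ℕ} {x : X.X}
    (hΘ : An n Θ) (hC : An n (Θ ∪ {y | φ y = c})) (h : Loc Θ φ J x) :
    ∃ (m : ℕ) (q : Fin m → X.X → ℂ), ∀ᶠ y in 𝓝 x, (∀ l, Hol n (q l) y) ∧ ∀ f, Hol n f y →
      (In y q f ↔ ∀ᶠ z in 𝓝 y, z ∉ Θ → φ z = c → J z f) ∧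
      (y ∉ Θ → φ y = c → (J y f ↔ In y q f)) := by
  obtain ⟨α, _, _, r, ι, _, g, hg, h⟩ := h
  have h0 : ∀ᶠ y in 𝓝 x, ∀ a i, Hol n (g a i) y :=
    eventually_all.2 fun a => eventually_all.2 fun i => (hg a i).near
  have hZ : ∀ a y, (∀ a i, Hol n (g a i) y) → AnAt n {y | ∀ i, g a i y = 0} y := fun a y k => by
    rw [ofPred_forall]
    exact anAt_iInter fun i => anAt_zero (k a i)
  have h1 : ∀ᶠ y in 𝓝 x, y ∉ Θ → φ y = c → ∀ᶠ z in 𝓝 y, z ∉ Θ ∧ r y ≤ r z ∧
      (φ z = c ↔ r z ≤ r y) := by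
    filter_upwards [h, h.eventually_nhds, h0] with y a b d hy e
    have h2 : ∀ a', ∀ᶠ z in 𝓝 y, r z ≤ a' → r y ≤ a' := fun a' => by
      by_cases k : r y ≤ a'
      · exact .of_forall fun _ _ => k
      · obtain ⟨i, hi⟩ := not_forall.1 (mt (a.1 a').1 k)
        filter_upwards [b, (d a' i).continuousAt.eventually_ne hi] with z b1 b2 b3
        exact absurd ((b1.1 a').2 b3 i) b2
    filter_upwards [(An.isClosed hΘ).isOpen_compl.mem_nhds hy, eventually_all.2 h2, (a.2 hy).2]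
      with z b1 b2 b3 using ⟨b1, b2 _ le_rfl, e ▸ b3.2⟩
  obtain ⟨m, q, hq⟩ := loc3 (L := fun a => {y | y ∉ Θ ∧ φ y = c ∧ r y = a}) hg fun a => by
    refine (((hZ a x hg).clo (hC x)).union ((hZ a x hg).inter (AnAt.union (hΘ x)
      (anAt_iUnion fun a' : {a' // a' < a} => hZ a' x hg)))).congr ?_
    filter_upwards [h, h.eventually_nhds, h0, h1] with y b1 b2 b3 b4
    refine ⟨?_, fun ⟨k1, k2⟩ => ?_⟩
    · rintro (k | ⟨k1, k2 | k2⟩)
      · refine ⟨(hZ a y b3).mem_of_closure (closure_mono sdiff_subset k), fun k1 => ?_⟩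
        obtain ⟨z, c1, c2, c3⟩ := ((mem_closure_iff_frequently.1 k).and_eventually
          (b2.and (b4 k1.1 k1.2.1))).exists
        exact c1.2 (.inr (c3.2.2.2 (k1.2.2 ▸ (c2.1 a).1 c1.1)))
      · exact ⟨k1, fun k => k.1 k2⟩
      · obtain ⟨a', k2⟩ := mem_iUnion.1 k2
        exact ⟨k1, fun k => (((b1.1 a').1 k2).trans_lt a'.2).ne k.2.2⟩
    · by_cases c1 : y ∈ Θ
      · exact .inr ⟨k1, .inl c1⟩
      by_cases c2 : φ y = c
      · exact .inr ⟨k1, .inr (mem_iUnion.2 ⟨⟨r y, ((b1.1 a).1 k1).lt_of_ne fun k =>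
          k2 ⟨c1, c2, k⟩⟩, (b1.1 _).2 le_rfl⟩)⟩
      · exact .inl (subset_closure ⟨k1, fun k => k.elim c1 c2⟩)
  refine ⟨m, q, ?_⟩
  filter_upwards [hq, h, h.eventually_nhds, h1] with y a b b' d
  refine ⟨a.1, fun f hf => ?_⟩
  have h2 : In y q f ↔ ∀ᶠ z in 𝓝 y, z ∉ Θ → φ z = c → J z f := by
    rw [a.2 f hf, ← eventually_all]
    refine eventually_congr ?_
    filter_upwards [b', hf.near] with z c1 c2
    exact ⟨fun k k1 k2 => ((c1.2 k1).1 f c2).2 (k _ ⟨k1, k2, rfl⟩),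
      fun k a' k1 => k1.2.2 ▸ ((c1.2 k1.1).1 f c2).1 (k k1.1 k1.2.1)⟩
  refine ⟨h2, fun k1 k2 => ⟨fun k => h2.2 ?_, fun k => (h2.1 k).self_of_nhds k1 k2⟩⟩
  filter_upwards [b', hf.near, d k1 k2, In.near (((b.2 k1).1 f hf).1 k)] with z c1 c2 c3 c4 c5 c6
  exact ((c1.2 c5).1 f c2).2 (le_antisymm (c3.2.2.1 c6) c3.2.1 ▸ c4)

end ExtB

/-- **EXT** -/
theorem extB : EXT := by
  intro n X Θ φ J hΘ hL c _ hC
  choose m q h using fun x => ExtB.claim hΘ hC (hL x)
  choose U h1 h2 h3 using fun x => eventually_nhds_iff.1 (h x)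
  have self : ∀ γ x i, In x (q γ) (q γ i) := fun γ x i => by
    classical
    exact ⟨fun j _ => if j = i then 1 else 0, fun _ _ _ => analyticAt_const,
      .of_forall fun y => by simp⟩
  have key : ∀ γ γ' x, x ∈ U γ → x ∈ U γ' →
      ∃ C : ℝ, 0 < C ∧ ∀ᶠ z in 𝓝 x, ∑ i, ‖q γ' i z‖ ≤ C * ∑ k, ‖q γ k z‖ := fun γ γ' x a b =>
    Rs.bound_of fun i => ((h1 γ x a).2 _ ((h1 γ' x b).1 i)).1.2
      (((h1 γ' x b).2 _ ((h1 γ' x b).1 i)).1.1 (self γ' x i))
  refine ⟨⟨X.X, U, m, q, h2, fun x => ⟨x, h3 x⟩, fun γ i x hx => (h1 γ x hx).1 i,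
    fun γ γ' x a b => ?_⟩, fun x hx => by_contra fun k => ?_,
    fun γ y hy k1 k2 f hf => ((h1 γ y hy).2 f hf).2 k1 k2⟩
  · obtain ⟨C, hC, k⟩ := key γ γ' x a b
    obtain ⟨C', hC', k'⟩ := key γ' γ x b a
    refine ⟨C + C', by positivity, ?_⟩
    filter_upwards [k, k'] with z p q
    exact ⟨q.trans (mul_le_mul_of_nonneg_right (by linarith) (by positivity)),
      p.trans (mul_le_mul_of_nonneg_right (by linarith) (by positivity))⟩
  · obtain ⟨d, -, e⟩ := ((h1 x x (h3 x)).2 (fun _ => 1) fun _ _ => analyticAt_const).1.2 (by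
      filter_upwards [(An.isClosed hC).isOpen_compl.mem_nhds k] with z hz _ k2
      exact absurd (Or.inr k2) hz)
    have := e.self_of_nhds
    simp only [show ∀ i, q x i x = 0 from hx x (h3 x), mul_zero, Finset.sum_const_zero] at this
    exact one_ne_zero this

end Vale.Agent.P281Z.El
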