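import Vale.Agent.P281Z.El.Sk
import Vale.Agent.P277Z.Oka.Noe

/-!
# P281Z, elimination of indeterminacy: a presentation with entries in the ideal gives flatness
-/

open scoped Manifold ContDiff Topology
open Set Filter
open Vale.Agent.P272.K
open Vale.Agent.P277Z (Hol Nz hol_comp hol_const)
open Vale.Agent.P277Z.Oka (gm idl gm_surj gm_sum gm_mul gm_eq_iff in_iff noe)
open Vale.Agent.P298.H941 (O)

noncomputable section

namespace Vale.Agent.P281Z.El

namespace F1A

/-- the module of syzygies modulo an ideal is finitely generated -/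
theorem syz {E : Type} [NormedAddCommGroup E] [NormedSpace ℂ E] [FiniteDimensional ℂ E] (x : E)
    {m : ℕ} {ι : Type} [Fintype ι] (α : Fin m → E → ℂ) (a : ι → E → ℂ)
    (hα : ∀ i, AnalyticAt ℂ (α i) x) (ha : ∀ j, AnalyticAt ℂ (a j) x) :
    ∃ (k : ℕ) (γ : Fin k → Fin m → E → ℂ), (∀ l i, AnalyticAt ℂ (γ l i) x) ∧
      (∀ l, P277Z.Oka.In x a fun y => ∑ i, α i y * γ l i y) ∧
      ∀ v : Fin m → E → ℂ, (∀ i, AnalyticAt ℂ (v i) x) →
        (P277Z.Oka.In x a fun y => ∑ i, α i y * v i y) → InV x γ v := by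
  have : IsNoetherianRing (O E) := noe E
  let L : (Fin m → O E) →ₗ[O E] O E :=
    { toFun := fun v => ∑ i, gm x (α i) * v i
      map_add' := fun v w => by simp only [Pi.add_apply, mul_add, Finset.sum_add_distrib]
      map_smul' := fun c v => by
        simp only [Pi.smul_apply, smul_eq_mul, RingHom.id_apply, Finset.mul_sum, mul_left_comm] }
  have key : ∀ v : Fin m → E → ℂ, (∀ i, AnalyticAt ℂ (v i) x) →
      ((P277Z.Oka.In x a fun y => ∑ i, α i y * v i y) ↔
        (fun i => gm x (v i)) ∈ Submodule.comap L (idl x a)) := fun v hv => by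
    rw [in_iff ha (Finset.analyticAt_fun_sum _ fun i _ => (hα i).fun_mul (hv i)),
      gm_sum _ fun i => (hα i).fun_mul (hv i),
      Finset.sum_congr rfl fun i _ => gm_mul (hα i) (hv i)]
    rfl
  obtain ⟨k, s, hs⟩ := Submodule.fg_iff_exists_fin_generating_family.1
    (IsNoetherian.noetherian (Submodule.comap L (idl x a)))
  choose γ hγ e using fun l i => gm_surj x (s l i)
  refine ⟨k, γ, hγ, fun l => (key _ (hγ l)).2 ?_, fun v hv h => ?_⟩
  · rw [funext (e l), ← hs]
    exact Submodule.subset_span ⟨l, rfl⟩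
  · have h1 := (key v hv).1 h
    rw [← hs, Submodule.mem_span_range_iff_exists_fun] at h1
    obtain ⟨C, hC⟩ := h1
    choose c hc ec using fun l => gm_surj x (C l)
    refine ⟨c, hc, eventually_all.2 fun i => ?_⟩
    rw [← gm_eq_iff (hv i) (Finset.analyticAt_fun_sum _ fun l _ => (hc l).fun_mul (hγ l i)),
      gm_sum _ fun l => (hc l).fun_mul (hγ l i),
      Finset.sum_congr rfl fun l _ => gm_mul (hc l) (hγ l i)]
    have := congrFun hC i
    simp only [Finset.sum_apply, Pi.smul_apply, smul_eq_mul] at this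
    simp only [ec, e, this]

variable {n D r : ℕ} {X : Mf n} {W : Mf D} {c : Chart n X.X} {f : W.X → Cm r} {y : X.X} {w : W.X}

theorem anV_phi (hc : At c y) (hf : AnV D f w) :
    AnV (n + D) (fun z : (X.prod W).X => (c (X.p1 W z), f (X.p2 W z))) (X.pair W y w) :=
  AnV.prod (HolA.anV (hol_p1.at (X.pair W y w)) hc)
    (AnV.pi fun b => HolM.hol (x := X.pair W y w) hol_p2 (hf.hol b))

theorem hol_cmb {k : ℕ} {e : Fin k → W.X → ℂ} {v : Fin k → Cm n × Cm r → ℂ} (hc : At c y)
    (hf : AnV D f w) (he : ∀ i, Hol D (e i) w) (hv : ∀ i, AnalyticAt ℂ (v i) (c y, f w)) :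
    Hol (n + D) (cmb c f e v) (X.pair W y w) :=
  P277Z.Hol.sum _ fun i _ => P277Z.Hol.mul ((anV_phi hc hf).cmp (hv i))
    (HolM.hol (x := X.pair W y w) hol_p2 (he i))

theorem left_near (hc : At c y) (w : W.X) :
    ∀ᶠ z in 𝓝 (X.pair W y w), c.symm (c (X.p1 W z)) = X.p1 W z :=
  (cont_p1.continuousAt (x := X.pair W y w)).eventually (P277Z.At.left hc)

end F1A

open F1A in
theorem f1_of (hC : COEF) : F1 := by
  classical
  intro n D X W Γ _ r k l c O f y t e G ι _ a P ha hG w₀ hw₀ ht m α g d hα hg hd hV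
  have hc := P.atc
  -- the functions in the chart
  have hα' : ∀ i, AnalyticAt ℂ (fun x => α i (c.symm x)) (c y) := fun i => hα i c hc
  have ha' : ∀ j, AnalyticAt ℂ (fun x => a j (c.symm x)) (c y) := fun j => ha j c hc
  have hα'' : ∀ i, AnalyticAt ℂ (fun z : Cm n × Cm r => α i (c.symm z.1)) (c y, t) := fun i =>
    (hα' i).comp_of_eq analyticAt_fst rfl
  have ha'' : ∀ j, AnalyticAt ℂ (fun z : Cm n × Cm r => a j (c.symm z.1)) (c y, t) := fun j =>
    (ha' j).comp_of_eq analyticAt_fst rfl
  -- representatives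
  have rep : ∀ h, Hol (n + D) h (X.pair W y w₀) → ∃ v : Fin k → Cm n × Cm r → ℂ,
      (∀ i, AnalyticAt ℂ (v i) (c y, t)) ∧ ∀ w ∈ O, f w = t →
        Vn Γ y w fun z => (if w = w₀ then h z else 0) - cmb c f e v z := fun h hh =>
    P.sur (fun w z => if w = w₀ then h z else 0) fun w _ _ => by
      by_cases q : w = w₀
      · simpa only [q, if_true] using hh
      · simpa only [q, if_false] using hol_const 0 _
  choose v hv hvg using fun i => rep (g i) (hg i)
  choose v' hv' hvd using fun j => rep (d j) (hd j)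
  -- the relation
  have hR : InV (c y, t) G fun b z =>
      ∑ i, α i (c.symm z.1) * v i b z - ∑ j, a j (c.symm z.1) * v' j b z := by
    refine (P.rel _ fun b => (Finset.analyticAt_fun_sum _ fun i _ =>
      (hα'' i).fun_mul (hv i b)).fun_sub (Finset.analyticAt_fun_sum _ fun j _ =>
      (ha'' j).fun_mul (hv' j b))).2 fun w hw hwt => ?_
    have h0 : Vn Γ y w fun z => ∑ i, α i (X.p1 W z) * (if w = w₀ then g i z else 0) -
        ∑ j, a j (X.p1 W z) * (if w = w₀ then d j z else 0) := by
      by_cases q : w = w₀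
      · simpa only [q, if_true] using hV
      · exact .of_forall fun z _ => by simp [q]
    filter_upwards [h0, eventually_all.2 fun i => hvg i w hw hwt,
      eventually_all.2 fun j => hvd j w hw hwt, left_near hc w] with z h1 h2 h3 h4 hz
    have h5 := h1 hz
    rw [Finset.sum_congr rfl fun i _ => congrArg _ (sub_eq_zero.1 (h2 i hz)),
      Finset.sum_congr rfl fun j _ => congrArg _ (sub_eq_zero.1 (h3 j hz))] at h5
    rw [← h5]
    simp only [cmb, h4, sub_mul, Finset.sum_sub_distrib, Finset.sum_mul, Finset.mul_sum,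
      mul_assoc]
    rw [Finset.sum_comm, Finset.sum_comm (s := (Finset.univ : Finset ι))]
  have hI : ∀ b, P277Z.Oka.In (c y, t) (fun j z => a j (c.symm z.1))
      fun z => ∑ i, α i (c.symm z.1) * v i b z := fun b => by
    obtain ⟨C, hC1, hC2⟩ := hR
    have h1 : P277Z.Oka.In (c y, t) (fun i => G i b) fun z =>
        ∑ i, α i (c.symm z.1) * v i b z - ∑ j, a j (c.symm z.1) * v' j b z :=
      ⟨C, hC1, hC2.mono fun z hz => hz b⟩
    have h2 : P277Z.Oka.In (c y, t) (fun j z => a j (c.symm z.1))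
        fun z => ∑ j, a j (c.symm z.1) * v' j b z :=
      ⟨fun j => v' j b, fun j => hv' j b, .of_forall fun z =>
        Finset.sum_congr rfl fun j _ => mul_comm _ _⟩
    exact ((h1.trans fun i => hG i b).add h2).congr (.of_forall fun z => sub_add_cancel _ _)
  obtain ⟨N, γ, hγ, hγa, hγv⟩ := syz (c y) _ _ hα' ha'
  have hT : Tendsto (fun s : Cm r => (c y, s)) (𝓝 t) (𝓝 (c y, t)) :=
    (Continuous.prodMk_right (c y)).tendsto t
  have hU : ∀ b, InV (c y, t) (fun l i z => γ l i z.1) fun i => v i b := fun b => by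
    refine hC (Cm r) n (Fin N) (Fin m) γ (fun i => v i b) (c y) t hγ (fun i => hv i b)
      (Eventually.frequently (Eventually.eventually_nhds ?_))
    filter_upwards [hT.eventually (hI b).eventually,
      hT.eventually (eventually_all.2 fun i => (hv i b).eventually_analyticAt)] with s h1 h2
    have h3 : AnalyticAt ℂ (fun x : Cm n => (x, s)) (c y) := analyticAt_id.prod analyticAt_const
    exact hγv (fun i x => v i b (x, s)) (fun i => (h2 i).comp_of_eq h3 rfl) (h1.comp h3 rfl)
  choose U hU1 hU2 using hU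
  have hf := P.anf w₀ hw₀ ht
  refine ⟨N, fun l i x => γ l i (c x), fun l => cmb c f e fun b => U b l,
    fun l i => hol_comp hc (hγ l i),
    fun l => hol_cmb hc hf (fun i => P.hol i w₀ hw₀ ht) fun b => ht ▸ hU1 b l, fun l => ?_,
    fun i => ?_⟩
  · obtain ⟨C, hC1, hC2⟩ := hγa l
    refine ⟨fun j x => C j (c x), fun j => hol_comp hc (hC1 j), ?_⟩
    filter_upwards [(c.continuousAt hc.2).eventually hC2, P277Z.At.left hc] with x h1 h2
    simpa only [h2] using h1
  · have hT' : Tendsto (fun z : (X.prod W).X => (c (X.p1 W z), f (X.p2 W z)))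
        (𝓝 (X.pair W y w₀)) (𝓝 (c y, t)) := ht ▸ (anV_phi hc hf).cont
    filter_upwards [hvg i w₀ hw₀ ht, hT'.eventually (eventually_all.2 hU2)] with z h1 h2 hz
    have h3 := h1 hz
    rw [if_pos rfl] at h3
    rw [← h3]
    congr 1
    simp only [cmb, h2 _ i, Finset.sum_mul, Finset.mul_sum]
    rw [Finset.sum_comm]
    exact Finset.sum_congr rfl fun b _ => Finset.sum_congr rfl fun l _ => by ring

end Vale.Agent.P281Z.El
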