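import Vale.Agent.P281Z.El.Sk

/-!
# P281Z, elimination of indeterminacy: flatness forces the relations into the ideal
-/

open scoped Manifold ContDiff Topology
open Set Filter
open Vale.Agent.P272.K
open Vale.Agent.P277Z (Hol Nz hol_const)
open Vale.Agent.P277Z.Oka (gm idl in_iff gm_sub gm_sum gm_mul isUnit_gm)

noncomputable section

namespace Vale.Agent.P281Z.El

namespace F2a

/-- the lemma of Nakayama for functions -/
theorem nak {E : Type} [NormedAddCommGroup E] [NormedSpace ℂ E] {ι κ : Type} [Fintype ι]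
    [Fintype κ] {x : E} {A : ι → E → ℂ} {g : κ → E → ℂ} (hA : ∀ i, AnalyticAt ℂ (A i) x)
    (hg : ∀ i, AnalyticAt ℂ (g i) x)
    (h : ∀ i, ∃ M : κ → E → ℂ, (∀ j, AnalyticAt ℂ (M j) x) ∧ (∀ j, M j x = 0) ∧
      P277Z.Oka.In x A fun z => g i z - ∑ j, M j z * g j z) (i : κ) :
    P277Z.Oka.In x A (g i) := by
  rw [in_iff hA (hg i)]
  have key : idl x g ≤ idl x A := by
    refine Submodule.le_of_le_smul_of_le_jacobson_bot
      (I := IsLocalRing.maximalIdeal (P298.H941.O E))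
      (Submodule.fg_span (Set.finite_range _))
      (IsLocalRing.jacobson_eq_maximalIdeal ⊥ bot_ne_top).ge ?_
    refine Ideal.span_le.2 ?_
    rintro _ ⟨j, rfl⟩
    obtain ⟨M, hM, h0, hI⟩ := h j
    have hs : AnalyticAt ℂ (fun z => ∑ j, M j z * g j z) x :=
      Finset.analyticAt_fun_sum _ fun j _ => (hM j).fun_mul (hg j)
    rw [in_iff hA ((hg j).fun_sub hs), gm_sub (hg j) hs,
      gm_sum _ fun j => (hM j).fun_mul (hg j)] at hI
    have h2 : ∑ j, gm x (fun z => M j z * g j z) ∈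
        IsLocalRing.maximalIdeal (P298.H941.O E) • idl x g := by
      refine Submodule.sum_mem _ fun j _ => ?_
      rw [gm_mul (hM j) (hg j)]
      refine Submodule.smul_mem_smul (r := gm x (M j)) (n := gm x (g j)) ?_
        (Ideal.subset_span ⟨j, rfl⟩)
      rw [IsLocalRing.mem_maximalIdeal, mem_nonunits_iff, isUnit_gm (hM j)]
      exact not_not.2 (h0 j)
    have h3 := Submodule.add_mem_sup hI h2
    rwa [sub_add_cancel] at h3
  exact key (Ideal.subset_span ⟨i, rfl⟩)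

variable {n D r : ℕ} {X : Mf n} {W : Mf D} {Γ : Set (X.prod W).X} {c : Chart n X.X}
  {f : W.X → Cm r} {y : X.X} {w : W.X}

theorem anV_phi (hc : At c y) (hf : AnV D f w) :
    AnV (n + D) (fun z : (X.prod W).X => (c (X.p1 W z), f (X.p2 W z))) (X.pair W y w) :=
  AnV.prod (HolA.anV (hol_p1.at _) hc) (AnV.pi fun a =>
    HolM.hol (a := fun x => f x a) (x := X.pair W y w) hol_p2 (hf.hol a))

theorem hol_cmb {k : ℕ} {e : Fin k → W.X → ℂ} {v : Fin k → Cm n × Cm r → ℂ} (hc : At c y)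
    (hf : AnV D f w) (he : ∀ i, Hol D (e i) w) (hv : ∀ i, AnalyticAt ℂ (v i) (c y, f w)) :
    Hol (n + D) (cmb c f e v) (X.pair W y w) :=
  P277Z.Hol.sum _ fun i _ => P277Z.Hol.mul ((anV_phi hc hf).cmp (hv i)) (hol_p2.hol (he i))

theorem ana_pull {a : X.X → ℂ} (hc : At c y) (ha : Hol n a y) (t : Cm r) :
    AnalyticAt ℂ (fun z : Cm n × Cm r => a (c.symm z.1)) (c y, t) :=
  AnalyticAt.fun_comp (g := fun z => a (c.symm z)) (f := Prod.fst) (ha c hc) analyticAt_fst

theorem ev_pull {P : X.X → Prop} (hc : At c y) (h : ∀ᶠ x in 𝓝 y, P x) (t : Cm r) :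
    ∀ᶠ z : Cm n × Cm r in 𝓝 (c y, t), P (c.symm z.1) :=
  (continuous_fst.tendsto (c y, t)).eventually (at_ev hc h)

theorem in_pull {ι : Type} [Fintype ι] {a : ι → X.X → ℂ} {g : X.X → ℂ} (hc : At c y)
    (h : In y a g) (t : Cm r) :
    P277Z.Oka.In (c y, t) (fun i z => a i (c.symm z.1)) fun z => g (c.symm z.1) :=
  let ⟨b, hb, e⟩ := h
  ⟨fun i z => b i (c.symm z.1), fun i => ana_pull hc (hb i) t, ev_pull hc e t⟩

theorem vn_off (hΓ : IsClosed Γ) (h : w ∉ fib Γ y) (u : (X.prod W).X → ℂ) : Vn Γ y w u :=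
  (hΓ.isOpen_compl.eventually_mem h).mono fun _ h1 h2 => absurd h2 h1

theorem inV_self {E : Type} [NormedAddCommGroup E] [NormedSpace ℂ E] {ι κ : Type} [Fintype ι]
    (x : E) (G : ι → κ → E → ℂ) (i : ι) : InV x G (G i) := by
  classical
  exact ⟨fun j _ => if j = i then 1 else 0, fun _ => analyticAt_const,
    .of_forall fun y k => by simp⟩

/-- one row -/
theorem row {k l : ℕ} {O : Set W.X} {t : Cm r} {e : Fin k → W.X → ℂ}
    {G : Fin l → Fin k → Cm n × Cm r → ℂ} {ι : Type} [Fintype ι] {a : ι → X.X → ℂ}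
    (hΓ : IsClosed Γ) (pp : PP Γ c O f y t e G) (hF : ∀ w ∈ O, f w = t → Fl Γ y w a) (i : Fin l)
    (H : Fin k → Fin n → Cm n × Cm r → ℂ) (hH : ∀ j p, AnalyticAt ℂ (H j p) (c y, t))
    (eH : ∀ j, ∀ᶠ z in 𝓝 (c y, t), G i j z = ∑ p, H j p z * (z.1 p - c y p)) :
    ∃ M : Fin l → Cm n × Cm r → ℂ, (∀ j, AnalyticAt ℂ (M j) (c y, t)) ∧ (∀ j, M j (c y, t) = 0) ∧
      ∀ j, P277Z.Oka.In (c y, t) (fun i z => a i (c.symm z.1))
        fun z => G i j z - ∑ i', M i' z * G i' j z := by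
  classical
  have hc := pp.atc
  have := pp.fin.fintype
  have hα : ∀ p, Hol n (fun x => c x p - c y p) y := fun p => (hol_chart hc p).sub (hol_const _ _)
  have h1 : ∀ w : {w | w ∈ O ∧ f w = t ∧ w ∈ fib Γ y}, ∃ (m : ℕ) (γ : Fin m → Fin n → X.X → ℂ)
      (u : Fin m → (X.prod W).X → ℂ), (∀ s p, Hol n (γ s p) y) ∧
      (∀ s, Hol (n + D) (u s) (X.pair W y w)) ∧
      (∀ s, In y a fun x => ∑ p, (c x p - c y p) * γ s p x) ∧
      ∀ p, Vn Γ y w fun z => cmb c f e (fun j => H j p) z - ∑ s, γ s p (X.p1 W z) * u s z := by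
    rintro ⟨w, hO, hw, -⟩
    have hf := pp.anf w hO hw
    refine hF w hO hw n (fun p x => c x p - c y p) (fun p => cmb c f e fun j => H j p)
      (fun _ _ => 0) hα (fun p => hol_cmb hc hf (fun j => pp.hol j w hO hw) fun j => hw ▸ hH j p)
      (fun _ => hol_const _ _) ?_
    have h2 := (pp.rel (G i) (pp.anG i)).1 (inV_self _ G i) w hO hw
    have h3 : Tendsto (fun z : (X.prod W).X => (c (X.p1 W z), f (X.p2 W z))) (𝓝 (X.pair W y w))
        (𝓝 (c y, t)) := hw ▸ (anV_phi hc hf).cont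
    filter_upwards [h2, h3.eventually (eventually_all.2 eH)] with z h4 h5 hz
    have h6 := h4 hz
    simp only [cmb, h5, Finset.sum_mul] at h6
    simp only [cmb, mul_zero, Finset.sum_const_zero, sub_zero, Finset.mul_sum]
    rw [Finset.sum_comm, ← h6]
    exact Finset.sum_congr rfl fun j _ => Finset.sum_congr rfl fun p _ => by ring
  choose m γ u hγ hu hI hV using h1
  have h2 : ∀ s : Σ w, Fin (m w), ∃ V : Fin k → Cm n × Cm r → ℂ,
      (∀ j, AnalyticAt ℂ (V j) (c y, t)) ∧ ∀ w ∈ O, f w = t →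
        Vn Γ y w fun z => (if w = s.1.1 then u s.1 s.2 else fun _ => 0) z - cmb c f e V z := by
    intro s
    refine pp.sur (fun w => if w = s.1.1 then u s.1 s.2 else fun _ => 0) fun w _ _ => ?_
    by_cases hw : w = s.1.1
    · rw [if_pos hw, hw]; exact hu s.1 s.2
    · rw [if_neg hw]; exact hol_const _ _
  choose V hVa hVv using h2
  have h3 : ∀ p, InV (c y, t) G fun j z =>
      H j p z - ∑ s : Σ w, Fin (m w), γ s.1 s.2 p (c.symm z.1) * V s j z := by
    intro p
    refine (pp.rel _ fun j => (hH j p).fun_sub (Finset.analyticAt_fun_sum _ fun s _ =>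
      (ana_pull hc (hγ s.1 s.2 p) t).fun_mul (hVa s j))).2 fun w hO hw => ?_
    by_cases hm : w ∈ fib Γ y
    swap
    · exact vn_off hΓ hm _
    have h4 : ∀ᶠ z in 𝓝 (X.pair W y w), X.p1 W z ∈ c.source :=
      (cont_p1.tendsto (X.pair W y w)).eventually (c.open_source.mem_nhds hc.2)
    filter_upwards [hV ⟨w, hO, hw, hm⟩ p, eventually_all.2 fun s => hVv s w hO hw, h4]
      with z h5 h6 h7 hz
    have h8 : ∀ s, cmb c f e (V s) z = (if w = s.1.1 then u s.1 s.2 else fun _ => 0) z :=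
      fun s => (sub_eq_zero.1 (h6 s hz)).symm
    have h9 : cmb c f e (fun j z => H j p z -
        ∑ s : Σ w, Fin (m w), γ s.1 s.2 p (c.symm z.1) * V s j z) z = cmb c f e (fun j => H j p) z -
        ∑ s : Σ w, Fin (m w), γ s.1 s.2 p (X.p1 W z) * cmb c f e (V s) z := by
      simp only [cmb, c.left_inv h7, sub_mul, Finset.sum_sub_distrib, Finset.sum_mul,
        Finset.mul_sum, mul_assoc]
      rw [Finset.sum_comm]
    rw [h9, ← h5 hz, Fintype.sum_sigma, Finset.sum_eq_single ⟨w, hO, hw, hm⟩]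
    · simp only [h8, if_true]
    · intro w' _ hne
      refine Finset.sum_eq_zero fun s _ => ?_
      rw [h8, if_neg fun h => hne (Subtype.ext h.symm), mul_zero]
    · exact fun h => absurd (Finset.mem_univ _) h
  choose d hd ed using h3
  have hx : ∀ p, AnalyticAt ℂ (fun z : Cm n × Cm r => z.1 p - c y p) (c y, t) := fun p =>
    (((ContinuousLinearMap.proj (R := ℂ) (φ := fun _ : Fin n => ℂ) p).analyticAt _).comp
      analyticAt_fst).fun_sub analyticAt_const
  refine ⟨fun i' z => ∑ p, (z.1 p - c y p) * d p i' z,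
    fun i' => Finset.analyticAt_fun_sum _ fun p _ => (hx p).fun_mul (hd p i'),
    fun i' => by simp, fun j => ?_⟩
  refine (P277Z.Oka.In.sum Finset.univ fun (s : Σ w, Fin (m w)) _ =>
    (in_pull hc (hI s.1 s.2) t).mul (hVa s j)).congr ?_
  have h4 : ∀ᶠ z : Cm n × Cm r in 𝓝 (c y, t), z.1 ∈ c.target :=
    (continuous_fst.tendsto (c y, t)).eventually (c.open_target.mem_nhds (c.map_source hc.2))
  filter_upwards [eH j, eventually_all.2 ed, h4] with z h5 h6 h7
  have h8 : ∑ i', (∑ p, (z.1 p - c y p) * d p i' z) * G i' j z =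
      ∑ p, (z.1 p - c y p) * ∑ i', d p i' z * G i' j z := by
    simp only [Finset.sum_mul, Finset.mul_sum, mul_assoc]
    rw [Finset.sum_comm]
  rw [h8, h5, ← Finset.sum_sub_distrib]
  simp only [← h6 _ j, c.right_inv h7, Finset.mul_sum]
  rw [Finset.sum_comm]
  refine Finset.sum_congr rfl fun p _ => ?_
  rw [mul_comm (H j p z), ← mul_sub, sub_sub_cancel, Finset.mul_sum]
  exact Finset.sum_congr rfl fun s _ => by ring

end F2a

theorem f2_of (hH : HAD) : F2 := by
  intro n D X W Γ hΓ r k l c O f y t e G ι _ a pp ha h0 hF i j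
  refine F2a.nak (g := fun i => G i j) (fun i => F2a.ana_pull pp.atc (ha i) t)
    (fun i => pp.anG i j) (fun i => ?_) i
  choose H hHa eH using fun j => hH (Cm r) n (G i j) (c y) t (pp.anG i j) (h0 i j)
  obtain ⟨M, h1, h2, h3⟩ := F2a.row hΓ.closed pp hF i H hHa eH
  exact ⟨M, h1, h2, h3 j⟩

end Vale.Agent.P281Z.El
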