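import Vale.Agent.P281Z.El.Sk

/-!
# P281Z, elimination of indeterminacy: finite direct images under projections
-/

open scoped Topology
open Set Filter
open Vale.Agent.P272.K

noncomputable section

namespace Vale.Agent.P281Z.El

namespace Fn

variable {E Y Z : Type} [NormedAddCommGroup E] [NormedSpace ℂ E] [NormedAddCommGroup Y]
  [NormedSpace ℂ Y] [NormedAddCommGroup Z] [NormedSpace ℂ Z]
  {ι κ ι₁ κ₁ ι₂ κ₂ : Type} [Fintype ι] [Fintype κ] [Fintype ι₁] [Fintype κ₁] [Fintype ι₂]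
  [Fintype κ₂]

omit [Fintype κ] in
theorem inV_add {x : E} {G : ι → κ → E → ℂ} {v w u : κ → E → ℂ} (h : InV x G v) (h' : InV x G w)
    (e : ∀ k y, u k y = v k y + w k y) : InV x G u := by
  obtain ⟨c, c1, c2⟩ := h
  obtain ⟨d, d1, d2⟩ := h'
  refine ⟨fun i y => c i y + d i y, fun i => (c1 i).add (d1 i), ?_⟩
  filter_upwards [c2, d2] with y h1 h2 k
  rw [e, h1, h2, ← Finset.sum_add_distrib]
  exact Finset.sum_congr rfl fun i _ => (add_mul _ _ _).symm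

theorem sum_swap (v : κ₂ → ℂ) (a : κ₂ → κ₁ → ℂ) (b : κ₁ → ℂ) :
    ∑ j, (∑ i, v i * a i j) * b j = ∑ i, v i * ∑ j, a i j * b j := by
  simp only [Finset.sum_mul, Finset.mul_sum, mul_assoc]
  exact Finset.sum_comm

omit [Fintype κ] in
/-- composition of presentations -/
theorem psh_comp {p : E → Y} {q : Y → Z} {G : ι → κ → E → ℂ} {x₀ : E} {O₁ : Set E} {Ω₁ : Set Y}
    {e₁ : κ₁ → κ → E → ℂ} {G₁ : ι₁ → κ₁ → Y → ℂ} {O₂ : Set Y} {Ω₂ : Set Z}
    {e₂ : κ₂ → κ₁ → Y → ℂ} {G₂ : ι₂ → κ₂ → Z → ℂ} (hp : ∀ x, AnalyticAt ℂ p x)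
    (hq : ∀ y, AnalyticAt ℂ q y) (h₁ : Psh p G x₀ O₁ Ω₁ e₁ G₁)
    (h₂ : Psh q G₁ (p x₀) O₂ Ω₂ e₂ G₂) (hO : O₂ ⊆ Ω₁) :
    Psh (fun x => q (p x)) G x₀ (O₁ ∩ p ⁻¹' O₂) Ω₂
      (fun a k x => ∑ b, e₂ a b (p x) * e₁ b k x) G₂ := by
  have hc : Continuous p := continuous_iff_continuousAt.2 fun x => (hp x).continuousAt
  have hsp : ∀ x ∈ O₁, x ∈ Sp G → p x ∈ Sp G₁ := fun x hx hs =>
    (h₁.sp _ (h₁.maps hx)).2 ⟨x, hx, hs, rfl⟩
  have han : ∀ (v : κ₂ → Z → ℂ), ∀ y ∈ O₂, (∀ a, AnalyticAt ℂ (v a) (q y)) → ∀ b,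
      AnalyticAt ℂ (fun y' => ∑ a, v a (q y') * e₂ a b y') y := fun v y hy hv b =>
    Finset.analyticAt_fun_sum _ fun a _ => ((hv a).comp (hq y)).mul (h₂.ane a b y hy)
  refine ⟨h₁.opn.inter (h₂.opn.preimage hc), h₂.opn', ⟨h₁.mem, h₂.mem⟩,
    fun x hx => h₂.maps hx.2, fun i k x hx => h₁.anG i k x hx.1, fun a k x hx => ?_, h₂.anG',
    fun z hz => ⟨fun v hv => ?_, fun u hu => ?_⟩, fun z hz => ?_, fun z hz => ?_,
    fun x hx hs he => h₁.one x hx.1 hs (h₂.one _ hx.2 (hsp x hx.1 hs) he), fun K hK hK' => ?_⟩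
  · exact Finset.analyticAt_fun_sum _ fun b _ =>
      ((h₂.ane a b _ hx.2).comp (hp x)).mul (h₁.ane b k x hx.1)
  · rw [(h₂.pres z hz).rel v hv]
    constructor
    · intro h x hx he
      have := ((h₁.pres _ (hO hx.2)).rel _ (han v _ hx.2 (he ▸ hv))).1 (h _ hx.2 he) x hx.1 rfl
      simpa only [sum_swap] using this
    · intro h y hy he
      refine ((h₁.pres _ (hO hy)).rel _ (han v _ hy (he ▸ hv))).2 fun x hx hx' => ?_
      subst hx'
      simpa only [sum_swap] using h x ⟨hx, hy⟩ he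
  · have k1 : ∀ y, ∃ w : κ₁ → Y → ℂ, y ∈ O₂ → q y = z → (∀ b, AnalyticAt ℂ (w b) y) ∧
        ∀ x ∈ O₁, p x = y → InV x G fun k x' => u x k x' - ∑ b, w b (p x') * e₁ b k x' := by
      intro y
      by_cases hy : y ∈ O₂ ∧ q y = z
      · obtain ⟨w, w1, w2⟩ := (h₁.pres y (hO hy.1)).sur u fun x hx hx' =>
          hu x ⟨hx, show p x ∈ O₂ from hx' ▸ hy.1⟩ (by rw [hx']; exact hy.2)
        exact ⟨w, fun _ _ => ⟨w1, w2⟩⟩
      · exact ⟨0, fun a b => absurd ⟨a, b⟩ hy⟩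
    choose w hw using k1
    obtain ⟨v, v1, v2⟩ := (h₂.pres z hz).sur w fun y hy he => (hw y hy he).1
    refine ⟨v, v1, fun x hx he => ?_⟩
    have k2 := ((h₁.pres _ (hO hx.2)).rel _ fun b =>
      ((hw _ hx.2 he).1 b).sub (han v _ hx.2 (he ▸ v1) b)).1 (v2 _ hx.2 he) x hx.1 rfl
    refine inV_add ((hw _ hx.2 he).2 x hx.1 rfl) k2 fun k y => ?_
    simp only [Pi.sub_apply, sub_mul, Finset.sum_sub_distrib, sum_swap]
    ring
  · rw [h₂.sp z hz]
    constructor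
    · rintro ⟨y, hy, hs, he⟩
      obtain ⟨x, hx, hs', rfl⟩ := (h₁.sp y (hO hy)).1 hs
      exact ⟨x, ⟨hx, hy⟩, hs', he⟩
    · rintro ⟨x, hx, hs, he⟩
      exact ⟨p x, hx.2, hsp x hx.1 hs, he⟩
  · refine ((h₂.fin z hz).biUnion fun y hy => h₁.fin y (hO hy.1)).subset ?_
    rintro x ⟨hx, hs, he⟩
    exact mem_biUnion (x := p x) ⟨hx.2, hsp x hx.1 hs, he⟩ ⟨hx.1, hs, rfl⟩
  · have k := h₁.prp _ (fun y hy => hO hy.1.1) (h₂.prp K hK hK')
    have : (O₁ ∩ p ⁻¹' O₂) ∩ Sp G ∩ (fun x => q (p x)) ⁻¹' K =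
        O₁ ∩ Sp G ∩ p ⁻¹' (O₂ ∩ Sp G₁ ∩ q ⁻¹' K) := by
      ext x
      exact ⟨fun h => ⟨⟨h.1.1.1, h.1.2⟩, ⟨h.1.1.2, hsp x h.1.1.1 h.1.2⟩, h.2⟩,
        fun h => ⟨⟨⟨h.1.1, h.2.1.1⟩, h.1.2⟩, h.2.2⟩⟩
    rw [this]
    exact k

/-- `p` has finite presentations -/
def Fp {F : Type} (p : E → Y) (r : E → F) : Prop :=
  ∀ (ι κ : Type) [Fintype ι] [Fintype κ] (G : ι → κ → E → ℂ) (x₀ : E),
  (∀ i k, AnalyticAt ℂ (G i k) x₀) →
  (∃ N ∈ 𝓝 x₀, {x | x ∈ N ∧ x ∈ Sp G ∧ p x = p x₀}.Countable) → FP p r G x₀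

theorem Fp.comp {F F₁ F₂ : Type} {p : E → Y} {q : Y → Z} {r : E → F} {r₁ : E → F₁} {r₂ : Y → F₂}
    (h₁ : Fp p r₁) (h₂ : Fp q r₂) (hp : ∀ x, AnalyticAt ℂ p x) (hq : ∀ y, AnalyticAt ℂ q y)
    (hr : ∀ x x', r x = r x' → r₁ x = r₁ x' ∧ r₂ (p x) = r₂ (p x')) :
    Fp (fun x => q (p x)) r := by
  rintro ι κ _ _ G x₀ hG ⟨N₀, hN₀, hc⟩ N hN
  obtain ⟨O₁, Ω₁, k₁, l₁, e₁, G₁, s₁, P₁, d₁⟩ := h₁ ι κ G x₀ hG
    ⟨N₀, hN₀, hc.mono (by exact fun x hx => ⟨hx.1, hx.2.1, congrArg q hx.2.2⟩)⟩ (N ∩ N₀)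
    (inter_mem hN hN₀)
  have hΩ : Ω₁ ∈ 𝓝 (p x₀) := P₁.opn'.mem_nhds (P₁.maps P₁.mem)
  obtain ⟨O₂, Ω₂, k₂, l₂, e₂, G₂, s₂, P₂, d₂⟩ := h₂ _ _ G₁ (p x₀)
    (fun i a => P₁.anG' i a _ (P₁.maps P₁.mem)) ⟨Ω₁, hΩ, (hc.image p).mono (by
      rintro y ⟨hy, hs, he⟩
      obtain ⟨x, hx, hs', rfl⟩ := (P₁.sp y hy).1 hs
      exact ⟨x, ⟨(s₁ hx).2, hs', he⟩, rfl⟩)⟩ Ω₁ hΩ
  exact ⟨_, _, _, _, _, _, fun x hx => (s₁ hx.1).1, psh_comp hp hq P₁ P₂ s₂, fun a i x x' h =>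
    Finset.sum_congr rfl fun b _ => by rw [d₁ b i x x' (hr x x' h).1, d₂ a b _ _ (hr x x' h).2]⟩

omit [NormedSpace ℂ E] in
/-- the support is closed -/
theorem not_sp_near {G : ι → κ → E → ℂ} {x : E} (hG : ∀ i k, ContinuousAt (G i k) x)
    (h : x ∉ Sp G) : ∀ᶠ y in 𝓝 x, y ∉ Sp G := by
  classical
  simp only [Sp, mem_ofPred_eq, not_not] at h ⊢
  choose c hc using fun a : κ => h (Pi.single a 1)
  let M : E → Matrix κ κ ℂ := fun y => Matrix.of fun a k => ∑ i, c a i * G i k y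
  have h1 : M x = 1 := by
    ext a k
    simp only [M, Matrix.of_apply, ← hc, Matrix.one_apply, Pi.single_apply, eq_comm]
  have h2 : ContinuousAt (fun y => (M y).det) x :=
    (Continuous.matrix_det continuous_id).continuousAt.comp (continuousAt_pi.2 fun a =>
      continuousAt_pi.2 fun k => tendsto_finsetSum _ fun i _ => continuousAt_const.mul (hG i k))
  filter_upwards [h2.eventually_ne (y := 0) (by rw [h1, Matrix.det_one]; exact one_ne_zero)]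
    with y hy v
  refine ⟨fun i => ∑ a, Matrix.vecMul v (M y)⁻¹ a * c a i, fun k => ?_⟩
  have h3 : Matrix.vecMul (Matrix.vecMul v (M y)⁻¹) (M y) = v := by
    rw [Matrix.vecMul_vecMul, Matrix.nonsing_inv_mul _ (isUnit_iff_ne_zero.2 hy),
      Matrix.vecMul_one]
  rw [sum_swap]
  exact (congrFun h3 k).symm

omit [Fintype κ] [Fintype κ₁] in
theorem inV_equiv (φ : E ≃L[ℂ] Y) (α : κ ≃ κ₁) (β : ι ≃ ι₁) (x : E) (G : ι → κ → E → ℂ)
    (v : κ₁ → Y → ℂ) : InV (φ x) (fun i a z => G (β.symm i) (α.symm a) (φ.symm z)) v ↔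
      InV x G fun k y => v (α k) (φ y) := by
  constructor
  · rintro ⟨c, c1, c2⟩
    refine ⟨fun i y => c (β i) (φ y), fun i => (c1 _).comp (φ.analyticAt x), ?_⟩
    filter_upwards [φ.continuous.continuousAt.eventually c2] with y hy k
    rw [hy, ← Equiv.sum_comp β]
    simp only [Equiv.symm_apply_apply, ContinuousLinearEquiv.symm_apply_apply]
  · rintro ⟨c, c1, c2⟩
    have hx : φ.symm (φ x) = x := φ.symm_apply_apply x
    refine ⟨fun i z => c (β.symm i) (φ.symm z), fun i =>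
      AnalyticAt.comp (g := c (β.symm i)) (hx.symm ▸ c1 _) (φ.symm.analyticAt (φ x)), ?_⟩
    have ht : Tendsto φ.symm (𝓝 (φ x)) (𝓝 x) := by
      simpa only [ContinuousAt, hx] using φ.symm.continuous.continuousAt (x := φ x)
    filter_upwards [ht.eventually c2] with z hz a
    have := hz (α.symm a)
    simp only [Equiv.apply_symm_apply, ContinuousLinearEquiv.apply_symm_apply] at this
    rw [this, ← Equiv.sum_comp β.symm]

/-- isomorphisms -/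
theorem fp_equiv {F : Type} (φ : E ≃L[ℂ] Y) (r : E → F) : Fp φ r := by
  classical
  rintro ι κ _ _ G x₀ hG - N hN
  have h0 : ∀ᶠ x in 𝓝 x₀, x ∈ N ∧ ∀ i k, AnalyticAt ℂ (G i k) x :=
    (show ∀ᶠ x in 𝓝 x₀, x ∈ N from hN).and (eventually_all.2 fun i => eventually_all.2 fun k =>
      (hG i k).eventually_analyticAt)
  obtain ⟨O, O1, O2, O3⟩ := eventually_nhds_iff.1 h0
  let α := Fintype.equivFin κ
  let β := Fintype.equivFin ι
  have hs : ∀ (v : Fin (Fintype.card κ) → ℂ) k, ∑ a, v a * (if α k = a then 1 else 0) = v (α k) :=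
    fun v k => by simp
  refine ⟨O, φ.symm ⁻¹' O, _, _, fun a k _ => if α k = a then 1 else 0,
    fun i a z => G (β.symm i) (α.symm a) (φ.symm z), fun x hx => (O1 x hx).1, ⟨O2,
    O2.preimage φ.symm.continuous, O3, fun x hx => by simpa using hx,
    fun i k x hx => (O1 x hx).2 i k, fun _ _ _ _ => analyticAt_const,
    fun i a z hz => ((O1 _ hz).2 _ _).comp (φ.symm.analyticAt z), fun z hz => ?_, fun z hz => ?_,
    fun z _ => (finite_singleton (φ.symm z)).subset fun x hx => ?_,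
    fun x _ _ h => φ.injective h, fun K hK hK' => ?_⟩, fun _ _ _ _ _ => rfl⟩
  · obtain ⟨x, rfl⟩ := φ.surjective z
    have hx : x ∈ O := by simpa using hz
    refine ⟨fun v _ => ?_, fun u hu => ⟨fun a z => u x (α.symm a) (φ.symm z), fun a => ?_,
      fun x' _ h => ⟨0, fun _ => analyticAt_const, Eventually.of_forall fun y k => ?_⟩⟩⟩
    · rw [inV_equiv]
      simp only [hs]
      exact ⟨fun h x' _ he => φ.injective he ▸ h, fun h => h x hx rfl⟩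
    · exact AnalyticAt.comp (g := u x (α.symm a)) ((φ.symm_apply_apply x).symm ▸ hu x hx rfl _)
        (φ.symm.analyticAt (φ x))
    · obtain rfl := φ.injective h
      simp
  · obtain ⟨x, rfl⟩ := φ.surjective z
    have hx : x ∈ O := by simpa using hz
    have k : φ x ∈ Sp (fun i a z => G (β.symm i) (α.symm a) (φ.symm z)) ↔ x ∈ Sp G := by
      simp only [Sp, mem_ofPred_eq, ContinuousLinearEquiv.symm_apply_apply]
      refine not_congr ⟨fun h v => ?_, fun h v => ?_⟩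
      · obtain ⟨c, hc⟩ := h fun a => v (α.symm a)
        refine ⟨fun i => c (β i), fun k => ?_⟩
        have := hc (α k)
        rw [← Equiv.sum_comp β] at this
        simpa only [Equiv.symm_apply_apply] using this
      · obtain ⟨c, hc⟩ := h fun k => v (α k)
        refine ⟨fun i => c (β.symm i), fun a => ?_⟩
        have := hc (α.symm a)
        rw [← Equiv.sum_comp β.symm] at this
        simpa only [Equiv.apply_symm_apply] using this
    rw [k]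
    exact ⟨fun h => ⟨x, hx, h, rfl⟩, fun ⟨x', _, h, he⟩ => φ.injective he ▸ h⟩
  · rw [← hx.2.2]
    exact (φ.symm_apply_apply x).symm
  · have k1 : IsCompact (φ ⁻¹' K) := φ.toHomeomorph.isCompact_preimage.2 hK'
    have k2 : φ ⁻¹' K ⊆ O := fun x hx => by simpa using hK hx
    refine k1.of_isClosed_subset ?_ inter_subset_right
    rw [← isOpen_compl_iff, isOpen_iff_eventually]
    intro x hx
    by_cases h : x ∈ φ ⁻¹' K
    · filter_upwards [not_sp_near (fun i k => ((O1 x (k2 h)).2 i k).continuousAt)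
        fun h' => hx ⟨⟨k2 h, h'⟩, h⟩] with y hy hy' using hy hy'.1.2
    · filter_upwards [k1.isClosed.isOpen_compl.mem_nhds h] with y hy hy' using hy hy'.2

end Fn

open Fn in
/-- **FIN** -/
theorem fin_of (hP : PUSH) : FIN := by
  intro Y _ _ _ D
  change Fp (Prod.snd : Cm D × Y → Y) Prod.fst
  induction D with
  | zero =>
    exact fp_equiv (ContinuousLinearEquiv.uniqueProd ℂ Y (Cm 0)) _
  | succ D ih =>
    let φ : (Cm (D + 1) × Y) ≃L[ℂ] ℂ × Cm D × Y :=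
      (((Fin.consEquivL ℂ fun _ : Fin (D + 1) => ℂ).symm).prodCongr
        (ContinuousLinearEquiv.refl ℂ Y)).trans (ContinuousLinearEquiv.prodAssoc ℂ ℂ (Cm D) Y)
    have h1 : Fp (Prod.snd : ℂ × Cm D × Y → Cm D × Y) Prod.fst := hP (Cm D × Y)
    have h2 : Fp (fun x => (φ x).2) Prod.fst :=
      (fp_equiv φ Prod.fst).comp h1 φ.analyticAt (fun _ => analyticAt_snd) fun x x' h =>
        ⟨h, congrFun h 0⟩
    exact h2.comp ih (fun x => analyticAt_snd.comp (φ.analyticAt x)) (fun _ => analyticAt_snd)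
      fun x x' h => ⟨h, congrArg Fin.tail h⟩

end Vale.Agent.P281Z.El
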