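import Vale.Agent.P281Z.El.Sk
import Vale.Agent.P281Z.Rs.Clo
import Vale.Agent.P281Z.Sc.Riem

/-!
# P281Z, elimination of indeterminacy: graphs of meromorphic maps
-/

open scoped Manifold ContDiff Topology
open Set Filter
open Vale.Agent.P272.K
open Vale.Agent.P277Z (Hol Nz at_chart)

noncomputable section

namespace Vale.Agent.P281Z.El

namespace Gra

variable {n D : ℕ} {X : Mf n} {W : Mf D} {Z : Set X.X} {τ : X.X → W.X}

theorem mem_gr {x : X.X} (hx : x ∉ Z) : X.pair W x (τ x) ∈ gr X W Z τ := subset_closure ⟨hx, rfl⟩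

theorem eq_of_mem (hM : Mg X W Z τ) {z : (X.prod W).X} (hz : z ∈ gr X W Z τ)
    (h : X.p1 W z ∉ Z) : X.p2 W z = τ (X.p1 W z) :=
  tendsto_nhds_unique_of_frequently_eq (cont_p2 (V := X) (W := W)).continuousAt
    ((hM.hol _ h).cont.tendsto.comp (cont_p1 (V := X) (W := W)).continuousAt)
    ((mem_closure_iff_frequently.1 hz).mono fun _ a => a.2)

theorem fib_eq (hM : Mg X W Z τ) {y : X.X} (hy : y ∉ Z) : fib (gr X W Z τ) y = {τ y} :=
  Set.ext fun _ => ⟨fun h => eq_of_mem hM h hy, fun h => (mem_singleton_iff.1 h).symm ▸ mem_gr hy⟩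

theorem pull (hM : Mg X W Z τ) {X₁ : Mf n} {ϖ : X₁.X → X.X} (h : Modif n ϖ Z) :
    Mg X₁ W (ϖ ⁻¹' Z) (fun x => τ (ϖ x)) ∧
      ∀ x, fib (gr X₁ W (ϖ ⁻¹' Z) fun x => τ (ϖ x)) x ⊆ fib (gr X W Z τ) (ϖ x) := by
  have hF : HolM (n + D) (n + D) fun z => X.pair W (ϖ (X₁.p1 W z)) (X₁.p2 W z) :=
    (h.hol.comp hol_p1).pair hol_p2
  have hP := hM.an.pre hF
  have e : gr X₁ W (ϖ ⁻¹' Z) (fun x => τ (ϖ x)) = closure
      (((fun z => X.pair W (ϖ (X₁.p1 W z)) (X₁.p2 W z)) ⁻¹' gr X W Z τ) \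
        X₁.p1 W ⁻¹' (ϖ ⁻¹' Z)) := by
    refine congrArg closure (Set.ext fun z => ⟨fun a => ⟨?_, a.1⟩, fun a => ⟨a.2, ?_⟩⟩)
    · show X.pair W (ϖ (X₁.p1 W z)) (X₁.p2 W z) ∈ gr X W Z τ
      rw [a.2]
      exact mem_gr a.1
    · exact eq_of_mem hM a.1 a.2
  refine ⟨⟨h.thin_pre, fun x hx => (hM.hol _ hx).cmp (h.hol.at x), ?_⟩, fun x w hw => ?_⟩
  · rw [e]
    exact Rs.clo _ _ _ _ hP (h.thin_pre.an.pre hol_p1)
  · have k : X₁.pair W x w ∈ gr X₁ W (ϖ ⁻¹' Z) fun x => τ (ϖ x) := hw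
    rw [e] at k
    exact closure_minimal sdiff_subset hP.closed k

theorem cancel (hM : Mg X W Z τ) {y : X.X} {w : W.X} {φ : X.X → ℂ} {h : (X.prod W).X → ℂ}
    (hφ : Hol n φ y) (h0 : Nz φ y) (hh : Hol (n + D) h (X.pair W y w))
    (hv : Vn (gr X W Z τ) y w fun z => φ (X.p1 W z) * h z) : Vn (gr X W Z τ) y w h := by
  have k1 : ∀ᶠ z in 𝓝 (X.pair W y w), X.p1 W z ∉ Z ∧ X.p2 W z = τ (X.p1 W z) → h z = 0 := by
    filter_upwards [hv.eventually_nhds, hh.near,
      (cont_p1 (V := X) (W := W)).continuousAt.eventually (h0.near hφ)] with z a b c d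
    have t : Tendsto (fun x => X.pair W x (τ x)) (𝓝 (X.p1 W z)) (𝓝 z) := by
      have := (holM_id.at (X.p1 W z)).pair (hM.hol _ d.1) |>.cont.tendsto
      rwa [← d.2] at this
    refine tendsto_nhds_unique_of_frequently_eq (b.cont.tendsto.comp t) tendsto_const_nhds ?_
    refine ((not_eventually.1 c).and_eventually
      ((t.eventually a).and (hM.thin.closed.isOpen_compl.mem_nhds d.1))).mono fun x hx => ?_
    exact (mul_eq_zero.1 (hx.2.1 (mem_gr hx.2.2))).resolve_left hx.1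
  filter_upwards [k1.eventually_nhds, hh.near] with z a b c
  exact tendsto_nhds_unique_of_frequently_eq b.cont.tendsto tendsto_const_nhds
    (((mem_closure_iff_frequently.1 c).and_eventually a).mono fun _ k => k.2 k.1)

/-- the fibres of the graph are connected -/
theorem conn (hM : Mg X W Z τ) (y : X.X) : IsConnected (fib (gr X W Z τ) y) := by
  have : CompactSpace (gr X W Z τ) := isCompact_iff_compactSpace.1 isClosed_closure.isCompact
  have hc := conn_all (f := fun z : gr X W Z τ => X.p1 W z.1)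
    (cont_p1.comp continuous_subtype_val) hM.thin
    (Subtype.dense_iff.2 (closure_mono fun z hz => ⟨⟨z, subset_closure hz⟩, hz.1, rfl⟩))
    (fun x hx => ⟨⟨⟨_, mem_gr hx⟩, rfl⟩, Set.Subsingleton.isPreconnected fun a ha b hb => by
      have ka : X.p1 W a.1 = x := ha
      have kb : X.p1 W b.1 = x := hb
      refine Subtype.ext (prod_ext (ka.trans kb.symm) ?_)
      rw [eq_of_mem hM a.2 (ka ▸ hx), eq_of_mem hM b.2 (kb ▸ hx), ka, kb]⟩) y
  have := hc.image (fun z => X.p2 W z.1) (cont_p2.comp continuous_subtype_val).continuousOn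
  suffices e : (fun z : gr X W Z τ => X.p2 W z.1) '' ((fun z : gr X W Z τ => X.p1 W z.1) ⁻¹' {y}) =
    fib (gr X W Z τ) y from e ▸ this
  refine Set.ext fun w => ⟨fun ⟨z, a, b⟩ => ?_, fun a => ⟨⟨_, a⟩, rfl, rfl⟩⟩
  have ka : X.p1 W z.1 = y := a
  have kb : X.p2 W z.1 = w := b
  rw [← ka, ← kb]
  exact z.2

theorem hol_of_cont (hZ : Thin n Z) {g : X.X → W.X} (hc : Continuous g)
    (hg : ∀ x ∉ Z, HolA n D g x) : HolM n D g := fun y => by
  have he := at_chart (n := D) (g y)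
  refine HolA.of_hol hc.continuousAt he fun a => ?_
  obtain ⟨ζ, h1, h2, h3⟩ := hZ.nz y
  have h4 : ∀ᶠ x in 𝓝 y, At (chartAt (Cm D) (g y)) (g x) := hc.continuousAt.eventually (at_near he)
  have h5 : ∀ x, At (chartAt (Cm D) (g y)) (g x) →
      ContinuousAt (fun x => chartAt (Cm D) (g y) (g x) a) x := fun x hx =>
    (hol_chart hx a).cont.comp hc.continuousAt
  obtain ⟨b, h6, h7⟩ := riem (f := fun x => chartAt (Cm D) (g y) (g x) a)
    (C := ‖chartAt (Cm D) (g y) (g y) a‖ + 1) h1 h2 (by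
      filter_upwards [h3, h4, (h5 y he).norm.eventually (gt_mem_nhds (lt_add_one _))] with x k1 k2 k3 k4
      exact ⟨(hg x fun k => k4 (k1 k)).hol (hol_chart k2 a), k3.le⟩)
  refine h6.congr ?_
  filter_upwards [h7.eventually_nhds, h6.near, h4, h2.near h1] with x k1 k2 k3 k4
  exact tendsto_nhds_unique_of_frequently_eq k2.cont.tendsto (h5 x k3).tendsto
    (((not_eventually.1 k4).and_eventually k1).mono fun _ k => k.2 k.1)

end Gra

open Gra

/-- **GRA** -/
theorem gra : GRA := fun _ _ _ _ _ _ hM =>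
  ⟨fun _ hy => fib_eq hM hy, fun _ _ h => pull hM h, fun _ _ _ _ a b c d => cancel hM a b c d⟩

/-- **END** -/
theorem end_ : END := by
  intro n D X W Z τ hM hc
  have h1 : ∀ y, ∃ w, fib (gr X W Z τ) y = {w} := fun y => by
    let _ := TopologicalSpace.metrizableSpaceMetric W.X
    exact exists_eq_singleton_iff_nonempty_subsingleton.2 ⟨(conn hM y).1,
      (hc y).isTotallyDisconnected _ subset_rfl (conn hM y).2⟩
  choose g hg using h1
  have h2 : ∀ x ∉ Z, g x = τ x := fun x hx =>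
    singleton_injective ((hg x).symm.trans (fib_eq hM hx))
  have h3 : Continuous g := continuous_iff_isClosed.2 fun C hC => by
    have e : g ⁻¹' C = X.p1 W '' (gr X W Z τ ∩ X.p2 W ⁻¹' C) := by
      refine Set.ext fun y => ⟨fun a => ⟨X.pair W y (g y), ⟨?_, a⟩, rfl⟩, fun ⟨z, a, b⟩ => ?_⟩
      · exact (hg y).ge rfl
      · have k : X.p2 W z = g (X.p1 W z) := (hg (X.p1 W z)).le a.1
        show g y ∈ C
        rw [← b, ← k]
        exact a.2
    rw [e]
    exact ((isClosed_closure.inter (hC.preimage cont_p2)).isCompact.image cont_p1).isClosed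
  refine ⟨g, hol_of_cont hM.thin h3 fun x hx => (hM.hol x hx).cng ?_, h2⟩
  filter_upwards [hM.thin.closed.isOpen_compl.mem_nhds hx] with z hz using (h2 z hz).symm

end Vale.Agent.P281Z.El
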