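import Vale.Agent.P281Z.El.Sk
import Vale.Agent.P281.H511.Gen.Local

/-!
# P281Z, elimination of indeterminacy: HAD and SPR
-/

open scoped Topology
open Set Filter
open Vale.Agent.P272.K

noncomputable section

namespace Vale.Agent.P281Z.El

theorem had : HAD := by
  intro Y _ _ _ n u y t hu h0
  set π : Cm n × Y →L[ℂ] Cm n × Y :=
    (0 : Cm n × Y →L[ℂ] Cm n).prod (ContinuousLinearMap.snd ℂ (Cm n) Y)
  have hπ : ‖π‖ ≤ 1 := π.opNorm_le_bound zero_le_one fun z => by
    rw [one_mul]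
    exact max_le (by simp [π]) (norm_snd_le z)
  obtain ⟨Q, hQ, e⟩ := P281.H511.Gen.exists_division π hπ hu
  refine ⟨fun i z => Q z (Pi.single i 1, 0), fun i =>
    ((ContinuousLinearMap.apply ℂ ℂ ((Pi.single i 1 : Cm n), (0 : Y))).analyticAt _).comp hQ, ?_⟩
  filter_upwards [e, (continuous_snd.tendsto (y, t)).eventually h0] with z hz hz0
  have e1 : (y, t) + π (z - (y, t)) = (y, z.2) := Prod.ext (by simp [π]) (by simp [π])
  have e2 : z - (y, z.2) = ∑ i, (z.1 i - y i) • ((Pi.single i 1 : Cm n), (0 : Y)) := by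
    refine Prod.ext ?_ ?_
    · funext j
      simp [Prod.fst_sum, Finset.sum_apply, Pi.single_apply]
    · simp [Prod.snd_sum]
  rw [e1, hz0, sub_zero, e2, map_sum] at hz
  rw [hz]
  exact Finset.sum_congr rfl fun i _ => by rw [map_smul, smul_eq_mul, mul_comm]

theorem spr_of (H : COEF) : SPR := by
  intro Y _ _ _ n ι _ a u y Δ hΔ hc ha hu ⟨t, ht, h0⟩
  have hs : ∀ s : Y, Tendsto (fun s' : Y => (y, s')) (𝓝 s) (𝓝 (y, s)) := fun s =>
    (continuous_const.prodMk continuous_id).tendsto s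
  have ho : IsOpen {s : Y | P277Z.Oka.In (y, s) (fun i (z : Cm n × Y) => a i z.1) u} :=
    isOpen_iff_mem_nhds.2 fun s h => (hs s).eventually (P277Z.Oka.In.eventually h)
  refine hc.subset_of_closure_inter_subset ho ⟨t, ht, h0⟩ fun s ⟨h1, h2⟩ => ?_
  obtain ⟨c, hc, e⟩ := H Y n ι Unit (fun i _ => a i) (fun _ => u) y s (fun i _ => ha i)
    (fun _ => hu s h2) ((mem_closure_iff_frequently.1 h1).mono fun s' h => by
      filter_upwards [ho.mem_nhds h] with s'' h'
      obtain ⟨c, hc, e⟩ := P277Z.Oka.In.comp (x' := y) (Φ := fun x => (x, s'')) h'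
        (analyticAt_id.prod analyticAt_const) rfl
      exact ⟨c, hc, e.mono fun x hx _ => hx⟩)
  exact ⟨c, hc, e.mono fun x hx => hx ()⟩

end Vale.Agent.P281Z.El
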