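import Vale.Agent.P281Z.El.Sk

/-!
# P281Z, elimination of indeterminacy: the function `φ` drops
-/

open scoped Manifold ContDiff Topology
open Set Filter
open Vale.Agent.P272.K
open Vale.Agent.P277Z (Hol Nz hol_const)

noncomputable section

namespace Vale.Agent.P281Z.El

namespace ImpA

section ideal

variable {n : ℕ} {X X₁ : Mf n} {ι ι' : Type} [Fintype ι] [Fintype ι'] {y : X.X}

theorem in_sub {g : ι' → X.X → ℂ} {f : X.X → ℂ} (e : ι → ι') (h : In y (fun i => g (e i)) f) :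
    In y g f := by
  classical
  obtain ⟨c, a, b⟩ := h
  refine ⟨fun s x => ∑ i, if e i = s then c i x else 0, fun s => Hol.sum _ fun i _ => ?_,
    b.mono fun x k => ?_⟩
  · by_cases k : e i = s
    · simpa only [if_pos k] using a i
    · simpa only [if_neg k] using hol_const 0 y
  · simp only [k, Finset.sum_mul, ite_mul, zero_mul]
    rw [Finset.sum_comm]
    simp only [Finset.sum_ite_eq, Finset.mem_univ, if_true]

theorem in_self (a : ι → X.X → ℂ) (i : ι) : In y a (a i) :=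
  in_sub (fun _ : Unit => i) ⟨fun _ _ => 1, fun _ => hol_const 1 y, .of_forall fun x => by simp⟩

variable {ϖ : X₁.X → X.X} {z : X₁.X} {φ : X₁.X → ℂ}

/-- the pull back of an element of an ideal whose pull back is divisible by `φ` -/
theorem pull (hϖ : HolM n n ϖ) {a : ι → X.X → ℂ} {c : ι → X₁.X → ℂ} {f : X.X → ℂ}
    (h : In (ϖ z) a f) (hc : ∀ i, Hol n (c i) z) (k : ∀ᶠ x in 𝓝 z, ∀ i, a i (ϖ x) = c i x * φ x) :
    ∃ u, Hol n u z ∧ (u z ≠ 0 → ∃ i, c i z ≠ 0) ∧ ∀ᶠ x in 𝓝 z, f (ϖ x) = u x * φ x := by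
  obtain ⟨d, d1, d2⟩ := h
  refine ⟨fun x => ∑ i, d i (ϖ x) * c i x, Hol.sum _ fun i _ => (hϖ.hol (d1 i)).mul (hc i),
    fun e => ?_, ?_⟩
  · obtain ⟨i, -, e'⟩ := Finset.exists_ne_zero_of_sum_ne_zero e
    exact ⟨i, right_ne_zero_of_mul e'⟩
  · filter_upwards [hϖ.cont.continuousAt.eventually d2, k] with x k1 k2
    simp only [k1, k2, Finset.sum_mul, mul_assoc]

theorem cancel {u u' : X₁.X → ℂ} (hu : Hol n u z) (hu' : Hol n u' z) (hφ : Nz φ z)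
    (h : ∀ᶠ x in 𝓝 z, u x * φ x = u' x * φ x) : u z = u' z := by
  by_contra k
  refine hφ ?_
  filter_upwards [h, (hu.sub hu').ne_near (sub_ne_zero.2 k)] with x k1 k2
  exact (mul_eq_mul_right_iff.1 k1).resolve_left (sub_ne_zero.1 k2)

end ideal

variable {n D d : ℕ} {X₀ : Mf n} {W : Mf D} {L : Lab X₀ W d}

/-- `f ∘ j` is a local homeomorphism on the fibre -/
theorem pick {f : W.X → Cm (d + 1)} {v : L.V.X} (h : L.Tv f v) {P Q : L.V.X → Prop}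
    (hP : L.FO v P) (hQ : ∀ᶠ u in 𝓝 v, Q u) : ∃ v₁, L.g v₁ = L.g v ∧ Q v₁ ∧
      ∀ᶠ s in 𝓝 (f (L.j v₁)), ∃ u, L.g u = L.g v ∧ f (L.j u) = s ∧ P u ∧ Q u := by
  obtain ⟨-, β, -, Θ, -, h1, h2⟩ := h
  obtain ⟨v₁, a1, a2, a3, a4⟩ := (hP.and_eventually ((eventually_mem_nhdsWithin).and
    (nhdsWithin_le_nhds ((Θ.open_source.eventually_mem h1).and hQ.eventually_nhds)))).exists
  have e : Θ v₁ = (β (L.g v), f (L.j v₁)) := by rw [(h2 v₁ a3).2, show L.g v₁ = L.g v from a2]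
  have t0 : Tendsto (fun s => (β (L.g v), s)) (𝓝 (f (L.j v₁))) (𝓝 (Θ v₁)) :=
    e ▸ (Continuous.prodMk_right _).continuousAt
  have t1 : Tendsto (fun s => Θ.symm (β (L.g v), s)) (𝓝 (f (L.j v₁))) (𝓝 v₁) :=
    (Θ.tendsto_symm a3).comp t0
  have t2 : ∀ᶠ s in 𝓝 (f (L.j v₁)), L.g (Θ.symm (β (L.g v), s)) = L.g v ∧
      f (L.j (Θ.symm (β (L.g v), s))) = s := by
    filter_upwards [t0.eventually (Θ.open_target.eventually_mem (Θ.map_source a3))] with s k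
    have k1 := h2 _ (Θ.map_target k)
    have k2 := (Θ.right_inv k).symm.trans k1.2
    exact ⟨β.injOn k1.1 (h2 v h1).1 (congrArg Prod.fst k2).symm, (congrArg Prod.snd k2).symm⟩
  refine ⟨v₁, a2, a4.self_of_nhds, ?_⟩
  filter_upwards [t2, t1.eventually a4,
    (tendsto_nhdsWithin_iff.2 ⟨t1, t2.mono fun s k => k.1⟩).eventually a1] with s k1 k2 k3
  exact ⟨_, k1.1, k1.2, k3, k2⟩

/-- a general point of the sheet -/
theorem key (hO : ONE) (hM : MUB) (hL : L.Ok) {S S₁ : Sg X₀ W} (h₁ : L.Ad S₁) {x : S.X.X}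
    {y : S₁.X.X} (e : S₁.π y = S.π x) {v : L.V.X} {b : Box S.X W (d + 1)} (hv : L.Gd S x v)
    (hb : L.One S x v b) {P : Cm (d + 1) → Prop} (hP : ∀ t ∈ b.Δ, ∃ᶠ s in 𝓝 t, P s) :
    ∃ w ∈ b.O, P (b.f w) ∧ (∀ z ∈ b.O, b.f z = b.f w → z ∈ fib S.Γ x → z = w) ∧
      Bas S₁.Γ y w b.f (L.mu S₁ y v) := by
  have hv₁ : L.Gd S₁ y v := ⟨hv.off, hv.eq.trans e.symm, e ▸ hv.nm⟩
  obtain ⟨b₁, a1, a2⟩ := hO n D d X₀ W L hL S₁ h₁ y v b.f hv₁ hb.tv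
  obtain ⟨a3, a4⟩ := (hM n D d X₀ W L hL S₁ h₁ y v b₁ hv₁ a1).self_of_nhds hv₁.eq
  rw [a2, ← a3] at a4
  obtain ⟨v₁, c1, c2, c3⟩ := pick hb.tv a4
    ((Continuous.prodMk_right x).continuousAt.eventually hb.near)
  obtain ⟨s, k1, u, k2, rfl, k3, k4⟩ := ((hP _ (hb.ok.maps
    (c2 ((congrArg L.θ c1).trans hv.eq)).1)).and_eventually c3).exists
  have k5 := k4 ((congrArg L.θ k2).trans hv.eq)
  exact ⟨L.j u, k5.1, k1, k5.2, k3⟩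

end ImpA

open ImpA in
/-- **IMP** -/
theorem imp_of (hG : GENR) (hB : BAS) (hT : BLT) (hF : FG) (hD : DROP) (hO : ONE) (hM : MUB)
    (hR : PHR) (hI : PHI) : IMP := by
  intro n D d X₀ W L hL S hS S₁ ϖ y h₁ hϖ hπ hsub hy
  obtain ⟨ν, v, b, h1, h2, h3, h4⟩ := hI n D d X₀ W L hL S hS (ϖ y) (hπ y ▸ hy)
  have hA : L.phi S₁ y ≤ ∑ k, L.mu S₁ y (v k) := by
    by_cases k : ∃ b₀, L.θ b₀ = S₁.π y
    · obtain ⟨b₀, k⟩ := k
      exact (hR n D d X₀ W L hL S₁ h₁ y b₀ ν v k hy (h2 b₀ (k.trans (hπ y)))).le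
    · refine (Nat.sInf_eq_zero.2 (.inr (eq_empty_of_forall_notMem ?_))).trans_le (Nat.zero_le _)
      exact fun m ⟨b₀, _, _, k', _⟩ => k ⟨b₀, k'⟩
  have hC : ∀ k, L.mu S₁ y (v k) ≤ (b k).a (ϖ y) := fun k => by
    have ok := (h1 k).2.ok
    obtain ⟨w, a1, a2, a3, a4⟩ := key hO hM hL h₁ (hπ y) (h1 k).1 (h1 k).2
      (P := fun s => s ∈ (b k).Gn (ϖ y)) fun t ht => mem_closure_iff_frequently.1
        ((hG n D S.X W S.Γ hS.an _ (b k) _ ok (h1 k).2.mem).2.2.1 ht)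
    obtain ⟨e, he⟩ := hB n D S.X W S.Γ hS.an _ (b k) _ ok (h1 k).2.mem w a1 a2 a3
    exact (hT n D _ _ _ S.X S₁.X W S.Γ S₁.Γ ϖ y w _ e hϖ hsub
      ((ok.pp _ (h1 k).2.mem _ (ok.maps a1)).anf w a1 rfl) he a4).1
  rw [h3.self_of_nhds]
  refine ⟨hA.trans (Finset.sum_le_sum fun k _ => hC k), ?_⟩
  intro ι _ a c φ ha hJ hc ⟨i₀, hi⟩ hφ hφ' hac hcan
  choose m q t f1 f2 f3 using fun k =>
    hF n D S.X W S.Γ hS.an _ (b k) _ (h1 k).2.ok (h1 k).2.mem ((b k).rk (ϖ y))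
  have g1 : ∀ k q, ∀ t ∈ (b k).Δ, ∃ u, Hol n u y ∧
      ∀ᶠ x in 𝓝 y, (b k).mn ((b k).rk (ϖ y)) q ((b k).c (ϖ x), t) = u x * φ x := fun k q t ht =>
    let ⟨u, a1, _, a2⟩ := pull hϖ ((hJ _ (f2 k q t ht)).1 fun ι' _ a' ha' k' =>
      (h4 ι' a' ha').1 k' k q t ht) hc hac
    ⟨u, a1, a2⟩
  choose u u1 u2 using fun s : Σ k, Fin (m k) => g1 s.1 (q s.1 s.2) (t s.1 s.2) (f1 s.1 s.2)
  have g2 : ∀ s : Σ k, Fin (m k), Hol n (fun z => (b s.1).mn ((b s.1).rk (ϖ y)) (q s.1 s.2)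
      ((b s.1).c z, t s.1 s.2)) (ϖ y) := fun s => f2 _ _ _ (f1 s.1 s.2)
  obtain ⟨u', a1, a2, a3⟩ := pull hϖ ((hJ _ (ha i₀)).2 (in_self a i₀) _ _ g2 ((h4 _ _ g2).2
    fun k q' t' ht => in_sub (fun i => (⟨k, i⟩ : Σ k, Fin (m k)))
      ((f3 k).self_of_nhds q' t' ht))) u1 (eventually_all.2 u2)
  obtain ⟨⟨k, i⟩, hs⟩ := a2 (cancel (hc i₀) a1 hφ'
    ((hac.and a3).mono fun x k => (k.1 i₀).symm.trans k.2) ▸ hi)
  refine hA.trans_lt (Finset.sum_lt_sum (fun k _ => hC k) ⟨k, Finset.mem_univ _, ?_⟩)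
  obtain ⟨w, c1, c2, c3, c4⟩ := key hO hM hL h₁ (hπ y) (h1 k).1 (h1 k).2 fun t' ht =>
    (hD n D S.X W S.Γ hS.an _ (b k) S₁.X S₁.Γ ϖ y φ (h1 k).2.ok (h1 k).2.mem hϖ hsub hφ hφ' hcan
      (g1 k) ⟨_, _, f1 k i, _, u1 ⟨k, i⟩, hs, u2 ⟨k, i⟩⟩ t' ht).mono fun _ k => k.self_of_nhds
  exact c2 w c1 rfl c3 _ c4

end Vale.Agent.P281Z.El
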