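import Vale.Agent.P281Z.El.Sk
import Vale.Agent.P281Z.An.Basic

/-!
# P281Z, elimination of indeterminacy: the jumping set of the function `φ` along a map
-/

open scoped Manifold ContDiff Topology
open Set Filter
open Vale.Agent.P272.K
open Vale.Agent.P277Z (Hol Nz gen)
open Vale.Agent.P281Z.Ana (AnAt)

noncomputable section

namespace Vale.Agent.P281Z.El

namespace Jmp

variable {n m : ℕ} {X : Mf n} {Θ : Set X.X} {φ : X.X → ℕ} {J : X.X → (X.X → ℂ) → Prop}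
  {V : Mf m} {ρ : V.X → X.X}

/-- upper semicontinuity -/
theorem usc {x : X.X} (h : Loc Θ φ J x) (hx : x ∉ Θ) : ∀ᶠ y in 𝓝 x, φ y ≤ φ x := by
  obtain ⟨α, _, _, r, ι, _, g, -, h2⟩ := h
  exact (h2.self_of_nhds.2 hx).2.mono fun _ k => k.1

/-- the local form of the jumping set -/
theorem loc (hρ : HolM m n ρ) {v₀ : V.X} (h : Loc Θ φ J (ρ v₀)) :
    ∃ A : Set V.X, AnAt m A v₀ ∧ (∀ᶠ v in gen {v₀}, v ∉ A) ∧
      ∀ᶠ v in 𝓝 v₀, ρ v ∉ Θ → (v ∈ A ↔ ¬ ∀ᶠ v' in 𝓝 v, φ (ρ v') = φ (ρ v)) := by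
  obtain ⟨α, _, _, r, ι, _, g, h1, h2⟩ := h
  have h3 := hρ.cont.continuousAt.eventually h2
  let F : α → Prop := fun a => ∀ i, ∀ᶠ v in 𝓝 v₀, g a i (ρ v) = 0
  have hF : ∀ᶠ v in 𝓝 v₀, ∀ a, F a → ∀ i, g a i (ρ v) = 0 :=
    eventually_all.2 fun a => by
      by_cases c : F a
      · exact (eventually_all.2 c).mono fun _ k _ => k
      · exact .of_forall fun _ k => absurd k c
  have hG : ∀ᶠ v in gen {v₀}, v ∉ ⋃ a : {a // ¬ F a}, ⋂ i, {v | g a.1 i (ρ v) = 0} := by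
    simp only [mem_iUnion, not_exists]
    refine eventually_all.2 fun a => ?_
    obtain ⟨i, hi⟩ := not_forall.1 a.2
    filter_upwards [Nz.gen hi (hρ.hol (h1 a.1 i))] with v k1 k2 using k1 (mem_iInter.1 k2 i)
  refine ⟨⋃ a : {a // ¬ F a}, ⋂ i, {v | g a.1 i (ρ v) = 0},
    Ana.anAt_iUnion fun a => Ana.anAt_iInter fun i => Ana.anAt_zero (hρ.hol (h1 a.1 i)), hG, ?_⟩
  filter_upwards [h3, h3.eventually_nhds, hF.eventually_nhds, P277Z.gen_near hG] with v a1 a2 a3 a4 hv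
  have a5 := hρ.cont.continuousAt.eventually (a1.2 hv).2
  constructor
  · intro k1 k2
    obtain ⟨a, ha⟩ := mem_iUnion.1 k1
    have k3 : r (ρ v) ≤ a.1 := (a1.1 a.1).1 fun i => mem_iInter.1 ha i
    obtain ⟨u, b1, b2, b3, b4⟩ := ((P277Z.gen_frequently a4).and_eventually (k2.and (a5.and a2))).exists
    exact b1.self_of_nhds (mem_iUnion.2 ⟨a, mem_iInter.2 ((b4.1 a.1).2 ((b3.2.1 b2).trans k3))⟩)
  · intro k1
    by_contra k2
    refine k1 ?_
    have k3 : F (r (ρ v)) := by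
      by_contra c
      exact k2 (mem_iUnion.2 ⟨⟨_, c⟩, mem_iInter.2 ((a1.1 _).2 le_rfl)⟩)
    filter_upwards [a2, a3, a5] with u b1 b2 b3 using b3.2.2 ((b1.1 _).1 (b2 _ k3))

end Jmp

open Jmp in
theorem jmp : JMP := by
  intro n X Θ φ J hΘ hL m V ρ _ hρ hex
  have hT : Thin m (ρ ⁻¹' Θ) := Thin.pre_of_ex hΘ hρ hex
  let A : Set V.X := ρ ⁻¹' Θ ∪ {v | ¬ ∀ᶠ v' in 𝓝 v, φ (ρ v') = φ (ρ v)}
  have hA : Thin m A := by
    refine ⟨fun v => ?_, fun v => ?_⟩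
    · obtain ⟨A₀, h1, -, h3⟩ := loc hρ (hL (ρ v))
      refine Ana.AnAt.congr (Ana.AnAt.union (hT.1 v) h1) (h3.mono fun u hu => ?_)
      by_cases c : ρ u ∈ Θ
      · exact iff_of_true (.inl c) (.inl c)
      · exact or_congr Iff.rfl (hu c)
    · obtain ⟨A₀, -, h2, h3⟩ := loc hρ (hL (ρ v))
      refine mem_closure_iff_frequently.2
        (((P277Z.gen_frequently (h2.and (hT.gen v))).and_eventually h3).mono fun u hu => ?_)
      obtain ⟨b1, b2⟩ := hu.1.self_of_nhds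
      rintro (c | c)
      exacts [b2 c, b1 ((hu.2 b2).2 c)]
  obtain ⟨v₀, hv₀⟩ := hA.2.nonempty
  have hc : ∀ v ∉ A, φ (ρ v) = φ (ρ v₀) := fun v hv =>
    hA.preconn.constant (f := fun v => φ (ρ v)) (fun u hu => ContinuousAt.continuousWithinAt
      (tendsto_const_nhds.congr' ((not_not.1 fun c => hu (.inr c)).mono fun _ k => k.symm))) hv hv₀
  have hle : ∀ v, ρ v ∉ Θ → φ (ρ v₀) ≤ φ (ρ v) := fun v hv => by
    obtain ⟨u, b1, b2⟩ := ((hA.freq v).and_eventually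
      (hρ.cont.continuousAt.eventually (usc (hL _) hv))).exists
    exact hc u b1 ▸ b2
  refine ⟨φ (ρ v₀), A, hA, fun v hv => ⟨fun c => hv (.inl c), hc v hv⟩, fun v hv hv' => ?_⟩
  refine (hle v hv').lt_of_ne fun e => hv.resolve_left hv' ?_
  filter_upwards [hρ.cont.continuousAt.eventually (usc (hL _) hv'),
    hT.closed.isOpen_compl.mem_nhds hv'] with u b1 b2 using b1.antisymm (e ▸ hle u b2)

end Vale.Agent.P281Z.El
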