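import Vale.Agent.P281Z.El.Sk
import Vale.Agent.P281Z.Mf.Fib
import Vale.Agent.P281Z.Rs.All

/-!
# P281Z, elimination of indeterminacy: labels exist
-/

open scoped Manifold ContDiff Topology
open Set Filter
open Vale.Agent.P272.K
open Vale.Agent.P277Z.Slc (Snc)
open Vale.Agent.P277.H762 (Cv cv_iUnion cv_empty)

noncomputable section

namespace Vale.Agent.P281Z.El

namespace Lb

variable {D d : ℕ} {W : Mf D}

theorem dm_mono {A A' : Set W.X} (h : Dm d A) (k : A' ⊆ A) : Dm d A' := fun c hc =>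
  (h c hc).mono (image_mono (inter_subset_inter_left _ k))

theorem dm_empty : Dm d (∅ : Set W.X) := fun c _ => by
  rw [empty_inter, image_empty]
  exact cv_empty

theorem dm_iUnion {ι : Type} [Countable ι] {A : ι → Set W.X} (h : ∀ i, Dm d (A i)) :
    Dm d (⋃ i, A i) := fun c hc => by
  rw [iUnion_inter, image_iUnion]
  exact cv_iUnion fun i => h i c hc

/-- the part of a fibre which comes from one resolution -/
theorem piece (hD : DMA) {p k : ℕ} {B : Mf p} {V : Mf (p + k)} {π : V.X → (B.prod W).X}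
    {S Z : Set (B.prod W).X} {s : ℕ} {G : Fin s → Set V.X} (ho : Over (p + k) (p + D) π S Z)
    (hG : Snc (p + k) G) (hZ : π ⁻¹' Z = ⋃ l, G l) {b : B.X}
    (hr : RegAt (p + k) p (fun v => B.p1 W (π v)) G b) (ht : Dm (d + 1) (fib S b)) :
    (k ≠ d + 1 → Dm d {w | ∃ v, π v = B.pair W b w}) ∧
      (k = d + 1 → Dm d {w | ∃ v ∉ off G, π v = B.pair W b w}) := by
  have hg : HolM (p + k) p fun v => B.p1 W (π v) := hol_p1.comp ho.hol
  have hj : HolM (p + k) D fun v => B.p2 W (π v) := hol_p2.comp ho.hol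
  obtain ⟨F, i, hi, hs⟩ := hr.fib rfl hg hG
  have hji : HolM k D fun x => B.p2 W (π (i x)) := hj.comp hi.hol
  have e1 : ∀ x, π (i x) = B.pair W b (B.p2 W (π (i x))) := fun x =>
    prod_ext (hi.fib x) rfl
  have e2 : ∀ v w, π v = B.pair W b w → ∃ x, i x = v ∧ B.p2 W (π (i x)) = w := fun v w h => by
    have : v ∈ range i := by
      rw [hi.rng]
      exact congrArg (B.p1 W) h
    obtain ⟨x, rfl⟩ := this
    exact ⟨x, rfl, congrArg (B.p2 W) h⟩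
  refine ⟨fun hk => ?_, fun hk => ?_⟩
  · rcases lt_or_gt_of_ne hk with c | c
    · refine dm_mono (hD.rng D d k W F _ hji (by omega)) ?_
      rintro w ⟨v, h⟩
      obtain ⟨x, -, hx⟩ := e2 v w h
      exact ⟨x, hx⟩
    · refine dm_mono dm_empty ?_
      rintro w ⟨v, h⟩
      obtain ⟨x₀, -, -⟩ := e2 v w h
      have : Nonempty F.X := ⟨x₀⟩
      obtain ⟨x, hx⟩ := (snc_dense_off hs).nonempty
      have hz : π (i x) ∉ Z := fun c => by
        have : i x ∈ ⋃ l, G l := hZ ▸ c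
        obtain ⟨l, hl⟩ := mem_iUnion.1 this
        exact hx l hl
      have h1 : Imm k (p + D) (fun x => B.pair W b (B.p2 W (π (i x)))) x :=
        (Imm.comp (ho.hol.at _) (hi.hol.at x) (ho.imm _ hz) (hi.imm x)).cng (.of_forall e1)
      have h2 : Imm k D (fun x => B.p2 W (π (i x))) x :=
        Imm.of_comp (g := fun w => B.pair W b w) (((holM_const b).pair holM_id).at _) (hji.at x) h1
      have h3 := hD.imm D (d + 1) k W F _ x hji h2 (dm_mono ht (by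
        rintro _ ⟨x, rfl⟩
        change B.pair W b _ ∈ S
        rw [← e1]
        exact ho.maps _))
      omega
  · subst hk
    refine dm_mono (hD.thc D d W F _ _ hji (snc_thin_off hs)) ?_
    rintro w ⟨v, hv, h⟩
    obtain ⟨x, rfl, hx⟩ := e2 v w h
    exact ⟨x, hv, hx⟩

end Lb

open Lb in
theorem lab_of (hD : DMA) : LAB := by
  intro n D X W Γ hΓ d T top hT hne
  obtain ⟨B₀, a1, a2, a3, a4⟩ := Ana.reg n X.X T hT
  obtain ⟨p, y₀, hy₀⟩ : ∃ p, (T \ B₀ p).Nonempty := by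
    obtain ⟨y, hy⟩ := hne
    rw [a4] at hy
    obtain ⟨p, hp⟩ := mem_iUnion.1 hy
    obtain ⟨-, hp⟩ := mem_iUnion.1 hp
    exact ⟨p, closure_nonempty_iff.1 ⟨y, hp⟩⟩
  obtain ⟨I, hI⟩ := idl n X _ (a1 p)
  obtain ⟨B, θ, -, -, hθ, -⟩ := res n p X T I hT (hI ▸ a3 p)
  rw [hI] at hθ
  let S : Set (B.prod W).X := (fun z => X.pair W (θ (B.p1 W z)) (B.p2 W z)) ⁻¹' Γ
  have hS : An (p + D) S := hΓ.pre ((hθ.hol.comp hol_p1).pair hol_p2)
  obtain ⟨Z, b1, -, b3, b4⟩ := Ana.reg (p + D) (B.prod W).X S hS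
  have key : ∀ e, ∃ (V : Mf e) (π : V.X → (B.prod W).X) (s : ℕ) (G : Fin s → Set V.X)
      (Q : Set B.X), Over e (p + D) π S (Z e) ∧ Snc e G ∧ π ⁻¹' Z e = ⋃ l, G l ∧ Thin p Q ∧
      ∀ b ∉ Q, RegAt e p (fun v => B.p1 W (π v)) G b := fun e => by
    obtain ⟨J, hJ⟩ := idl _ (B.prod W) _ (b1 e)
    obtain ⟨V, π, s, G, h1, h2, h3, -⟩ := res (p + D) e (B.prod W) S J hS (hJ ▸ b3 e)
    rw [hJ] at h1 h3
    obtain ⟨Q, h4, h5⟩ := gen_of_res res e p V B _ _ G (hol_p1.comp h1.hol) h2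
    exact ⟨V, π, s, G, Q, h1, h2, h3, h4, h5⟩
  choose V π s G Q c1 c2 c3 c4 c5 using key
  let Q₀ : Set B.X := Q (p + (d + 1)) ∪ ⋃ e : Fin (p + D + 1), Q e
  have hQ : Thin p Q₀ := (c4 _).union (.iUnion fun e => c4 _)
  have hd : Thin p (Q₀ ∪ θ ⁻¹' B₀ p) := hQ.union (hθ.thin (a1 p))
  have hn : ∀ b, b ∉ Q₀ ∪ θ ⁻¹' B₀ p → θ b ∉ B₀ p ∪ θ '' Q₀ := by
    rintro b hb (h | ⟨b', h, k⟩)
    · exact hb (.inr h)
    · exact hb (.inl (hθ.inj (fun c => hb (.inr c)) k ▸ h))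
  have hq : ∀ b, θ b ∉ B₀ p ∪ θ '' Q₀ → b ∉ Q₀ := fun b h c => h (.inr ⟨b, c, rfl⟩)
  have ho : ∀ e v, v ∈ off (G e) → π e v ∉ Z e := fun e v hv c => by
    have : v ∈ ⋃ l, G e l := c3 e ▸ c
    obtain ⟨l, hl⟩ := mem_iUnion.1 this
    exact hv l hl
  refine ⟨⟨Γ, T, B₀ p ∪ θ '' Q₀, p, B, θ, V _, fun v => B.p1 W (π _ v), fun v => B.p2 W (π _ v),
    s _, G _⟩, rfl, rfl, ⟨?_, fun h => ?_⟩, top, hT, (a1 p).union (rem p n B X θ _ hθ.hol hQ.an),
    hθ.mono subset_union_left (hd.dense.mono hn), hol_p1.comp (c1 _).hol, hol_p2.comp (c1 _).hol,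
    c2 _, fun b h => c5 _ b fun c => hq b h (.inl c), fun v hv => (c1 _).imm v (ho _ v hv),
    fun v hv N hN => ?_, fun b hb => ?_⟩
  · rintro y (h | ⟨b, -, rfl⟩)
    exacts [a2 p h, hθ.maps b]
  · obtain ⟨b₀, -⟩ := hθ.ex hy₀.1 hy₀.2
    have : Nonempty B.X := ⟨b₀⟩
    obtain ⟨b, hb⟩ := hd.dense.nonempty
    exact hn b hb (h (hθ.maps b))
  · have h1 := (c1 _).ev (ho _ v hv) (P := fun u => u ∈ N) hN
    have h2 := (b1 (p + (d + 1))).closed.isOpen_compl.mem_nhds (ho _ v hv)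
    have h3 : ∀ᶠ z in 𝓝 (π _ v), z ∈ S → ∃ v' ∈ N, π _ v' = z := by
      filter_upwards [h1, h2] with z k1 k2 k3
      obtain ⟨v', k⟩ := (c1 _).ex k3 k2
      exact ⟨v', k1 v' k, k⟩
    refine Eventually.mono h3 fun z k1 k2 => ?_
    obtain ⟨v', k3, k4⟩ := k1 k2
    exact ⟨v', k3, congrArg (B.p1 W) k4, congrArg (B.p2 W) k4⟩
  · let A : Set W.X := (fun v => B.p2 W (π (p + (d + 1)) v)) ''
      ((fun v => B.p1 W (π (p + (d + 1)) v)) ⁻¹' {b} ∩ off (G (p + (d + 1))))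
    have h1 : ∀ e, b ∉ Q e → Dm d ({w | ∃ v, π e v = B.pair W b w} \ A) := fun e he => by
      by_cases c : p ≤ e
      · obtain ⟨k, rfl⟩ := Nat.exists_eq_add_of_le c
        have h := piece hD (c1 (p + k)) (c2 _) (c3 _) (c5 _ b he) (top (θ b))
        by_cases c' : k = d + 1
        · subst c'
          refine dm_mono (h.2 rfl) ?_
          rintro w ⟨⟨v, hv⟩, hw⟩
          exact ⟨v, fun c => hw ⟨v, ⟨congrArg (B.p1 W) hv, c⟩, congrArg (B.p2 W) hv⟩, hv⟩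
        · exact dm_mono (h.1 c') sdiff_subset
      · refine dm_mono dm_empty ?_
        rintro w ⟨⟨v, hv⟩, -⟩
        exact c ((c5 e b he).sbm (hol_p1.comp (c1 e).hol) (c2 e) (congrArg (B.p1 W) hv)).le
    refine dm_mono (dm_iUnion fun e : Fin (p + D + 1) =>
      h1 e fun c => hq b hb (.inr (mem_iUnion.2 ⟨e, c⟩))) ?_
    rintro w ⟨hw, hw'⟩
    have h2 : B.pair W b w ∈ S := hw
    rw [b4] at h2
    obtain ⟨e, he⟩ := mem_iUnion.1 h2
    obtain ⟨h3, he⟩ := mem_iUnion.1 he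
    rw [← (c1 e).rng] at he
    exact mem_iUnion.2 ⟨⟨e, Finset.mem_range.1 h3⟩, he, hw'⟩

end Vale.Agent.P281Z.El
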