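import Vale.Agent.P281Z.El.Sk

/-!
# P281Z, elimination of indeterminacy: the local structure of the flattener
-/

open scoped Manifold ContDiff Topology
open Set Filter
open Vale.Agent.P272.K
open Vale.Agent.P277Z (Hol hol_const)

noncomputable section

namespace Vale.Agent.P281Z.El

namespace Locd

variable {n D r : ℕ} {X : Mf n} {W : Mf D} {ι κ : Type} [Fintype ι] [Fintype κ] {y : X.X}
  {a : ι → X.X → ℂ} {a' : κ → X.X → ℂ} {f : X.X → ℂ}

theorem van (h : In y a f) : ∀ᶠ x in 𝓝 y, (∀ i, a i x = 0) → f x = 0 :=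
  h.elim fun _ k => k.2.mono fun x h1 h2 => by simp [h1, h2]

theorem trans (h : In y a f) (k : ∀ i, In y a' (a i)) : In y a' f := by
  obtain ⟨c, h1, h2⟩ := h
  choose c' k1 k2 using k
  refine ⟨fun j x => ∑ i, c i x * c' i j x, fun j => Hol.sum _ fun i _ => (h1 i).mul (k1 i j), ?_⟩
  filter_upwards [h2, eventually_all.2 k2] with x l1 l2
  simp only [l1, l2, Finset.mul_sum, Finset.sum_mul, mul_assoc]
  exact Finset.sum_comm

theorem self (i : ι) : In y a (a i) := by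
  classical
  exact ⟨fun j _ => if j = i then 1 else 0, fun _ => hol_const _ _, .of_forall fun x => by simp⟩

theorem up {b : Box X W r} {ρ : ℕ} (h : b.J ρ y a) (k : ∀ i, In y a' (a i)) : b.J ρ y a' :=
  fun q t ht => trans (h q t ht) k

theorem zero (hG : GENR) {Γ : Set (X.prod W).X} (hΓ : An (n + D) Γ) {b : Box X W r} (hb : b.Ok Γ)
    (hy : y ∈ b.U) {ρ : ℕ} {q : ι → _} {t : ι → Cm r} (ht : ∀ i, t i ∈ b.Δ)
    (h : b.J ρ y fun i z => b.mn ρ (q i) (b.c z, t i)) :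
    (∀ i, b.mn ρ (q i) (b.c y, t i) = 0) ↔ b.rk y ≤ ρ := by
  rw [(hG n D X W Γ hΓ r b y hb hy).2.2.2.2]
  exact ⟨fun k q' t' h' => (van (h q' t' h')).self_of_nhds k, fun k i => k _ _ (ht i)⟩

end Locd

open Locd

theorem locd_of (hG : GENR) (hC : COVB) (hF : FG) (h1 : CAN1) (h2 : CAN2) (hP : PHI) : LOCD := by
  intro n D d X₀ W L hL S hS x
  obtain ⟨ν, b, hb, cov⟩ := hC n D S.X W S.Γ hS.an (d + 1) x fun c hc =>
    (hL.top (S.π x) c hc).mono (image_mono (inter_subset_inter_left _ (hS.sub x)))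
  choose m q t ht hh hJ using fun k => hF n D S.X W S.Γ hS.an (d + 1) (b k) x (hb k).1 (hb k).2
  let r : S.X.X → ∀ k, Fin ((b k).k + 1) := fun y k =>
    ⟨min ((b k).rk y) (b k).k, Nat.lt_succ_of_le (min_le_right _ _)⟩
  let g : ∀ a : ∀ k, Fin ((b k).k + 1), (Σ k, Fin (m k (a k))) → S.X.X → ℂ := fun a i z =>
    (b i.1).mn (a i.1) (q i.1 _ i.2) ((b i.1).c z, t i.1 _ i.2)
  have hg : ∀ a i, Hol n (g a i) x := fun a i => hh i.1 _ _ _ (ht _ _ _)
  have ev : ∀ᶠ y in 𝓝 x, (∀ k, y ∈ (b k).U) ∧ ∀ k (ρ : Fin ((b k).k + 1)), (b k).J ρ y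
      fun (i : Fin (m k ρ)) z => (b k).mn ρ (q k ρ i) ((b k).c z, t k ρ i) :=
    (eventually_all.2 fun k => (hb k).1.oU.mem_nhds (hb k).2).and
      (eventually_all.2 fun k => eventually_all.2 fun ρ => hJ k ρ)
  have er : ∀ y k, y ∈ (b k).U → (r y k : ℕ) = (b k).rk y := fun y k h =>
    min_eq_left (hG n D S.X W S.Γ hS.an _ (b k) y (hb k).1 h).1
  have c1 : ∀ᶠ y in 𝓝 x, ∀ a, (∀ i, g a i y = 0) ↔ r y ≤ a := ev.mono fun y h a => by
    rw [Sigma.forall]
    exact forall_congr' fun k => (zero hG hS.an (hb k).1 (h.1 k) (ht k _) (h.2 k (a k))).trans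
      (by rw [← er y k (h.1 k)]; rfl)
  refine ⟨_, inferInstance, inferInstance, r, _, inferInstance, g, hg, ?_⟩
  filter_upwards [ev, cov, c1.eventually_nhds,
    eventually_all.2 fun a => eventually_all.2 fun i => (hg a i).near] with y h c c2 hy
  refine ⟨c2.self_of_nhds, fun nm => ?_⟩
  have gen : L.Gen S y (g (r y)) := fun v hv => h2 n D d X₀ W L hL S hS y v _ _ hv (hy _) (by
    by_cases e : L.j v ∈ fib S.Γ y
    · obtain ⟨k, hk⟩ := c _ e
      refine .inr ⟨b k, (hb k).1, h.1 k, hk, ?_⟩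
      rw [← er y k (h.1 k)]
      exact up (h.2 k (r y k)) fun i => self (a := g (r y)) ⟨k, i⟩
    · exact .inl e)
  have can : ∀ (ι : Type) [Fintype ι] (a : ι → S.X.X → ℂ), (∀ i, Hol n (a i) y) → L.Gen S y a →
      ∀ i, In y a (g (r y) i) := fun ι _ a ha k i => by
    have e := h1 n D d X₀ W L hL S hS y (b i.1) ι a (hb _).1 (h.1 _) nm ha k
    rw [← er y _ (h.1 _)] at e
    exact e _ _ (ht _ _ _)
  refine ⟨fun f _ => ⟨fun k => k _ _ (hy _) gen, fun k ι _ a ha l => trans k (can ι a ha l)⟩, ?_⟩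
  obtain ⟨ν', v, b', k1, -, k2, k3⟩ := hP n D d X₀ W L hL S hS y nm
  choose m' q' t' ht' hh' hJ' using fun k =>
    hF n D S.X W S.Γ hS.an (d + 1) (b' k) y (k1 k).2.ok (k1 k).2.mem ((b' k).rk y)
  let g' : (Σ k, Fin (m' k)) → S.X.X → ℂ := fun i z =>
    (b' i.1).mn _ (q' i.1 i.2) ((b' i.1).c z, t' i.1 i.2)
  have hg' : ∀ i, Hol n (g' i) y := fun i => hh' i.1 _ _ (ht' _ _)
  have e1 := can _ g' hg' ((k3 _ g' hg').2 fun k =>
    up (hJ' k).self_of_nhds fun i => self (a := g') ⟨k, i⟩)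
  have e2 : ∀ i, In y (g (r y)) (g' i) := fun i => (k3 _ _ (hy _)).1 gen i.1 _ _ (ht' _ _)
  filter_upwards [c2, k2, eventually_all.2 hJ', eventually_all.2 fun i => van (e1 i),
    eventually_all.2 fun i => van (e2 i),
    eventually_all.2 fun k => (k1 k).2.ok.oU.eventually_mem (k1 k).2.mem,
    eventually_all.2 fun k => (hG n D S.X W S.Γ hS.an _ _ y (k1 k).2.ok (k1 k).2.mem).2.2.2.1]
    with z l1 l2 l3 l4 l5 l6 l7
  have le : ∀ k ∈ Finset.univ, (b' k).a z ≤ (b' k).a y := fun k _ => Nat.sub_le_sub_left (l7 k) _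
  rw [l2, k2.self_of_nhds, Finset.sum_eq_sum_iff_of_le le, ← l1]
  refine ⟨Finset.sum_le_sum le, Iff.trans (b := ∀ i, g' i z = 0) ?_
    ⟨fun k i => l4 i k, fun k i => l5 i k⟩⟩
  rw [Sigma.forall]
  refine forall_congr' fun k => Iff.trans ?_
    (zero hG hS.an (k1 k).2.ok (l6 k) (ht' k) (l3 k)).symm
  have := (hG n D S.X W S.Γ hS.an _ _ z (k1 k).2.ok (l6 k)).1
  have := l7 k
  simp only [Finset.mem_univ, forall_const, Box.a]
  omega

end Vale.Agent.P281Z.El
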