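import Vale.Agent.P281Z.El.Sk

/-!
# P281Z, elimination of indeterminacy: LOW and CAN2
-/

open scoped Manifold ContDiff Topology
open Set Filter
open Vale.Agent.P272.K
open Vale.Agent.P277Z (Hol Nz at_chart hol_const)
open Vale.Agent.P277.H762 (Cv)

noncomputable section

namespace Vale.Agent.P281Z.El

namespace Lw

variable {n D d r : ℕ} {X : Mf n} {W : Mf D} {Γ : Set (X.prod W).X} {y : X.X} {w : W.X}

theorem dm_mono {A B : Set W.X} (h : Dm d A) (k : B ⊆ A) : Dm d B := fun c hc =>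
  (h c hc).mono (image_mono (inter_subset_inter_left _ k))

theorem dm_union {A B : Set W.X} (h : Dm d A) (k : Dm d B) : Dm d (A ∪ B) := fun c hc => by
  rw [union_inter_distrib_right, image_union]
  exact (h c hc).union (k c hc)

/-- a ring of rank zero is trivial -/
theorem bas_zero {f : W.X → Cm r} (h : Bas Γ y w f 0) : w ∉ fib Γ y := fun hw => by
  obtain ⟨e, he⟩ := h
  obtain ⟨c, -, u, -, h1, h2⟩ := he.gen (fun _ => 1) (hol_const _ _)
  have h3 := h2.self_of_nhds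
  rw [h1.self_of_nhds hw] at h3
  simp at h3

theorem fib_closed (h : An (n + D) Γ) : IsClosed (fib Γ y) :=
  h.closed.preimage ((holM_const y).pair (holM_id (n := D))).cont

theorem fl_off (h : An (n + D) Γ) (hw : w ∉ fib Γ y) {ι : Type} [Fintype ι] (a : ι → X.X → ℂ) :
    Fl Γ y w a := fun _ _ _ _ _ _ _ _ =>
  ⟨0, Fin.elim0, Fin.elim0, fun l => l.elim0, fun l => l.elim0, fun l => l.elim0, fun _ =>
    mem_of_superset (h.closed.isOpen_compl.mem_nhds hw) fun _ k k' => (k k').elim⟩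

variable {L : Lab X W d} {v : L.V.X}

theorem fo_freq {P : L.V.X → Prop} (h : L.FO v P) : ∃ᶠ u in 𝓝[L.g ⁻¹' {L.g v}] v, P u :=
  (h.and_eventually self_mem_nhdsWithin).mono fun _ k => k.1.self_of_nhdsWithin k.2

/-- `f ∘ j` is open on the fibre -/
theorem tv_freq {f : W.X → Cm (d + 1)} (h : L.Tv f v) {P : Cm (d + 1) → Prop}
    (hP : ∃ᶠ s in 𝓝 (f (L.j v)), P s) : ∃ᶠ u in 𝓝[L.g ⁻¹' {L.g v}] v, P (f (L.j u)) := by
  obtain ⟨-, β, -, Θ, -, h1, h2⟩ := h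
  have h3 : (β (L.g v), f (L.j v)) ∈ Θ.target := (h2 v h1).2 ▸ Θ.map_source h1
  have h4 : Θ.symm (β (L.g v), f (L.j v)) = v := by rw [← (h2 v h1).2, Θ.left_inv h1]
  have h5 : ContinuousAt (fun s : Cm (d + 1) => (β (L.g v), s)) (f (L.j v)) := by fun_prop
  have h6 : ∀ᶠ s in 𝓝 (f (L.j v)), L.g (Θ.symm (β (L.g v), s)) = L.g v ∧
      f (L.j (Θ.symm (β (L.g v), s))) = s := by
    filter_upwards [h5.eventually (Θ.open_target.mem_nhds h3)] with s hs
    have k := h2 _ (Θ.map_target hs)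
    have k1 := Prod.ext_iff.1 (k.2.symm.trans (Θ.right_inv hs))
    exact ⟨β.injOn k.1 (h2 v h1).1 k1.1, k1.2⟩
  have h7 : Tendsto (fun s => Θ.symm (β (L.g v), s)) (𝓝 (f (L.j v))) (𝓝 v) := by
    have k := (Θ.continuousAt_symm h3).comp_of_eq h5 rfl
    rw [ContinuousAt] at k
    simpa only [Function.comp_def, h4] using k
  exact (tendsto_nhdsWithin_iff.2 ⟨h7, h6.mono fun s k => k.1⟩).frequently
    ((hP.and_eventually h6).mono fun s k => k.2.2.symm ▸ k.1)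

end Lw

open Lw

/-- **LOW** -/
theorem low_of (hD : DMA) (hT : TVX) (hU : TUBE) (hC : CST) (hO : ONE) (hM : MUB) (hP : PHR) :
    LOW := fun n D d X₀ W L hL S hS y hy h0 => by
  by_cases hy' : S.π y ∈ L.T
  swap
  · exact hS.low y hy'
  obtain ⟨b, hb, -⟩ := hL.ovr.one _ hy' hy
  have hb' : L.θ b ∉ L.T' := hb ▸ hy
  obtain ⟨ν, v, hv, -⟩ := hU n D d X₀ W L hL b hb'
  have h1 := Finset.sum_eq_zero_iff.1 ((hP n D d X₀ W L hL S hS y b ν v hb hy hv).symm.trans h0)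
  have h2 : ∀ u ∈ off L.G, L.g u = b → ∃ (f : W.X → Cm (d + 1)) (m : ℕ), ∀ᶠ u' in 𝓝 u,
      L.g u' = b → L.mu S y u' = m ∧ L.FO u' fun v' => Bas S.Γ y (L.j v') f m := fun u hu k => by
    have g : L.Gd S y u := ⟨hu, k ▸ hb, hy⟩
    obtain ⟨f, hf⟩ := hT n D d X₀ W L hL u hu (k ▸ hb')
    obtain ⟨B, hB, -⟩ := hO n D d X₀ W L hL S hS y u f g hf
    refine ⟨B.f, B.a y, ?_⟩
    filter_upwards [(Continuous.prodMk_right y).continuousAt.eventually
      (hM n D d X₀ W L hL S hS y u B g hB)] with u' a c using a (c ▸ hb)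
  have h3 := hC n D d X₀ W L hL b ℕ (L.mu S y) hb' fun u hu k => by
    obtain ⟨f, m, h⟩ := h2 u hu k
    filter_upwards [h] with u' a c using (a c).1.trans (h.self_of_nhds k).1.symm
  have h4 : ∀ u ∈ off L.G, L.g u = b → ∃ᶠ u' in 𝓝[L.g ⁻¹' {b}] u, L.j u' ∉ fib S.Γ y :=
    fun u hu k => by
      obtain ⟨f, m, h⟩ := h2 u hu k
      obtain ⟨l, hl, -⟩ := hv.2 u k
      obtain ⟨a, c⟩ := h.self_of_nhds k
      obtain rfl : m = 0 := a.symm.trans
        ((h3 _ (hv.1 l).2 u hu hl).trans (h1 l (Finset.mem_univ l)))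
      exact k ▸ (fo_freq c).mono fun _ => bas_zero
  obtain ⟨F, i, hi, hs⟩ := (hL.reg b hb').fib rfl hL.hg hL.snc
  have h5 : Thin (d + 1) ((fun x => L.j (i x)) ⁻¹' fib S.Γ y) := by
    refine ⟨hS.an.pre ((holM_const y).pair (hL.hj.comp hi.hol)), dense_closure.1
      ((snc_dense_off hs).mono fun x hx => mem_closure_iff_frequently.2 ?_)⟩
    have k := h4 (i x) hx (hi.fib x)
    rwa [← hi.rng, ← hi.cemb.isInducing.map_nhds_eq, frequently_map] at k
  refine dm_mono (dm_union (hL.low b hb') (hD.thc D d W F _ _ (hL.hj.comp hi.hol) h5))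
    fun w hw => ?_
  by_cases c : w ∈ L.j '' (L.g ⁻¹' {b} ∩ off L.G)
  · obtain ⟨u, ⟨k, -⟩, rfl⟩ := c
    obtain ⟨x, rfl⟩ := hi.ex k
    exact .inr ⟨x, hw, rfl⟩
  · exact .inl ⟨hb ▸ hS.sub y hw, c⟩

/-- **CAN2** -/
theorem can2_of (hG : GENR) (hB : BFL) (hI : IMD) : CAN2 :=
  fun n D d X₀ W L hL S hS y v ι _ a hv ha h => by
  have hc := (fib_closed (y := y) hS.an).preimage hL.hj.cont
  by_cases c : ∃ᶠ u in 𝓝[L.g ⁻¹' {L.g v}] v, L.j u ∉ fib S.Γ y
  · exact c.mono fun u hu => mem_nhdsWithin_of_mem_nhds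
      (mem_of_superset (hc.isOpen_compl.mem_nhds hu) fun _ k => fl_off hS.an k a)
  have c1 : ∀ᶠ u in 𝓝[L.g ⁻¹' {L.g v}] v, L.j u ∈ fib S.Γ y := by
    simpa only [not_frequently, not_not] using c
  obtain ⟨b, hb, hy, hO, hJ⟩ := h.resolve_left fun k => k (c1.self_of_nhdsWithin rfl)
  have an : ∀ w ∈ b.O, AnV D b.f w := fun w k => (hb.pp y hy _ (hb.maps k)).anf w k rfl
  have oO := hb.oO.preimage hL.hj.cont
  obtain ⟨-, g1, g2, -⟩ := hG n D S.X W S.Γ hS.an (d + 1) b y hb hy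
  obtain ⟨U, u1, u2⟩ := (hL.imm v hv.off).inj ((hL.hg.pair hL.hj).at v)
  have h1 := hI n D d X₀ W L hL v b.f (hv.eq ▸ hv.nm) (an _ hO) ⟨_, inter_mem (inter_mem u1
    (oO.mem_nhds hO)) (eventually_nhdsWithin_iff.1 c1), fun t => by
      by_cases ht : t ∈ b.Δ
      · refine ((hb.pp y hy t ht).fin.of_injOn (f := L.j) ?_ ?_).countable
        · exact fun u k => ⟨k.1.1.2, k.2.2, k.1.2 k.2.1⟩
        · exact fun u k u' k' e => u2 k.1.1.1 k'.1.1.1 (pair_inj.2 ⟨k.2.1.trans k'.2.1.symm, e⟩)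
      · exact countable_empty.mono fun u k => ht (k.2.2 ▸ hb.maps k.1.1.2)⟩
  intro k
  refine h1 ?_
  filter_upwards [eventually_eventually_nhdsWithin.2 k, self_mem_nhdsWithin,
    mem_nhdsWithin_of_mem_nhds (oO.mem_nhds hO)] with u k1 k2 k3 k4
  have k5 := tv_freq k4 (mem_closure_iff_frequently.1 (g2 (hb.maps k3)))
  rw [show L.g u = L.g v from k2] at k5
  refine k5 ?_
  filter_upwards [k1, mem_nhdsWithin_of_mem_nhds (oO.mem_nhds k3)] with u' k6 k7 k8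
  refine k6 (mem_nhdsWithin_of_mem_nhds ?_)
  filter_upwards [oO.mem_nhds k7, ((an _ k7).cont.comp hL.hj.cont.continuousAt).eventually
    (g1.mem_nhds k8)] with x x1 x2
  exact (hB n D S.X W S.Γ hS.an (d + 1) b y hb hy _ x2 ι a ha).1 hJ _ x1 rfl

end Vale.Agent.P281Z.El
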