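import Vale.Agent.P281Z.El.Sk

/-!
# P281Z, elimination of indeterminacy: the multiplicity is the general length of a box
-/

open scoped Manifold ContDiff Topology
open Set Filter
open Vale.Agent.P272.K
open Vale.Agent.P277Z (Hol Nz at_chart)

noncomputable section

namespace Vale.Agent.P281Z.El

namespace Mub

variable {n D d : ℕ} {X₀ : Mf n} {W : Mf D} {L : Lab X₀ W d}

/-- coordinates `(g, f ∘ j)` -/
structure Cd (L : Lab X₀ W d) (f : W.X → Cm (d + 1)) (β : Chart L.p L.B.X)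
    (Θ : OpenPartialHomeomorph L.V.X (Cm L.p × Cm (d + 1))) : Prop where
  co : Co (L.p + (d + 1)) Θ
  eq : ∀ v' ∈ Θ.source, L.g v' ∈ β.source ∧ Θ v' = (β (L.g v'), f (L.j v'))

variable {f f' : W.X → Cm (d + 1)} {β β' : Chart L.p L.B.X}
  {Θ Θ' : OpenPartialHomeomorph L.V.X (Cm L.p × Cm (d + 1))} {u : L.V.X}

theorem near {w : W.X} (h : AnV D f w) : ∀ᶠ x in 𝓝 w, AnV D f x :=
  (eventually_all.2 fun a => (h.hol a).near).mono fun _ k => AnV.pi k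

theorem Cd.tgt (h : Cd L f β Θ) (hu : u ∈ Θ.source) : (β (L.g u), f (L.j u)) ∈ Θ.target :=
  (h.eq u hu).2 ▸ Θ.map_source hu

theorem Cd.inv (h : Cd L f β Θ) (hu : u ∈ Θ.source) {u' : L.V.X} (k : L.g u' = L.g u) :
    Θ.symm (β (L.g u'), f (L.j u)) = u := by
  rw [k, ← (h.eq u hu).2, Θ.left_inv hu]

theorem Cd.tend (h : Cd L f β Θ) (hu : u ∈ Θ.source) :
    Tendsto (fun s => Θ.symm (β (L.g u), s)) (𝓝 (f (L.j u))) (𝓝 u) := by
  have k : ContinuousAt (fun s => Θ.symm (β (L.g u), s)) (f (L.j u)) :=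
    ContinuousAt.comp (f := fun s => (β (L.g u), s)) (Θ.continuousAt_symm (h.tgt hu))
      (Continuous.prodMk_right _).continuousAt
  simpa only [ContinuousAt, h.inv hu rfl] using k

theorem Cd.ev (h : Cd L f β Θ) (hu : u ∈ Θ.source) : ∀ᶠ s in 𝓝 (f (L.j u)),
    L.g (Θ.symm (β (L.g u), s)) = L.g u ∧ f (L.j (Θ.symm (β (L.g u), s))) = s := by
  filter_upwards [(Continuous.prodMk_right (β (L.g u))).continuousAt.eventually
    (Θ.open_target.mem_nhds (h.tgt hu))] with s hs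
  have k := h.eq _ (Θ.map_target hs)
  have k' := k.2.symm.trans (Θ.right_inv hs)
  exact ⟨β.injOn k.1 (h.eq u hu).1 (congrArg Prod.fst k'), congrArg Prod.snd k'⟩

theorem Cd.freq (h : Cd L f β Θ) (hu : u ∈ Θ.source) {A : Set (Cm (d + 1))}
    (hA : f (L.j u) ∈ closure A) : ∃ᶠ u' in 𝓝[L.g ⁻¹' {L.g u}] u, f (L.j u') ∈ A := by
  have k : Tendsto (fun s => Θ.symm (β (L.g u), s)) (𝓝 (f (L.j u))) (𝓝[L.g ⁻¹' {L.g u}] u) :=
    tendsto_nhdsWithin_iff.2 ⟨h.tend hu, (h.ev hu).mono fun _ k => k.1⟩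
  refine k.frequently (((mem_closure_iff_frequently.1 hA).and_eventually (h.ev hu)).mono ?_)
  exact fun s hs => hs.2.2.symm ▸ hs.1

theorem Cd.sh (hL : L.Ok) {S : Sg X₀ W} (hS : L.Ad S) (h : Cd L f β Θ) (hu : u ∈ Θ.source)
    (ho : u ∈ off L.G) {y : S.X.X} (hy : L.θ (L.g u) = S.π y) (hf : AnV D f (L.j u)) :
    Sh S.Γ y (L.j u) f fun s => L.j (Θ.symm (β (L.g u), s)) where
  an := hf
  hol := HolA.cmp (g := L.j) (f := fun s => Θ.symm (β (L.g u), s)) (hL.hj.at _)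
    (h.co.holA (F := fun s => (β (L.g u), s))
      ((anV_const _ _).prod (anV_chart (at_chart (n := d + 1) (f (L.j u))))) (h.tgt hu))
  ctr := congrArg L.j (h.inv hu rfl)
  sec := (h.ev hu).mono fun _ k => k.2
  sub := by
    filter_upwards [(Continuous.prodMk_right (L.g u)).continuousAt.eventually
      (hL.sheet u ho _ (Θ.open_source.mem_nhds hu))] with x hx k
    obtain ⟨v', k1, k2, k3⟩ := hx (hy.symm ▸ hS.sub y k)
    obtain rfl : L.j v' = x := k3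
    exact congrArg L.j (h.inv k1 k2.symm)

theorem Cd.cmpt (h : Cd L f β Θ) (h' : Cd L f' β' Θ') (hu : u ∈ Θ.source) (hu' : u ∈ Θ'.source) :
    ∀ᶠ s in 𝓝 (f (L.j u)), L.j (Θ'.symm (β' (L.g u), f' (L.j (Θ.symm (β (L.g u), s))))) =
      L.j (Θ.symm (β (L.g u), s)) := by
  filter_upwards [h.ev hu, (h.tend hu).eventually (Θ'.open_source.mem_nhds hu')] with s k1 k2
  exact congrArg L.j (h'.inv k2 k1.1.symm)

end Mub

open Mub in
theorem mub_of (hG : GENR) (hB : BAS) (hR : RKI) : MUB := by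
  intro n D d X₀ W L hL S hS y v b hv hO
  obtain ⟨-, β, hβ, Θ, h1, h2, h3⟩ := hO.tv
  have hc : Cd L b.f β Θ := ⟨h1, h3⟩
  have e1 : ∀ᶠ q : S.X.X × L.V.X in 𝓝 (y, v), q.1 ∈ b.U :=
    continuousAt_fst.eventually (hO.ok.oU.mem_nhds hO.mem)
  have e2 : ∀ᶠ q : S.X.X × L.V.X in 𝓝 (y, v), q.2 ∈ Θ.source ∩ off L.G :=
    continuousAt_snd.eventually ((Θ.open_source.inter (snc_open_off hL.snc)).mem_nhds ⟨h2, hv.off⟩)
  filter_upwards [e1, (e2.and hO.near).eventually_nhds] with q hU hq hθ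
  obtain ⟨y', v'⟩ := q
  have hq' : ∀ᶠ u in 𝓝 v', u ∈ Θ.source ∩ off L.G ∧ (L.θ (L.g u) = S.π y' → L.j u ∈ b.O ∧
      ∀ w ∈ b.O, b.f w = b.f (L.j u) → w ∈ fib S.Γ y' → w = L.j u) :=
    (Continuous.prodMk_right y').continuousAt.eventually hq
  dsimp only at hU hθ ⊢
  obtain ⟨-, g1, g2, -⟩ := hG n D S.X W S.Γ hS.an (d + 1) b y' hO.ok hU
  have an : ∀ w ∈ b.O, AnV D b.f w := fun w hw =>
    (hO.ok.pp y' hU _ (hO.ok.maps hw)).anf w hw rfl
  set F := L.g ⁻¹' {L.g v'} with hF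
  have e3 : ∀ᶠ u in 𝓝[F] v', L.g u = L.g v' ∧ u ∈ Θ.source ∩ off L.G ∧ L.j u ∈ b.O ∧
      (b.f (L.j u) ∈ b.Gn y' → Bas S.Γ y' (L.j u) b.f (b.a y')) := by
    filter_upwards [self_mem_nhdsWithin, mem_nhdsWithin_of_mem_nhds hq'] with u k1 k2
    have k3 := k2.2 ((congrArg L.θ k1).trans hθ)
    exact ⟨k1, k2.1, k3.1, fun k =>
      hB n D S.X W S.Γ hS.an (d + 1) b y' hO.ok hU _ k3.1 k k3.2⟩
  have fr : ∀ u, L.g u = L.g v' → u ∈ Θ.source → L.j u ∈ b.O →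
      ∃ᶠ u' in 𝓝[F] u, b.f (L.j u') ∈ b.Gn y' := fun u k1 k2 k3 => by
    rw [hF, ← k1]
    exact hc.freq k2 (g2 (hO.ok.maps k3))
  have v0 := hq'.self_of_nhds
  have fo : L.FO v' fun u => Bas S.Γ y' (L.j u) b.f (b.a y') := by
    refine ((fr v' rfl v0.1.1 (v0.2 hθ).1).and_eventually
      (e3.and (eventually_eventually_nhdsWithin.2 e3))).mono fun u k => ?_
    have k1 : ContinuousAt (fun u => b.f (L.j u)) u :=
      (an _ k.2.1.2.2.1).cont.comp hL.hj.cont.continuousAt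
    filter_upwards [k.2.2, mem_nhdsWithin_of_mem_nhds (k1.eventually (g1.mem_nhds k.1))] with u' k2 k3
    exact k2.2.2.2 k3
  refine ⟨?_, fo⟩
  have hs : {m | ∃ f, L.Tv f v' ∧ L.FO v' fun u => Bas S.Γ y' (L.j u) f m} = {b.a y'} := by
    refine eq_singleton_iff_unique_mem.2 ⟨⟨b.f, ⟨an _ (v0.2 hθ).1, β, hβ, Θ, h1, v0.1.1, h3⟩, fo⟩, ?_⟩
    rintro m ⟨f', ⟨a1, β', -, Θ', a2, a3, a4⟩, a5⟩
    have hc' : Cd L f' β' Θ' := ⟨a2, a4⟩
    have e4 : ∀ᶠ u in 𝓝[F] v', u ∈ Θ'.source ∧ AnV D f' (L.j u) :=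
      mem_nhdsWithin_of_mem_nhds (Eventually.and (Θ'.open_source.mem_nhds a3)
        (hL.hj.cont.continuousAt.eventually (near a1)))
    obtain ⟨u, k1, k2, k3⟩ := (Frequently.and_eventually a5
      (e3.and (eventually_eventually_nhdsWithin.2 (e3.and e4)))).exists
    obtain ⟨u', k4, k5, k6, k7⟩ := ((fr u k2.1 k2.2.1.1 k2.2.2.1).and_eventually (k1.and k3)).exists
    have k8 := (congrArg L.θ k6.1).trans hθ
    exact hR n D S.X W S.Γ hS.an (d + 1) m _ y' (L.j u') f' b.f _ _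
      (hc'.sh hL hS k7.1 k6.2.1.2 k8 k7.2) (hc.sh hL hS k6.2.1.1 k6.2.1.2 k8 (an _ k6.2.2.1))
      (hc'.cmpt hc k7.1 k6.2.1.1) (hc.cmpt hc' k6.2.1.1 k7.1) k5 (k6.2.2.2 k4)
  rw [Lab.mu, hs, csInf_singleton]

end Vale.Agent.P281Z.El
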