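import Vale.Agent.P281Z.El.Sk
import Vale.Agent.P281Z.An.Rk

/-!
# P281Z, elimination of indeterminacy: the normal form of a presentation (Schur complement)
-/

open scoped Manifold ContDiff Topology
open Set Filter Matrix
open Vale.Agent.P272.K
open Vale.Agent.P277Z (Hol)
open Vale.Agent.P277.H762 (analyticAt_det)

noncomputable section

namespace Vale.Agent.P281Z.El

namespace NfH

section lin

variable {l k ρ : ℕ} (A : Matrix (Fin l) (Fin k) ℂ) (σ : Fin ρ → Fin l) (τ : Fin ρ → Fin k)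

/-- the coefficients of the row operations -/
def Pm : Matrix (Fin l) (Fin ρ) ℂ := A.submatrix id τ * (A.submatrix σ τ)⁻¹

/-- the Schur complement -/
def Hm : Matrix (Fin l) (Fin k) ℂ := A - Pm A σ τ * A.submatrix σ id

/-- one more index -/
def idx {α : Type} (σ : Fin ρ → α) (i : α) (a : Fin (ρ + 1)) : α :=
  Sum.elim σ (fun _ : Fin 1 => i) (finSumFinEquiv.symm a)

theorem hm_apply (i : Fin l) (c : Fin k) :
    Hm A σ τ i c = A i c - ∑ a, Pm A σ τ i a * A (σ a) c := rfl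

variable {A σ τ} (h : (A.submatrix σ τ).det ≠ 0)
include h

theorem pm_mul : Pm A σ τ * A.submatrix σ τ = A.submatrix id τ := by
  rw [Pm, Matrix.mul_assoc, nonsing_inv_mul _ (Ne.isUnit h), Matrix.mul_one]

theorem hm_tau (i : Fin l) (a : Fin ρ) : Hm A σ τ i (τ a) = 0 :=
  sub_eq_zero.2 (congrFun (congrFun (pm_mul h) i) a).symm

theorem hm_det (i : Fin l) (c : Fin k) :
    (A.submatrix (idx σ i) (idx τ c)).det = (A.submatrix σ τ).det * Hm A σ τ i c := by
  have := invertibleOfIsUnitDet _ (Ne.isUnit h)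
  have e : A.submatrix (idx σ i) (idx τ c) = (fromBlocks (A.submatrix σ τ)
      (A.submatrix σ fun _ : Fin 1 => c) (A.submatrix (fun _ : Fin 1 => i) τ)
      (A.submatrix (fun _ : Fin 1 => i) fun _ : Fin 1 => c)).submatrix finSumFinEquiv.symm
      finSumFinEquiv.symm := by
    ext a b
    simp only [submatrix_apply, idx]
    rcases finSumFinEquiv.symm a with a | a <;> rcases finSumFinEquiv.symm b with b | b <;> rfl
  rw [e, det_submatrix_equiv_self, det_fromBlocks₁₁, invOf_eq_nonsing_inv, det_fin_one]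
  rfl

omit h in
/-- a relation without `τ` part is a combination of the rows of the Schur complement -/
theorem vec_hm {w : Fin l → ℂ} (hw : ∀ a, ∑ i, w i * A i (τ a) = 0) (c : Fin k) :
    ∑ i, w i * Hm A σ τ i c = ∑ i, w i * A i c := by
  have h1 : w ᵥ* A.submatrix id τ = 0 := funext hw
  have h2 : w ᵥ* Hm A σ τ = w ᵥ* A := by
    rw [Hm, vecMul_sub, Pm, Matrix.mul_assoc, ← vecMul_vecMul, h1, zero_vecMul, sub_zero]
  exact congrFun h2 c

theorem vec_tau (w : Fin ρ → ℂ) (a : Fin ρ) :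
    ∑ b, (∑ c, w c * (A.submatrix σ τ)⁻¹ c b) * A (σ b) (τ a) = w a := by
  have h2 : (w ᵥ* (A.submatrix σ τ)⁻¹) ᵥ* A.submatrix σ τ = w := by
    rw [vecMul_vecMul, nonsing_inv_mul _ (Ne.isUnit h), vecMul_one]
  exact congrFun h2 a

omit h in
theorem det_low (P : Matrix (Fin (ρ + 1)) (Fin ρ) ℂ) (B : Matrix (Fin ρ) (Fin (ρ + 1)) ℂ) :
    (P * B).det = 0 := by
  by_contra k
  have h1 := (Ana.rank_iff (M := P * B)).2 ⟨id, id, k⟩
  have h2 := (rank_mul_le_left P B).trans (rank_le_width P)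
  omega

end lin

section an

variable {E : Type} [NormedAddCommGroup E] [NormedSpace ℂ E] {x : E} {l k ρ : ℕ}

theorem an_inv {M : E → Matrix (Fin ρ) (Fin ρ) ℂ} (h : ∀ i j, AnalyticAt ℂ (fun z => M z i j) x)
    (h0 : (M x).det ≠ 0) (i j : Fin ρ) : AnalyticAt ℂ (fun z => (M z)⁻¹ i j) x := by
  have h1 : (fun y => (M y)⁻¹ i j) = fun y => ((M y).det)⁻¹ * (M y).adjugate i j := by
    funext y
    rw [inv_def, Ring.inverse_eq_inv', Matrix.smul_apply, smul_eq_mul]
  rw [h1]
  refine ((analyticAt_det h).fun_inv h0).fun_mul ?_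
  simp only [adjugate_apply]
  refine analyticAt_det fun a b => ?_
  simp only [updateRow_apply]
  split_ifs
  exacts [analyticAt_const, h a b]

theorem in_prod {ι α : Type} [Fintype ι] {g : ι → E → ℂ} {u v : α → E → ℂ} (s : Finset α)
    (hu : ∀ a, AnalyticAt ℂ (u a) x) (hv : ∀ a, AnalyticAt ℂ (v a) x)
    (h : ∀ a, P277Z.Oka.In x g fun z => u a z - v a z) :
    P277Z.Oka.In x g fun z => ∏ a ∈ s, u a z - ∏ a ∈ s, v a z := by
  classical
  induction s using Finset.induction_on with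
  | empty => simpa using P277Z.Oka.In.zero x g
  | insert a s ha ih =>
    refine ((ih.mul (hu a)).add ((h a).mul (Finset.analyticAt_fun_prod s fun i _ => hv i))).congr
      (.of_forall fun z => ?_)
    simp only [Finset.prod_insert ha]
    ring

theorem in_det {ι : Type} [Fintype ι] {g : ι → E → ℂ} {U V : E → Matrix (Fin k) (Fin k) ℂ}
    (hu : ∀ a b, AnalyticAt ℂ (fun z => U z a b) x) (hv : ∀ a b, AnalyticAt ℂ (fun z => V z a b) x)
    (h : ∀ a b, P277Z.Oka.In x g fun z => U z a b - V z a b) :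
    P277Z.Oka.In x g fun z => (U z).det - (V z).det := by
  refine (P277Z.Oka.In.sum Finset.univ fun (s : Equiv.Perm (Fin k)) _ =>
    (in_prod Finset.univ (fun a => hu (s a) a) (fun a => hv (s a) a) fun a => h (s a) a).mul
      (analyticAt_const (v := ((Equiv.Perm.sign s : ℤ) : ℂ)))).congr (.of_forall fun z => ?_)
  simp only [det_apply', ← Finset.sum_sub_distrib, mul_sub]

variable {G : Fin l → Fin k → E → ℂ}

theorem inV_rows (σ : Fin ρ → Fin l) {w : Fin ρ → E → ℂ} (hw : ∀ a, AnalyticAt ℂ (w a) x) :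
    InV x G fun c z => ∑ a, w a z * G (σ a) c z := by
  refine ⟨fun i z => ∑ a, if σ a = i then w a z else 0, fun i =>
    Finset.analyticAt_fun_sum _ fun a _ => ?_, .of_forall fun z c => ?_⟩
  · split_ifs
    exacts [hw a, analyticAt_const]
  · simp only [Finset.sum_mul, ite_mul, zero_mul]
    rw [Finset.sum_comm]
    simp

theorem inV_sub {u v w : Fin k → E → ℂ} (hu : InV x G u) (hv : InV x G v)
    (e : ∀ᶠ z in 𝓝 x, ∀ c, w c z = u c z - v c z) : InV x G w := by
  obtain ⟨a, ha, e1⟩ := hu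
  obtain ⟨b, hb, e2⟩ := hv
  refine ⟨fun i z => a i z - b i z, fun i => (ha i).fun_sub (hb i), ?_⟩
  filter_upwards [e, e1, e2] with z h h1 h2 c
  simp only [h c, h1 c, h2 c, sub_mul, Finset.sum_sub_distrib]

variable (G) in
/-- the matrix at a point -/
def mt (z : E) : Matrix (Fin l) (Fin k) ℂ := Matrix.of fun i j => G i j z

variable {σ : Fin ρ → Fin l} {τ : Fin ρ → Fin k} (hG : ∀ i j, AnalyticAt ℂ (G i j) x)
  (h0 : ((mt G x).submatrix σ τ).det ≠ 0)
include hG h0

theorem ev_ne : ∀ᶠ z in 𝓝 x, ((mt G z).submatrix σ τ).det ≠ 0 :=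
  (analyticAt_det (M := fun z => (mt G z).submatrix σ τ) fun _ _ => hG _ _).continuousAt.eventually_ne
    h0

theorem an_mi (a b : Fin ρ) : AnalyticAt ℂ (fun z => ((mt G z).submatrix σ τ)⁻¹ a b) x :=
  an_inv (M := fun z => (mt G z).submatrix σ τ) (fun _ _ => hG _ _) h0 a b

theorem an_pm (i : Fin l) (a : Fin ρ) : AnalyticAt ℂ (fun z => Pm (mt G z) σ τ i a) x :=
  Finset.analyticAt_fun_sum Finset.univ fun b _ => (hG i (τ b)).fun_mul (an_mi hG h0 b a)

theorem an_hm (i : Fin l) (c : Fin k) : AnalyticAt ℂ (fun z => Hm (mt G z) σ τ i c) x :=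
  (hG i c).fun_sub (Finset.analyticAt_fun_sum Finset.univ fun a _ =>
    (an_pm hG h0 i a).fun_mul (hG (σ a) c))

theorem in_minor (i : Fin l) (c : Fin k) :
    P277Z.Oka.In x (fun (q : (Fin (ρ + 1) → Fin l) × (Fin (ρ + 1) → Fin k)) z =>
      ((mt G z).submatrix q.1 q.2).det) fun z => Hm (mt G z) σ τ i c :=
  .of_unit (f' := fun z => ((mt G z).submatrix σ τ).det)
    ((P277Z.Oka.In.self x _ (idx σ i, idx τ c)).congr ((ev_ne hG h0).mono fun _ h => hm_det h i c))
    (analyticAt_det fun _ _ => hG _ _) h0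

variable {m : ℕ} (ε : Fin ρ ⊕ Fin m ≃ Fin k) (hε : ∀ a, ε (.inl a) = τ a)
include hε

theorem minor_in (p : Fin (ρ + 1) → Fin l) (q : Fin (ρ + 1) → Fin k) :
    P277Z.Oka.In x (fun (s : Fin l × Fin m) z => Hm (mt G z) σ τ s.1 (ε (.inr s.2))) fun z =>
      ((mt G z).submatrix p q).det := by
  refine (in_det (U := fun z => (mt G z).submatrix p q) (V := fun z =>
    (Pm (mt G z) σ τ).submatrix p id * (mt G z).submatrix σ q) (fun _ _ => hG _ _)
    (fun a b => Finset.analyticAt_fun_sum Finset.univ fun c _ =>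
      (an_pm hG h0 (p a) c).fun_mul (hG (σ c) (q b)))
    fun a b => ?_).congr (.of_forall fun z => by rw [det_low, sub_zero])
  obtain ⟨c | c, hc⟩ := ε.surjective (q b)
  · refine (P277Z.Oka.In.zero x _).congr ((ev_ne hG h0).mono fun z h => ?_)
    have := hm_tau h (p a) c
    rw [← hε, hc] at this
    exact this.symm
  · refine (P277Z.Oka.In.self x _ (p a, c)).congr (.of_forall fun z => ?_)
    rw [hc]
    rfl

theorem inV_iff {v : Fin m → E → ℂ} : InV x (fun i j z => Hm (mt G z) σ τ i (ε (.inr j))) v ↔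
    InV x G fun c => Sum.elim (fun _ _ => 0) v (ε.symm c) := by
  refine ⟨fun ⟨w, hw, e⟩ => ?_, fun ⟨w, hw, e⟩ => ⟨w, hw, ?_⟩⟩
  · refine inV_sub (inV_rows id hw) (inV_rows σ (w := fun a z => ∑ i, w i z * Pm (mt G z) σ τ i a)
      fun a => Finset.analyticAt_fun_sum _ fun i _ => (hw i).fun_mul (an_pm hG h0 i a)) ?_
    filter_upwards [e, ev_ne hG h0] with z h1 h2 c
    have h3 : Sum.elim (fun _ _ => (0 : ℂ)) v (ε.symm c) z = ∑ i, w i z * Hm (mt G z) σ τ i c := by
      obtain ⟨c | c, rfl⟩ := ε.surjective c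
      · rw [ε.symm_apply_apply]
        simp only [Sum.elim_inl, hε, hm_tau h2, mul_zero, Finset.sum_const_zero]
      · simpa only [ε.symm_apply_apply, Sum.elim_inr] using h1 c
    simp only [h3, hm_apply, mul_sub, Finset.sum_sub_distrib, Finset.mul_sum, Finset.sum_mul,
      mul_assoc]
    rw [Finset.sum_comm]
    rfl
  · filter_upwards [e, ev_ne hG h0] with z h1 h2 j
    rw [vec_hm fun a => ?_]
    · have := h1 (ε (.inr j))
      rw [ε.symm_apply_apply] at this
      exact this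
    · have := h1 (ε (.inl a))
      rw [ε.symm_apply_apply, hε] at this
      exact this.symm

theorem exists_red {v : Fin k → E → ℂ} (hv : ∀ c, AnalyticAt ℂ (v c) x) :
    ∃ u : Fin m → E → ℂ, (∀ j, AnalyticAt ℂ (u j) x) ∧
      InV x G fun c z => v c z - Sum.elim (fun _ _ => 0) u (ε.symm c) z := by
  have hw : ∀ b, AnalyticAt ℂ (fun z => ∑ c, v (τ c) z * ((mt G z).submatrix σ τ)⁻¹ c b) x :=
    fun b => Finset.analyticAt_fun_sum _ fun c _ => (hv _).fun_mul (an_mi hG h0 c b)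
  refine ⟨fun j z => v (ε (.inr j)) z - ∑ b, (∑ c, v (τ c) z * ((mt G z).submatrix σ τ)⁻¹ c b) *
    G (σ b) (ε (.inr j)) z, fun j => (hv _).fun_sub (Finset.analyticAt_fun_sum _ fun b _ =>
      (hw b).fun_mul (hG _ _)), inV_sub (inV_rows σ hw) (inV_rows (ρ := 0) Fin.elim0
        (w := Fin.elim0) fun a => a.elim0) ?_⟩
  filter_upwards [ev_ne hG h0] with z h c
  obtain ⟨c | c, rfl⟩ := ε.surjective c
  · rw [ε.symm_apply_apply]
    simp only [Sum.elim_inl, hε, Finset.univ_eq_empty, Finset.sum_empty, sub_zero]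
    exact (vec_tau h (fun c => v (τ c) z) c).symm
  · simp only [ε.symm_apply_apply, Sum.elim_inr, Finset.univ_eq_empty, Finset.sum_empty, sub_zero,
      sub_sub_cancel]

end an

theorem exists_equiv {k ρ : ℕ} {τ : Fin ρ → Fin k} (h : Function.Injective τ) :
    ∃ ε : Fin ρ ⊕ Fin (k - ρ) ≃ Fin k, ∀ a, ε (.inl a) = τ a := by
  classical
  have e : Fintype.card {c // c ∉ range τ} = k - ρ := by
    rw [Fintype.card_subtype_compl, Fintype.card_fin, Set.card_range_of_injective h,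
      Fintype.card_fin]
  exact ⟨((Equiv.ofInjective τ h).sumCongr (Fintype.equivFinOfCardEq e).symm).trans
    (Equiv.sumCompl _), fun _ => rfl⟩

theorem cmb_ext {n D r k ρ m : ℕ} {X : Mf n} {W : Mf D} (c : Chart n X.X) (f : W.X → Cm r)
    (e : Fin k → W.X → ℂ) (ε : Fin ρ ⊕ Fin m ≃ Fin k) (v : Fin m → Cm n × Cm r → ℂ) :
    cmb c f (fun i => e (ε (.inr i))) v =
      cmb c f e fun a => Sum.elim (fun _ _ => 0) v (ε.symm a) := by
  funext z
  simp only [cmb]
  rw [← ε.sum_comp, Fintype.sum_sum_type]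
  simp

theorem pp_red {n D r k l ρ m : ℕ} {X : Mf n} {W : Mf D} {Γ : Set (X.prod W).X} {c : Chart n X.X}
    {O : Set W.X} {f : W.X → Cm r} {y : X.X} {t : Cm r} {e : Fin k → W.X → ℂ}
    {G : Fin l → Fin k → Cm n × Cm r → ℂ} (pp : PP Γ c O f y t e G) {σ : Fin ρ → Fin l}
    {τ : Fin ρ → Fin k} (h0 : ((mt G (c y, t)).submatrix σ τ).det ≠ 0) (ε : Fin ρ ⊕ Fin m ≃ Fin k)
    (hε : ∀ a, ε (.inl a) = τ a) :
    PP Γ c O f y t (fun i => e (ε (.inr i))) fun i j z => Hm (mt G z) σ τ i (ε (.inr j)) := by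
  have ext : ∀ v : Fin m → Cm n × Cm r → ℂ, (∀ j, AnalyticAt ℂ (v j) (c y, t)) →
      ∀ a, AnalyticAt ℂ (Sum.elim (fun _ _ => (0 : ℂ)) v (ε.symm a)) (c y, t) := fun v hv a => by
    rcases ε.symm a with a | a
    exacts [analyticAt_const, hv a]
  refine ⟨pp.atc, pp.anf, fun i => pp.hol _, fun i j => an_hm pp.anG h0 i _, pp.fin,
    fun v hv => ?_, fun u hu => ?_⟩
  · rw [cmb_ext]
    exact (inV_iff pp.anG h0 ε hε).trans (pp.rel _ (ext v hv))
  · obtain ⟨v, hv, h1⟩ := pp.sur u hu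
    obtain ⟨v', hv', h2⟩ := exists_red pp.anG h0 ε hε hv
    refine ⟨v', hv', fun w hw e => ?_⟩
    filter_upwards [h1 w hw e, (pp.rel _ fun a => (hv a).fun_sub (ext v' hv' a)).1 h2 w hw e]
      with z k1 k2 hz
    have k3 := k1 hz
    have k4 := k2 hz
    rw [cmb_ext]
    simp only [cmb, sub_mul, Finset.sum_sub_distrib] at k3 k4 ⊢
    linear_combination k3 + k4

end NfH

open NfH in
theorem nf : NF := by
  intro n D X W Γ _ r b y hb hy t ht
  have pp := hb.pp y hy t ht.1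
  obtain ⟨σ, τ, h0⟩ := Ana.rank_iff.1 ht.2.ge
  have hτ : Function.Injective τ := fun i j e => by_contra fun k =>
    h0 (det_zero_of_column_eq k fun a => by simp only [submatrix_apply, e])
  obtain ⟨ε, hε⟩ := exists_equiv hτ
  exact ⟨fun j => ε (.inr j), _, pp_red pp h0 ε hε, fun i j => in_minor pp.anG h0 i _,
    fun q => minor_in pp.anG h0 ε hε q.1 q.2⟩

theorem nf_of (_ : GENR) : NF := nf

end Vale.Agent.P281Z.El
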