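import Vale.Agent.P281Z.El.Sk
import Vale.Agent.P281Z.Mf.An

/-!
# P281Z, elimination of indeterminacy: boxes with one sheet
-/

open scoped Manifold ContDiff Topology
open Set Filter
open Vale.Agent.P272.K
open Vale.Agent.P277Z (Hol Nz)

noncomputable section

namespace Vale.Agent.P281Z.El

namespace OneH

/-- flatness is trivial off the set -/
theorem fl_off {n D : ℕ} {X : Mf n} {W : Mf D} {Γ : Set (X.prod W).X} (hΓ : IsClosed Γ)
    {y : X.X} {w : W.X} (hw : w ∉ fib Γ y) {ι : Type} [Fintype ι] (a : ι → X.X → ℂ) :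
    Fl Γ y w a := fun _ _ _ _ _ _ _ _ =>
  ⟨0, Fin.elim0, Fin.elim0, fun l => l.elim0, fun l => l.elim0, fun l => l.elim0, fun _ =>
    Filter.Eventually.mono (hΓ.isOpen_compl.mem_nhds hw) fun _ hz hz' => absurd hz' hz⟩

variable {n D d : ℕ} {X₀ : Mf n} {W : Mf D} {L : Lab X₀ W d} {f : W.X → Cm (d + 1)}
  {β : Chart L.p L.B.X} {Θ : OpenPartialHomeomorph L.V.X (Cm L.p × Cm (d + 1))}

/-- on a fibre of `g` the map `f ∘ j` is open -/
theorem freq (h : ∀ v' ∈ Θ.source, L.g v' ∈ β.source ∧ Θ v' = (β (L.g v'), f (L.j v')))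
    {u : L.V.X} (hu : u ∈ Θ.source) {b : L.B.X} (hb : L.g u = b) {A : Set (Cm (d + 1))}
    (hA : f (L.j u) ∈ closure A) : ∃ᶠ u' in 𝓝[L.g ⁻¹' {b}] u, f (L.j u') ∈ A := by
  subst hb
  have h1 : (β (L.g u), f (L.j u)) ∈ Θ.target := (h u hu).2 ▸ Θ.map_source hu
  have h2 : ContinuousAt (fun s : Cm (d + 1) => (β (L.g u), s)) (f (L.j u)) :=
    (Continuous.prodMk_right _).continuousAt
  have h3 : Θ.symm (β (L.g u), f (L.j u)) = u := by rw [← (h u hu).2, Θ.left_inv hu]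
  have h4 : ∀ᶠ s in 𝓝 (f (L.j u)), L.g (Θ.symm (β (L.g u), s)) = L.g u ∧
      f (L.j (Θ.symm (β (L.g u), s))) = s := by
    filter_upwards [h2.eventually (Θ.open_target.mem_nhds h1)] with s hs
    have k := h _ (Θ.map_target hs)
    have k' := k.2.symm.trans (Θ.right_inv hs)
    exact ⟨β.injOn k.1 (h u hu).1 (congrArg Prod.fst k'), congrArg Prod.snd k'⟩
  have h5 : Tendsto (fun s => Θ.symm (β (L.g u), s)) (𝓝 (f (L.j u))) (𝓝[L.g ⁻¹' {L.g u}] u) := by
    refine tendsto_nhdsWithin_iff.2 ⟨?_, h4.mono fun s hs => hs.1⟩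
    have k := (ContinuousAt.comp (f := fun s : Cm (d + 1) => (β (L.g u), s))
      (Θ.continuousAt_symm h1) h2).tendsto
    rwa [Function.comp_apply, h3] at k
  refine h5.frequently (((mem_closure_iff_frequently.1 hA).and_eventually h4).mono fun s hs => ?_)
  rw [hs.2.2]
  exact hs.1

theorem cont (h : ∀ v' ∈ Θ.source, L.g v' ∈ β.source ∧ Θ v' = (β (L.g v'), f (L.j v')))
    {u : L.V.X} (hu : u ∈ Θ.source) : ContinuousAt (fun u => f (L.j u)) u :=
  (Θ.continuousAt hu).snd.congr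
    (Filter.Eventually.mono (Θ.open_source.mem_nhds hu) fun x hx => congrArg Prod.snd (h x hx).2)

end OneH

open OneH

theorem one_of (hB : BOX) : ONE := by
  intro n D d X₀ W L hL S hS y v f hG hT
  obtain ⟨hf, β, hβ, Θ, hΘ, hv, h⟩ := id hT
  have h0 := hL.sheet v hG.off Θ.source (Θ.open_source.mem_nhds hv)
  rw [nhds_prod_eq, eventually_prod_iff] at h0
  obtain ⟨pa, ha, pb, hb, h0⟩ := h0
  have key : ∀ v' ∈ Θ.source, pa (L.g v') → ∀ y', L.θ (L.g v') = S.π y' → ∀ w, pb w →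
      f w = f (L.j v') → w ∈ fib S.Γ y' → w = L.j v' := by
    intro v' h1 h2 y' h3 w h4 h5 h6
    obtain ⟨u, k1, k2, k3⟩ := h0 h2 h4 (by rw [h3]; exact hS.sub y' h6)
    dsimp only at k2 k3
    have k : u = v' := Θ.injOn k1 h1 (by rw [(h u k1).2, (h v' h1).2, k2, k3, h5])
    rw [← k, k3]
  obtain ⟨b, b1, b2, b3, b4, b5⟩ := hB n D S.X W S.Γ hS.an (d + 1) y (L.j v) f hf
    ⟨{w | pb w}, hb, (countable_singleton (L.j v)).mono fun x hx =>
      key v hv ha.self_of_nhds y hG.eq x hx.1 hx.2.1 hx.2.2⟩ {w | pb w} hb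
  subst b2
  refine ⟨b, ⟨b1, b3, hT, ?_⟩, rfl⟩
  have c : Tendsto (Prod.snd : S.X.X × L.V.X → L.V.X) (𝓝 (y, v)) (𝓝 v) :=
    continuous_snd.tendsto _
  filter_upwards [c.eventually (Θ.open_source.mem_nhds hv),
    c.eventually (hL.hg.cont.continuousAt.eventually ha),
    c.eventually (hL.hj.cont.continuousAt.eventually (b1.oO.mem_nhds b4))] with q q1 q2 q3 q4
  exact ⟨q3, fun w w1 w2 w3 => key q.2 q1 q2 q.1 q4 w (b5 w1) w2 w3⟩

theorem qj_of (hG : GENR) (hB : BFL) : QJ := by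
  intro n D d X₀ W L _ S hS y v b _ hO
  obtain ⟨-, β, -, Θ, -, hv, h⟩ := hO.tv
  filter_upwards [(continuous_fst.tendsto (y, v)).eventually (hO.ok.oU.mem_nhds hO.mem),
    (continuous_snd.tendsto (y, v)).eventually (Θ.open_source.mem_nhds hv),
    hO.near.eventually_nhds] with ⟨y', v'⟩ q1 q2 q3 q4 ι _ a ha
  dsimp only at q1 q2 q4 ha ⊢
  obtain ⟨-, g1, g2, -⟩ := hG n D S.X W S.Γ hS.an (d + 1) b y' hO.ok q1
  have hb := fun t ht => hB n D S.X W S.Γ hS.an (d + 1) b y' hO.ok q1 t ht ι a ha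
  have P : ∀ᶠ u in 𝓝[L.g ⁻¹' {L.g v'}] v', u ∈ Θ.source ∧ L.g u = L.g v' ∧ L.j u ∈ b.O ∧
      ∀ w ∈ b.O, b.f w = b.f (L.j u) → w ∈ fib S.Γ y' → w = L.j u := by
    filter_upwards [mem_nhdsWithin_of_mem_nhds (Θ.open_source.mem_nhds q2), self_mem_nhdsWithin,
      mem_nhdsWithin_of_mem_nhds
        (((Continuous.prodMk_right y').tendsto v').eventually q3)] with u u1 u2 u3
    have u4 : L.g u = L.g v' := u2
    exact ⟨u1, u4, u3 (by rw [u4, q4])⟩
  have P' := P.and (eventually_eventually_nhdsWithin.2 P)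
  constructor
  · intro hQ
    obtain ⟨u, u1, ⟨u2, u3, u4, -⟩, u5⟩ := (Frequently.and_eventually hQ P').exists
    obtain ⟨x, x1, x2, -, -, -, x3⟩ :=
      ((freq h u2 u3 (g2 (hO.ok.maps u4))).and_eventually (u1.and u5)).exists
    refine (hb _ x1).2 fun w w1 w2 => ?_
    by_cases w3 : w ∈ fib S.Γ y'
    · rw [x3 w w1 w2 w3]
      exact x2
    · exact fl_off hS.an.closed w3 a
  · intro hJ
    have k := (q3.self_of_nhds q4).1
    refine ((freq h q2 rfl (g2 (hO.ok.maps k))).and_eventually P').mono fun u hu => ?_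
    filter_upwards [hu.2.2, mem_nhdsWithin_of_mem_nhds
      ((cont h hu.2.1.1).eventually (g1.mem_nhds hu.1))] with x x1 x2
    exact (hb _ x2).1 hJ _ x1.2.2.1 rfl

end Vale.Agent.P281Z.El
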