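import Vale.Agent.P281Z.El.Sk

/-!
# P281Z, elimination of indeterminacy: the sum of the multiplicities
-/

open scoped Manifold ContDiff Topology
open Set Filter
open Vale.Agent.P272.K
open Vale.Agent.P277Z (Hol Nz)

set_option linter.all false

noncomputable section

namespace Vale.Agent.P281Z.El

namespace PhiA

variable {n D d : ℕ} {X₀ : Mf n} {W : Mf D} {L : Lab X₀ W d} {S : Sg X₀ W}

/-- a function which is constant near every good point is constant on the components -/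
theorem cst_box (hT : TVX) (hC : CST) (hO : ONE) (hL : L.Ok) (hS : L.Ad S) {y : S.X.X}
    {b : L.B.X} (hb : L.θ b = S.π y) (hy : S.π y ∉ L.T') {β : Type} (P : L.V.X → β)
    (h : ∀ v bx, L.Gd S y v → L.One S y v bx →
      ∃ c, ∀ᶠ v' in 𝓝 v, L.θ (L.g v') = S.π y → P v' = c)
    {u u' : L.V.X} (hu : u ∈ off L.G) (hu' : u' ∈ off L.G)
    (k : u' ∈ connectedComponentIn (L.g ⁻¹' {b}) u) : P u' = P u := by
  refine hC _ _ _ _ _ L hL b β P (hb ▸ hy) (fun v hv hg => ?_) u hu u' hu' k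
  have e : L.θ (L.g v) = S.π y := by rw [hg, hb]
  have gd : L.Gd S y v := ⟨hv, e, hy⟩
  obtain ⟨f, hf⟩ := hT _ _ _ _ _ L hL v hv (e ▸ hy)
  obtain ⟨bx, hbx, -⟩ := hO _ _ _ _ _ L hL S hS y v f gd hf
  obtain ⟨c, hc⟩ := h v bx gd hbx
  filter_upwards [hc] with v' h1 h2
  rw [h1 (by rw [h2, hb]), hc.self_of_nhds e]

theorem slice {A B : Type} [TopologicalSpace A] [TopologicalSpace B] {y : A} {v : B}
    {P : A × B → Prop} (h : ∀ᶠ q in 𝓝 (y, v), P q) : ∀ᶠ v' in 𝓝 v, P (y, v') :=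
  (Continuous.prodMk_right y).continuousAt.eventually h

theorem mem_cc {b : L.B.X} {u : L.V.X} (h : L.g u = b) :
    u ∈ connectedComponentIn (L.g ⁻¹' {b}) u := mem_connectedComponentIn h

/-- two systems of representatives are matched -/
theorem rep_bij {b : L.B.X} {ν ν' : ℕ} {v : Fin ν → L.V.X} {v' : Fin ν' → L.V.X}
    (h : L.Rep b v) (h' : L.Rep b v') : ∃ σ : Fin ν' → Fin ν, Function.Bijective σ ∧
      ∀ k, v' k ∈ connectedComponentIn (L.g ⁻¹' {b}) (v (σ k)) := by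
  choose σ hσ using fun k => (h.2 (v' k) (h'.1 k).1).exists
  refine ⟨σ, ⟨fun k₁ k₂ e => ?_, fun k => ?_⟩, hσ⟩
  · refine (h'.2 (v' k₁) (h'.1 k₁).1).unique (mem_cc (h'.1 k₁).1) ?_
    rw [← connectedComponentIn_eq (hσ k₂), ← e]
    exact hσ k₁
  · obtain ⟨k', hk⟩ := (h'.2 (v k) (h.1 k).1).exists
    refine ⟨k', (h.2 (v' k') (h'.1 k').1).unique (hσ k') ?_⟩
    rw [← connectedComponentIn_eq hk]
    exact mem_cc (h'.1 k').1

theorem phi_zero (hL : L.Ok) {y : S.X.X} (hy : S.π y ∉ L.T) : L.phi S y = 0 := by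
  unfold Lab.phi
  rw [Nat.sInf_eq_zero]
  refine Or.inr (eq_empty_of_forall_notMem ?_)
  rintro m ⟨b, ν, v, hb, -, -⟩
  exact hy (hb ▸ hL.ovr.maps b)

end PhiA

open PhiA

theorem phr_of (hT : TVX) (hC : CST) (hO : ONE) (hM : MUB) : PHR := by
  intro n D d X₀ W L hL S hS y b ν v hb hy hv
  have key : {m | ∃ (b : L.B.X) (ν : ℕ) (v : Fin ν → L.V.X), L.θ b = S.π y ∧ L.Rep b v ∧
      m = ∑ k, L.mu S y (v k)} = {∑ k, L.mu S y (v k)} := by
    refine eq_singleton_iff_unique_mem.2 ⟨⟨b, ν, v, hb, hv, rfl⟩, ?_⟩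
    rintro m ⟨b', ν', v', hb', hv', rfl⟩
    obtain rfl : b' = b := hL.ovr.inj (hb ▸ hy) (hb'.trans hb.symm)
    obtain ⟨σ, hσ, hk⟩ := rep_bij hv hv'
    rw [← hσ.sum_comp fun k => L.mu S y (v k)]
    refine Finset.sum_congr rfl fun k _ => ?_
    refine cst_box hT hC hO hL hS hb hy (L.mu S y) (fun w bx gd hbx => ⟨bx.a y, ?_⟩)
      (hv.1 _).2 (hv'.1 _).2 (hk k)
    exact (slice (hM _ _ _ _ _ L hL S hS y w bx gd hbx)).mono fun w' h e => (h e).1
  unfold Lab.phi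
  rw [key, csInf_singleton]

theorem phi_of (hT : TVX) (hU : TUBE) (hC : CST) (hO : ONE) (hM : MUB) (hQ : QJ) (hZ : ZER)
    (hR : PHR) : PHI := by
  intro n D d X₀ W L hL S hS y hy
  have hπ : ContinuousAt S.π y := hS.hol.cont.continuousAt
  by_cases hyT : S.π y ∈ L.T
  swap
  · refine ⟨0, Fin.elim0, Fin.elim0, fun k => k.elim0,
      fun b₀ hb => (hyT (hb ▸ hL.ovr.maps b₀)).elim, ?_, fun ι _ a _ => ?_⟩
    · filter_upwards [hπ.eventually (hL.anT.closed.isOpen_compl.mem_nhds hyT)] with y' h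
      rw [phi_zero hL h]
      simp
    · exact ⟨fun _ k => k.elim0, fun _ v gd => (hyT (gd.eq ▸ hL.ovr.maps _)).elim⟩
  obtain ⟨b₀, hb⟩ := hL.ovr.ex hyT hy
  have hb' : L.θ b₀ ∉ L.T' := hb ▸ hy
  obtain ⟨ν, v, hv, tube⟩ := hU _ _ _ _ _ L hL b₀ hb'
  have gd : ∀ k, L.Gd S y (v k) := fun k => ⟨(hv.1 k).2, by rw [(hv.1 k).1, hb], hy⟩
  have ex : ∀ k, ∃ bx : Box S.X W (d + 1), L.One S y (v k) bx := fun k => by
    obtain ⟨f, hf⟩ := hT _ _ _ _ _ L hL (v k) (gd k).off ((gd k).eq ▸ hy)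
    obtain ⟨bx, hbx, -⟩ := hO _ _ _ _ _ L hL S hS y (v k) f (gd k) hf
    exact ⟨bx, hbx⟩
  choose bx hbx using ex
  refine ⟨ν, v, bx, fun k => ⟨gd k, hbx k⟩, fun b₁ h₁ => ?_, ?_, fun ι _ a ha => ?_⟩
  · obtain rfl : b₁ = b₀ := hL.ovr.inj hb' (h₁.trans hb.symm)
    exact hv
  · have h1 := fun k => hM _ _ _ _ _ L hL S hS y (v k) (bx k) (gd k) (hbx k)
    simp only [nhds_prod_eq, eventually_prod_iff] at h1
    choose pa hpa pb hpb hp using h1
    have h2 := hL.ovr.ev hb' (tube (fun k => {w | pb k w}) hpb)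
    rw [hb] at h2
    filter_upwards [hπ.eventually h2, eventually_all.2 hpa,
      hπ.eventually (hL.anT'.closed.isOpen_compl.mem_nhds hy),
      eventually_all.2 fun k => (hbx k).ok.oU.mem_nhds (hbx k).mem] with y' k1 k2 k3 k4
    by_cases h : S.π y' ∈ L.T
    · obtain ⟨b', hb₁⟩ := hL.ovr.ex h k3
      obtain ⟨v', hN, hv'⟩ := k1 b' hb₁
      rw [hR _ _ _ _ _ L hL S hS y' b' ν v' hb₁ k3 hv']
      refine Finset.sum_congr rfl fun k _ => ?_
      exact (hp k (k2 k) (hN k) (by rw [(hv'.1 k).1, hb₁])).1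
    · rw [phi_zero hL h]
      refine (Finset.sum_eq_zero fun k _ => ?_).symm
      exact hZ _ _ _ _ _ hS.an d (bx k) y' (hbx k).ok (k4 k) (hS.low y' h)
  · have h1 := fun k => (hQ _ _ _ _ _ L hL S hS y (v k) (bx k) (gd k) (hbx k)).self_of_nhds
      (gd k).eq ι a ha
    refine ⟨fun h k => (h1 k).1 (h _ (gd k)), fun h u hu => ?_⟩
    have e : L.g u = b₀ := hL.ovr.inj hb' (hu.eq.trans hb.symm)
    obtain ⟨k, hk⟩ := (hv.2 u e).exists
    have h2 : L.Q S y u a = L.Q S y (v k) a := by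
      refine cst_box hT hC hO hL hS hb hy (fun w => L.Q S y w a)
        (fun w c gw hc => ⟨c.J (c.rk y) y a, ?_⟩) (gd k).off hu.off hk
      exact (slice (hQ _ _ _ _ _ L hL S hS y w c gw hc)).mono fun w' h e => propext (h e ι a ha)
    rw [h2]
    exact (h1 k).2 (h k)

end Vale.Agent.P281Z.El
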