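import Vale.Agent.P281Z.El.Sk
import Vale.Agent.P277Z.Oka.Wal

/-!
# P281Z, elimination of indeterminacy: polynomials and germs at the roots
-/

open Filter Topology Polynomial
open Vale.Agent.P298.H941
open Vale.Agent.P277Z.Oka

noncomputable section

namespace Vale.Agent.P281Z.El

namespace Psa

variable {Y : Type} [NormedAddCommGroup Y] [NormedSpace ℂ Y]

/-- the value at the origin -/
abbrev z0 (Y : Type) [NormedAddCommGroup Y] [NormedSpace ℂ Y] : O Y →+* ℂ := (ev0 Y : O Y →+* ℂ)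

theorem ev0_ev (t : ℂ) (f : (O Y)[X]) : ev0 (ℂ × Y) (ev Y t f) = (f.map (z0 Y)).eval t := by
  have h : (z0 (ℂ × Y)).comp (ev Y t) = (evalRingHom t).comp (mapRingHom (z0 Y)) := by
    refine Polynomial.ringHom_ext (fun a => ?_) ?_
    · obtain ⟨a, ha, rfl⟩ := gm_surj (0 : Y) a
      have h1 : AnalyticAt ℂ (fun z : ℂ × Y => a z.2) (0, 0) := ha.comp_of_eq analyticAt_snd rfl
      simp only [RingHom.comp_apply, ev_C, coe_mapRingHom, map_C, coe_evalRingHom, eval_C]
      rw [← gm_snd (t := 0) ha]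
      exact (ev0_gm h1).trans (ev0_gm ha).symm
    · simp only [RingHom.comp_apply, ev_X, coe_mapRingHom, map_X, coe_evalRingHom, eval_X]
      rw [← gm_fst t (0 : Y)]
      exact ev0_gm analyticAt_fst
  exact congrArg (fun φ : (O Y)[X] →+* ℂ => φ f) h

theorem unit_iff (t : ℂ) (f : (O Y)[X]) : IsUnit (ev Y t f) ↔ (f.map (z0 Y)).eval t ≠ 0 := by
  rw [P298.H941.isUnit_iff, ev0_ev]

theorem pt (t : ℂ) {P : (O Y)[X]} (hP : P.Monic) : ∃ Q S : (O Y)[X], P = Q * S ∧ Q.Monic ∧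
    IsUnit (ev Y t S) ∧ (∀ s, s ≠ t → IsUnit (ev Y s Q)) ∧
    ∀ R v, ev Y t R = v * ev Y t Q → ∃ B, R = Q * B := by
  obtain ⟨Q, S, h1, h2, h3⟩ := Wa.fact (Wa.monic_t hP (algebraMap ℂ (O Y) t))
  have e : ∀ f : (O Y)[X], taylor (algebraMap ℂ (O Y) t) (taylor (-algebraMap ℂ (O Y) t) f) = f :=
    fun f => by rw [taylor_taylor, add_neg_cancel, taylor_zero]
  have e' : ∀ f : (O Y)[X], taylor (-algebraMap ℂ (O Y) t) (taylor (algebraMap ℂ (O Y) t) f) = f :=
    fun f => by rw [taylor_taylor, neg_add_cancel, taylor_zero]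
  refine ⟨taylor (-algebraMap ℂ (O Y) t) Q, taylor (-algebraMap ℂ (O Y) t) S, ?_,
    Wa.monic_t h1.1 _, ?_, fun s hs => ?_, fun R v h => ?_⟩
  · rw [← taylor_mul, ← h3, e']
  · rwa [Wa.ev_eq, e]
  · rw [unit_iff, taylor_apply, map_comp, h1.2]
    have : z0 Y (algebraMap ℂ (O Y) t) = t := (ev0 Y).commutes t
    simp [this, ← sub_eq_add_neg, sub_ne_zero.2 hs]
  · rw [Wa.ev_eq, Wa.ev_eq t, e] at h
    refine ⟨taylor (-algebraMap ℂ (O Y) t) (taylor (algebraMap ℂ (O Y) t) R /ₘ Q), ?_⟩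
    rw [← taylor_mul, ← (Wa.dvd_of h1 h).1, e']

theorem top_of {I : Ideal (O Y)[X]} {P : (O Y)[X]} (hP : P.Monic) (hI : P ∈ I)
    (h : ∀ t, ∃ S ∈ I, (S.map (z0 Y)).eval t ≠ 0) : I = ⊤ := by
  by_contra hc
  obtain ⟨M, hM, hle⟩ := Ideal.exists_le_maximal I hc
  have h1 := hP.quotient_isIntegral (hle hI)
  let _ := Ideal.Quotient.field M
  have h2 := Ideal.isMaximal_comap_of_isIntegral_of_isMaximal' _ h1 ⊥
  have h3 := IsLocalRing.eq_maximalIdeal h2
  have h4 : ∀ a : O Y, C (a - algebraMap ℂ _ (z0 Y a)) ∈ M := fun a => by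
    have : a - algebraMap ℂ _ (z0 Y a) ∈ IsLocalRing.maximalIdeal (O Y) := by
      rw [IsLocalRing.mem_maximalIdeal, mem_nonunits_iff, P298.H941.isUnit_iff, map_sub,
        AlgHom.commutes]
      simp
    rw [← h3, Ideal.mem_comap, Ideal.mem_bot] at this
    exact Ideal.Quotient.eq_zero_iff_mem.1 this
  let φ : ℂ →+* (O Y)[X] ⧸ M := (Ideal.Quotient.mk M).comp (C.comp (algebraMap ℂ (O Y)))
  have h5 : Ideal.Quotient.mk M =
      (eval₂RingHom φ (Ideal.Quotient.mk M X)).comp (mapRingHom (z0 Y)) := by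
    refine Polynomial.ringHom_ext (fun a => ?_) (by simp)
    simp only [RingHom.comp_apply, coe_mapRingHom, map_C, coe_eval₂RingHom, eval₂_C, φ]
    rw [Ideal.Quotient.eq, ← map_sub]
    exact h4 a
  have h6 : ∀ f ∈ M, eval₂ φ (Ideal.Quotient.mk M X) (f.map (z0 Y)) = 0 := fun f hf => by
    have := Ideal.Quotient.eq_zero_iff_mem.2 hf
    rwa [h5] at this
  have h7 := h6 P (hle hI)
  rw [(IsAlgClosed.splits (P.map (z0 Y))).eq_prod_roots_of_monic (hP.map _), ← coe_eval₂RingHom,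
    map_multiset_prod, Multiset.prod_eq_zero_iff, Multiset.map_map] at h7
  obtain ⟨t, -, ht⟩ := Multiset.mem_map.1 h7
  have ht' : Ideal.Quotient.mk M X = φ t := by
    have : eval₂ φ (Ideal.Quotient.mk M X) (X - C t) = 0 := ht
    rwa [eval₂_sub, eval₂_X, eval₂_C, sub_eq_zero] at this
  obtain ⟨S, hS, k⟩ := h t
  have h8 := h6 S (hle hS)
  rw [ht', eval₂_hom] at h8
  exact k (φ.injective (h8.trans (map_zero φ).symm))

theorem one {P : (O Y)[X]} (hP : P.Monic) (ι κ : Type) [Fintype ι] (R : ι → κ → (O Y)[X])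
    (V : κ → (O Y)[X]) (h : ∀ t, ∃ (c : ι → O (ℂ × Y)) (b : κ → O (ℂ × Y)), ∀ k,
      ev Y t (V k) = ∑ i, c i * ev Y t (R i k) + b k * ev Y t P) :
    ∃ (C : ι → (O Y)[X]) (B : κ → (O Y)[X]), ∀ k, V k = ∑ i, C i * R i k + B k * P := by
  let I : Ideal (O Y)[X] :=
    { carrier := {a | ∃ (C : ι → (O Y)[X]) (B : κ → (O Y)[X]), ∀ k,
        a * V k = ∑ i, C i * R i k + B k * P}
      zero_mem' := ⟨0, 0, fun k => by simp⟩
      add_mem' := by
        rintro a b ⟨C, B, e⟩ ⟨C', B', e'⟩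
        refine ⟨C + C', B + B', fun k => ?_⟩
        simp only [Pi.add_apply, add_mul, Finset.sum_add_distrib, e k, e' k]
        ring
      smul_mem' := by
        rintro c a ⟨C, B, e⟩
        refine ⟨fun i => c * C i, fun k => c * B k, fun k => ?_⟩
        simp only [smul_eq_mul, mul_assoc, e k, mul_add, Finset.mul_sum] }
  have hI : I = ⊤ := top_of hP ⟨0, V, fun k => by simp [mul_comm]⟩ fun t => by
    obtain ⟨Q, S, e, hQ, hS, -, hd⟩ := pt t hP
    obtain ⟨c, b, hc⟩ := h t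
    choose v r hr _ using fun i => (wal Y).div t Q hQ (c i)
    have : ∀ k, ∃ B, V k - ∑ i, r i * R i k = Q * B := fun k =>
      hd _ (∑ i, v i * ev Y t (R i k) + b k * ev Y t S) (by
        simp only [map_sub, map_sum, map_mul, hc k, hr, e, add_mul, Finset.sum_add_distrib,
          Finset.sum_mul]
        have : ∑ i, v i * ev Y t Q * ev Y t (R i k) = ∑ i, v i * ev Y t (R i k) * ev Y t Q :=
          Finset.sum_congr rfl fun i _ => by ring
        rw [this]
        ring)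
    choose B hB using this
    refine ⟨S, ⟨fun i => S * r i, B, fun k => ?_⟩, (unit_iff t S).1 hS⟩
    simp only [mul_assoc, ← Finset.mul_sum]
    rw [e]
    linear_combination S * hB k
  obtain ⟨C, B, e⟩ : (1 : (O Y)[X]) ∈ I := hI ▸ Submodule.mem_top
  exact ⟨C, B, fun k => (one_mul _).symm.trans (e k)⟩

theorem two {P : (O Y)[X]} (hP : P.Monic) (u : ℂ → O (ℂ × Y)) :
    ∃ V : (O Y)[X], ∀ t, ∃ b, ev Y t V = u t + b * ev Y t P := by
  classical
  choose Q S e _ hS hQ _ using fun t => pt t hP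
  choose s hs using fun t => (hS t).exists_left_inv
  choose v r hr _ using fun t => (wal Y).div t P hP (s t * u t)
  refine ⟨∑ t ∈ (P.map (z0 Y)).roots.toFinset, S t * r t, fun t => ?_⟩
  by_cases ht : t ∈ (P.map (z0 Y)).roots.toFinset
  · have h1 : ∀ t', t' ≠ t → ∃ b, ev Y t (S t' * r t') = b * ev Y t P := fun t' h' => by
      obtain ⟨w, hw⟩ := (hQ t' t h'.symm).exists_left_inv
      refine ⟨w * ev Y t (r t'), ?_⟩
      rw [e t', map_mul, map_mul]
      linear_combination (-ev Y t (S t') * ev Y t (r t')) * hw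
    choose! b hb using h1
    refine ⟨∑ t' ∈ (P.map (z0 Y)).roots.toFinset.erase t, b t' - ev Y t (S t) * v t, ?_⟩
    rw [← Finset.add_sum_erase _ _ ht, map_add, map_sum,
      Finset.sum_congr rfl fun t' h' => hb t' (Finset.ne_of_mem_erase h'), map_mul, sub_mul,
      Finset.sum_mul]
    linear_combination (-ev Y t (S t)) * hr t + u t * hs t
  · rw [Multiset.mem_toFinset, mem_roots (hP.map _).ne_zero] at ht
    obtain ⟨w, hw⟩ := ((unit_iff t P).2 ht).exists_left_inv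
    refine ⟨(ev Y t (∑ t ∈ (P.map (z0 Y)).roots.toFinset, S t * r t) - u t) * w, ?_⟩
    rw [mul_assoc, hw]
    ring

end Psa

theorem psa : PSA := fun _ _ _ _ _ hP =>
  ⟨fun ι κ _ _ R V h => Psa.one hP ι κ R V h, Psa.two hP⟩

end Vale.Agent.P281Z.El
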