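import Vale.Agent.P281Z.El.Push0

/-!
# P281Z, elimination of indeterminacy: direct images under a projection with one dimensional fibres
-/

open scoped Topology Polynomial
open Set Filter Polynomial
open Vale.Agent.P277Z.Oka
open Vale.Agent.P298.H941 (O roots_small)

set_option linter.unusedSectionVars false

noncomputable section

namespace Vale.Agent.P281Z.El

namespace Pu

variable {Y : Type} [NormedAddCommGroup Y] [NormedSpace ℂ Y] {ι κ : Type} [Fintype ι] [Fintype κ]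

theorem wprep {D : ℂ × Y → ℂ} {t₀ : ℂ} {y₀ : Y} (hD : AnalyticAt ℂ D (t₀, y₀))
    (h : ¬ ∀ᶠ t in 𝓝 t₀, D (t, y₀) = 0) :
    ∃ (b : ℕ) (P : Y → ℂ[X]) (v : ℂ × Y → ℂ), PF y₀ b P ∧ (∀ z, (P z).Monic ∧ (P z).natDegree = b) ∧
      AnalyticAt ℂ v (t₀, y₀) ∧ (∀ᶠ x in 𝓝 (t₀, y₀), pf P x = D x * v x) ∧
      (∀ t, (P y₀).eval t = 0 → t = t₀) ∧
      ∀ ε > 0, ∀ᶠ z in 𝓝 y₀, ∀ t, (P z).eval t = 0 → ‖t - t₀‖ < ε := by
  have hF : AnalyticAt ℂ (fun x : ℂ × Y => D (t₀ + x.1, x.2)) (0, y₀) :=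
    hD.comp_of_eq ((analyticAt_const.fun_add analyticAt_fst).prod analyticAt_snd) (by simp)
  have hf : AnalyticAt ℂ (fun t : ℂ => D (t₀ + t, y₀)) 0 :=
    hF.comp_of_eq (analyticAt_id.prod analyticAt_const) rfl
  obtain ⟨b, hb⟩ := ENat.ne_top_iff_exists.1 (mt analyticOrderAt_eq_top.1 fun k :
    ∀ᶠ t in 𝓝 (0 : ℂ), D (t₀ + t, y₀) = 0 => h (by simpa using (tendsto_tr' t₀).eventually k))
  obtain ⟨u, hu, hu0, h2⟩ := (hf.analyticOrderAt_eq_natCast).1 hb.symm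
  obtain ⟨P, v, h3, h4, h5, h6, -, h7⟩ :=
    P267.H823.weierstrass hF hu hu0 (b := b) (h2.mono fun z hz => by simpa using hz)
  have hτ : AnalyticAt ℂ (fun x : ℂ × Y => (x.1 - t₀, x.2)) (t₀, y₀) :=
    (analyticAt_fst.fun_sub analyticAt_const).prod analyticAt_snd
  have he : ∀ z t, (taylor (-t₀) (P z)).eval t = (P z).eval (t - t₀) := fun z t => by
    rw [taylor_eval, sub_eq_add_neg]
  refine ⟨b, fun z => taylor (-t₀) (P z), fun x => v (x.1 - t₀, x.2),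
    ⟨fun z => by rw [natDegree_taylor, (h3 z).2], fun i => ?_⟩,
    fun z => ⟨(leadingCoeff_taylor _ _).trans (h3 z).1, by rw [natDegree_taylor, (h3 z).2]⟩,
    h6.comp_of_eq hτ (by simp), ?_, fun t ht => ?_, fun ε hε => ?_⟩
  · have : ∀ z, (taylor (-t₀) (P z)).coeff i =
        ∑ j ∈ Finset.range (b + 1), (P z).coeff j * (taylor (-t₀) (X ^ j)).coeff i := fun z => by
      conv_lhs => rw [as_sum_range_C_mul_X_pow' (P z) (Nat.lt_succ_of_le (h3 z).2.le)]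
      simp only [map_sum, finsetSum_coeff, C_mul', map_smul, coeff_smul, smul_eq_mul]
    simp only [this]
    exact Finset.analyticAt_fun_sum _ fun j _ => (h4 j).fun_mul analyticAt_const
  · have ht : Tendsto (fun x : ℂ × Y => (x.1 - t₀, x.2)) (𝓝 (t₀, y₀)) (𝓝 (0, y₀)) := by
      simpa using hτ.continuousAt.tendsto
    filter_upwards [ht.eventually h7] with x hx
    rw [pf, he, ← hx]
    simp
  · rw [he, h5, eval_pow, eval_X] at ht
    exact sub_eq_zero.1 (eq_zero_of_pow_eq_zero ht)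
  · filter_upwards [roots_small h3 (fun i => (h4 i).continuousAt) h5 hε] with z hz t ht
    exact hz _ (he z t ▸ ht)

theorem ev_pv {b : ℕ} {z : Y} {v : Fin b → Y → ℂ} (hv : ∀ j, AnalyticAt ℂ (v j) z) (t : ℂ) :
    ev Y t (∑ j : Fin b, C (gm z (v j)) * X ^ (j : ℕ)) =
      gm (t, z) fun x => ∑ j : Fin b, v j x.2 * x.1 ^ (j : ℕ) := by
  have h1 : ∀ j, AnalyticAt ℂ (fun x : ℂ × Y => v j x.2) (t, z) := fun j =>
    (hv j).comp_of_eq analyticAt_snd rfl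
  rw [gm_sum _ fun j => (h1 j).fun_mul (analyticAt_fst.fun_pow _), map_sum]
  refine Finset.sum_congr rfl fun j _ => ?_
  rw [gm_mul (h1 j) (analyticAt_fst.fun_pow _), gm_pow analyticAt_fst, gm_fst, gm_snd (hv j),
    map_mul, map_pow, ev_C, ev_X]

theorem ana_pv {b : ℕ} {z : Y} {v : Fin b → Y → ℂ} (hv : ∀ j, AnalyticAt ℂ (v j) z) (t : ℂ) :
    AnalyticAt ℂ (fun x : ℂ × Y => ∑ j : Fin b, v j x.2 * x.1 ^ (j : ℕ)) (t, z) :=
  Finset.analyticAt_fun_sum _ fun j _ =>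
    ((hv j).comp_of_eq analyticAt_snd rfl).fun_mul (analyticAt_fst.fun_pow _)

theorem exists_pv {b : ℕ} (z : Y) {R : (O Y)[X]} (h : R.degree < b) :
    ∃ v : Fin b → Y → ℂ, (∀ j, AnalyticAt ℂ (v j) z) ∧
      ∑ j : Fin b, C (gm z (v j)) * X ^ (j : ℕ) = R := by
  choose v hv e using fun j : Fin b => gm_surj z (R.coeff j)
  refine ⟨v, hv, ?_⟩
  simp only [e]
  rw [Fin.sum_univ_eq_sum_range (fun j => C (R.coeff j) * X ^ j) b]
  by_cases h0 : R = 0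
  · simp [h0]
  · exact (as_sum_range_C_mul_X_pow' _ ((natDegree_lt_iff_degree_lt h0).2 h)).symm

open Classical in
/-- the generators -/
def gen (κ : Type) (b : ℕ) (a : κ × Fin b) (k : κ) (x : ℂ × Y) : ℂ :=
  if a.1 = k then x.1 ^ (a.2 : ℕ) else 0

theorem ana_gen {κ : Type} {b : ℕ} (a : κ × Fin b) (k : κ) (x : ℂ × Y) :
    AnalyticAt ℂ (gen κ b a k) x := by
  unfold gen
  split_ifs
  exacts [analyticAt_fst.fun_pow _, analyticAt_const]

theorem sum_gen {b : ℕ} (v : κ × Fin b → ℂ) (k : κ) (x : ℂ × Y) :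
    ∑ a, v a * gen κ b a k x = ∑ j : Fin b, v (k, j) * x.1 ^ (j : ℕ) := by
  classical
  rw [Fintype.sum_prod_type, Finset.sum_comm]
  refine Finset.sum_congr rfl fun j _ => ?_
  simp [gen]

/-- the data at a point -/
structure Dat (G : ι → κ → ℂ × Y → ℂ) {b : ℕ} (P : Y → ℂ[X]) (R : ι → κ → Y → ℂ[X])
    (x : ℂ × Y) : Prop where
  ana : ∀ i k, AnalyticAt ℂ (G i k) x
  div : ∀ i k, ∃ q, gm x (G i k) = q * gm x (pf P) + gm x (pf (R i k))
  mem : ∀ β : κ → O (ℂ × Y), ∃ c : ι → O (ℂ × Y), ∀ k, β k * gm x (pf P) = ∑ i, c i * gm x (G i k)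

theorem Dat.key {G : ι → κ → ℂ × Y → ℂ} {b : ℕ} {P : Y → ℂ[X]} {R : ι → κ → Y → ℂ[X]} {x : ℂ × Y}
    (h : Dat (b := b) G P R x) {w : κ → ℂ × Y → ℂ} (hw : ∀ k, AnalyticAt ℂ (w k) x) :
    InV x G w ↔ ∃ (c : ι → O (ℂ × Y)) (β : κ → O (ℂ × Y)), ∀ k,
      gm x (w k) = ∑ i, c i * gm x (pf (R i k)) + β k * gm x (pf P) := by
  rw [inV_iff h.ana hw]
  choose q hq using h.div
  refine ⟨fun ⟨c, e⟩ => ⟨c, fun k => ∑ i, c i * q i k, fun k => ?_⟩, fun ⟨c, β, e⟩ => ?_⟩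
  · simp only [e, hq, mul_add, Finset.sum_add_distrib, Finset.sum_mul, mul_assoc]
    exact add_comm _ _
  · obtain ⟨c', e'⟩ := h.mem fun k => β k - ∑ i, c i * q i k
    refine ⟨fun i => c i + c' i, fun k => ?_⟩
    simp only [add_mul, Finset.sum_add_distrib, ← e', e]
    simp only [hq, mul_add, Finset.sum_add_distrib, sub_mul, Finset.sum_mul, mul_assoc]
    ring

theorem pres [FiniteDimensional ℂ Y] (H : PSA) {G : ι → κ → ℂ × Y → ℂ} {b n : ℕ} {P : Y → ℂ[X]}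
    {R : ι → κ → Y → ℂ[X]} {Q : ι × Fin b → κ → Y → ℂ[X]} {S : ι × Fin b → κ × Fin b → Y → ℂ}
    {U : Set (ℂ × Y)} {z : Y} (hm : ∀ z, (P z).Monic ∧ (P z).natDegree = b) (hP : PF z b P)
    (hR : ∀ i k, PF z b (R i k)) (hS : ∀ i a, AnalyticAt ℂ (S i a) z)
    (hQ : ∀ i k, X ^ (i.2 : ℕ) * pg z b (R i.1 k) =
      pg z b P * pg z n (Q i k) + ∑ l : Fin b, C (gm z (S i (k, l))) * X ^ (l : ℕ))
    (hU : ∀ t, (t, z) ∈ U → Dat (b := b) G P R (t, z)) (hr : ∀ t, (P z).eval t = 0 → (t, z) ∈ U) :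
    Pres Prod.snd G U (gen κ b) S z := by
  obtain ⟨hm1, hm2⟩ := Wa.monic_pg hP hm
  obtain ⟨H1, H2⟩ := H Y _ hm1
  refine ⟨fun v hv => ?_, fun u hu => ?_⟩
  · rw [inV_iff hS hv, ← alg_rel hm1 hm2 (fun i k => pg z b (R i k)) (fun i a => gm z (S i a))
      (fun i k => pg z n (Q i k)) hQ fun a => gm z (v a)]
    simp only [sum_gen]
    refine ⟨fun ⟨F, B, e⟩ ⟨t, z'⟩ hx e1 => ?_, fun h => H1 ι κ _ _ fun t => ?_⟩
    · obtain rfl : z' = z := e1
      refine ((hU t hx).key fun k => ana_pv (fun j => hv (k, j)) t).2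
        ⟨fun i => ev Y t (F i), fun k => ev Y t (B k), fun k => ?_⟩
      rw [← ev_pv fun j => hv (k, j), e]
      simp only [map_add, map_sum, map_mul, hP.ev_pg, (hR _ _).ev_pg]
    · simp only [hP.ev_pg, (hR _ _).ev_pg]
      by_cases ht : (t, z) ∈ U
      · simp only [ev_pv fun j => hv (_, j)]
        exact ((hU t ht).key fun k => ana_pv (fun j => hv (k, j)) t).1 (h _ ht rfl)
      · obtain ⟨w, hw⟩ := ((isUnit_gm (hP.ana_pf t)).2 (mt (hr t) ht)).exists_left_inv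
        exact ⟨0, fun k => ev Y t (∑ l : Fin b, C (gm z (v (k, l))) * X ^ (l : ℕ)) * w, fun k => by
          rw [mul_assoc, hw, mul_one]; simp only [Pi.zero_apply, zero_mul, Finset.sum_const_zero,
            zero_add]⟩
  · choose V hV using fun k => H2 fun t => gm (t, z) (u (t, z) k)
    choose v hv e using fun k => exists_pv (b := b) z (R := V k %ₘ pg z b P)
      ((degree_modByMonic_lt _ hm1).trans_eq (by rw [degree_eq_natDegree hm1.ne_zero, hm2]))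
    refine ⟨fun a => v a.1 a.2, fun a => hv _ _, fun ⟨t, z'⟩ hx e1 => ?_⟩
    obtain rfl : z' = z := e1
    simp only [sum_gen]
    choose β hβ using fun k => hV k t
    refine ((hU t hx).key fun k => (hu _ hx rfl k).fun_sub (ana_pv (hv k) t)).2
      ⟨0, fun k => ev Y t (V k /ₘ pg z' b P) - β k, fun k => ?_⟩
    rw [gm_sub (hu _ hx rfl k) (ana_pv (hv k) t), ← ev_pv (hv k), e, modByMonic_eq_sub_mul_div,
      map_sub, map_mul, hβ, hP.ev_pg]
    simp only [Pi.zero_apply, zero_mul, Finset.sum_const_zero]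
    ring

/-- the direct image, with generators which depend on the first variable only -/
theorem push (H : PSA) [FiniteDimensional ℂ Y] (G : ι → κ → ℂ × Y → ℂ) (x₀ : ℂ × Y)
    (hG : ∀ i k, AnalyticAt ℂ (G i k) x₀)
    (hc : ∃ N ∈ 𝓝 x₀, {x | x ∈ N ∧ x ∈ Sp G ∧ x.2 = x₀.2}.Countable) :
    FP Prod.snd Prod.fst G x₀ := by
  classical
  obtain ⟨t₀, y₀⟩ := x₀
  intro N hN
  have hι : Tendsto (fun t : ℂ => (t, y₀)) (𝓝 t₀) (𝓝 (t₀, y₀)) :=
    (continuous_id.prodMk continuous_const).tendsto t₀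
  have hG' : ∀ᶠ x in 𝓝 (t₀, y₀), ∀ i k, AnalyticAt ℂ (G i k) x :=
    eventually_all.2 fun i => eventually_all.2 fun k => (hG i k).eventually_analyticAt
  obtain ⟨C₀, hC₀⟩ : ∃ C₀ : κ → ι → ℂ, ¬ ∀ᶠ t in 𝓝 t₀, dt C₀ G (t, y₀) = 0 := by
    obtain ⟨N₀, hN₀, hc⟩ := hc
    obtain ⟨r, hr, hb⟩ := Metric.eventually_nhds_iff_ball.1 (hι.eventually (hG'.and hN₀))
    obtain ⟨t₁, h1, h2⟩ : ∃ t ∈ Metric.ball t₀ r, (t, y₀) ∉ Sp G := by
      by_contra! k
      have h3 : (Metric.ball t₀ r).Countable :=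
        (hc.preimage_of_injOn (f := fun t : ℂ => (t, y₀)) fun _ _ _ _ e => (Prod.ext_iff.1 e).1).mono
          fun t ht => And.intro (hb t ht).2 ⟨k t ht, rfl⟩
      exact (Metric.isOpen_ball.measure_pos MeasureTheory.volume (Metric.nonempty_ball.2 hr)).ne'
        (h3.measure_zero _)
    obtain ⟨C₀, hC₀⟩ := exists_dt h2
    refine ⟨C₀, fun k => one_ne_zero (hC₀.symm.trans ?_)⟩
    exact AnalyticOnNhd.eqOn_zero_of_preconnected_of_eventuallyEq_zero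
      (f := fun t : ℂ => dt C₀ G (t, y₀)) (fun t ht => (ana_dt C₀ (hb t ht).1).comp_of_eq
        (analyticAt_id.prod analyticAt_const) rfl) (convex_ball t₀ r).isPreconnected
      (Metric.mem_ball_self hr) k h1
  obtain ⟨b, P, v, hP, hm, hv, hPv, h0, hrt⟩ := wprep (ana_dt C₀ hG) hC₀
  obtain ⟨hm1, hm2⟩ := Wa.monic_pg hP hm
  have hd : (pg y₀ b P).degree = b := by rw [degree_eq_natDegree hm1.ne_zero, hm2]
  choose q R' e1 e2 using fun i k => (wal Y).div t₀ _ hm1 (gm (t₀, y₀) (G i k))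
  choose q hq e3 using fun i k => gm_surj (t₀, y₀) (q i k)
  choose R hR e4 using fun i k => pg_surj y₀ (n := b) (natDegree_le_of_degree_le (hd ▸ e2 i k).le)
  choose S hS e5 using fun (i : ι × Fin b) k =>
    exists_pv (b := b) y₀ (R := (X ^ (i.2 : ℕ) * R' i.1 k) %ₘ pg y₀ b P)
      (hd ▸ degree_modByMonic_lt _ hm1)
  obtain ⟨n, hn⟩ := (finite_range fun j : (ι × Fin b) × κ =>
    ((X ^ (j.1.2 : ℕ) * R' j.1.1 j.2) /ₘ pg y₀ b P).natDegree).bddAbove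
  choose Q hQ e6 using fun (i : ι × Fin b) k => pg_surj y₀ (n := n) (hn ⟨(i, k), rfl⟩)
  have a1 : ∀ᶠ x in 𝓝 (t₀, y₀), ∀ i k, G i k x = q i k x * pf P x + pf (R i k) x := by
    refine eventually_all.2 fun i => eventually_all.2 fun k => ?_
    rw [← gm_eq_iff (hG i k) (((hq i k).fun_mul (hP.ana_pf t₀)).fun_add ((hR i k).ana_pf t₀)),
      gm_add ((hq i k).fun_mul (hP.ana_pf t₀)) ((hR i k).ana_pf t₀), gm_mul (hq i k) (hP.ana_pf t₀),
      e1, e3, ← hP.ev_pg, ← (hR i k).ev_pg, e4]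
  have a0 : ∀ (z : Y) (i : ι × Fin b) k, PF z b P → PF z b (R i.1 k) → PF z n (Q i k) →
      (∀ l, AnalyticAt ℂ (S i k l) z) → (X ^ (i.2 : ℕ) * pg z b (R i.1 k) =
        pg z b P * pg z n (Q i k) + ∑ l : Fin b, C (gm z (S i k l)) * X ^ (l : ℕ) ↔
      ∀ᶠ x in 𝓝 (t₀, z), x.1 ^ (i.2 : ℕ) * pf (R i.1 k) x =
        pf P x * pf (Q i k) x + ∑ l : Fin b, S i k l x.2 * x.1 ^ (l : ℕ)) := by
    intro z i k h1 h2 h3 h4
    rw [← gm_eq_iff ((analyticAt_fst.fun_pow _).fun_mul (h2.ana_pf t₀))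
      (((h1.ana_pf t₀).fun_mul (h3.ana_pf t₀)).fun_add (ana_pv h4 t₀)),
      gm_add ((h1.ana_pf t₀).fun_mul (h3.ana_pf t₀)) (ana_pv h4 t₀),
      gm_mul (h1.ana_pf t₀) (h3.ana_pf t₀), gm_mul (analyticAt_fst.fun_pow _) (h2.ana_pf t₀),
      gm_pow analyticAt_fst, gm_fst, ← ev_X, ← ev_pv h4, ← h1.ev_pg, ← h2.ev_pg, ← h3.ev_pg,
      ← map_pow, ← map_mul, ← map_mul, ← map_add, ((wal Y).inj t₀).eq_iff]
  have a2 : ∀ᶠ x in 𝓝 (t₀, y₀), ∀ (i : ι × Fin b) k, x.1 ^ (i.2 : ℕ) * pf (R i.1 k) x =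
      pf P x * pf (Q i k) x + ∑ l : Fin b, S i k l x.2 * x.1 ^ (l : ℕ) := by
    refine eventually_all.2 fun i => eventually_all.2 fun k =>
      (a0 y₀ i k hP (hR _ _) (hQ _ _) (hS i k)).1 ?_
    rw [e4, e5, e6, add_comm, modByMonic_add_div]
  obtain ⟨ε, hε, hb⟩ := Metric.eventually_nhds_iff_ball.1 ((hG'.and hN).and
    ((hv.eventually_analyticAt.and (eventually_all.2 fun i => eventually_all.2 fun k =>
      (hq i k).eventually_analyticAt)).and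
      (hPv.eventually_nhds.and (a1.eventually_nhds.and a2.eventually_nhds))))
  obtain ⟨Ω, hΩ, oΩ, mΩ⟩ := eventually_nhds_iff.1 (((hrt (ε / 2) (half_pos hε)).and
    (Metric.ball_mem_nhds y₀ hε)).and ((hP.eventually.and (eventually_all.2 fun i =>
      eventually_all.2 fun k => (hR i k).eventually)).and ((eventually_all.2 fun i =>
      eventually_all.2 fun k => (hQ i k).eventually).and (eventually_all.2 fun i =>
      eventually_all.2 fun k => eventually_all.2 fun l => (hS i k l).eventually_analyticAt))))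
  set U : Set (ℂ × Y) := Metric.ball t₀ ε ×ˢ Ω with hU
  have oU : IsOpen U := Metric.isOpen_ball.prod oΩ
  have hUb : ∀ x ∈ U, x ∈ Metric.ball (t₀, y₀) ε := fun x hx =>
    ball_prod_same t₀ y₀ ε ▸ mk_mem_prod hx.1 (hΩ _ hx.2).1.2
  have hGU : ∀ i k, ∀ x ∈ U, AnalyticAt ℂ (G i k) x := fun i k x hx => (hb x (hUb x hx)).1.1 i k
  have hz : ∀ x ∈ U, x ∈ Sp G → (P x.2).eval x.1 = 0 := fun x hx hs => by
    have := (hb x (hUb x hx)).2.2.1.self_of_nhds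
    rwa [dt_eq_zero C₀ hs, zero_mul] at this
  have hpr : ∀ z ∈ Ω, Pres Prod.snd G U (gen κ b) (fun i a => S i a.1 a.2) z := by
    intro z hz
    obtain ⟨⟨b1, b2⟩, ⟨b3, b4⟩, b5, b6⟩ := hΩ z hz
    refine pres H hm b3 b4 (fun i a => b6 i _ _) (Q := Q) (n := n) (fun i k =>
      (a0 z i k b3 (b4 _ _) (b5 _ _) (b6 i k)).2 ((hb _ (hUb (t₀, z)
        ⟨Metric.mem_ball_self hε, hz⟩)).2.2.2.2.mono fun x hx => hx i k)) (fun t ht => ?_)
      fun t ht => ⟨mem_ball_iff_norm.2 ((b1 t ht).trans (half_lt_self hε)), hz⟩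
    obtain ⟨⟨c1, -⟩, ⟨c2, c3⟩, c4, c5, -⟩ := hb _ (hUb _ ht)
    refine ⟨c1, fun i k => ⟨gm (t, z) (q i k), ?_⟩, fun β => ?_⟩
    · rw [← gm_mul (c3 i k) (b3.ana_pf t),
        ← gm_add ((c3 i k).fun_mul (b3.ana_pf t)) ((b4 i k).ana_pf t)]
      exact gm_congr (c1 i k) (c5.mono fun x hx => hx i k)
    · choose β hβ e using fun k => gm_surj (t, z) (β k)
      obtain ⟨c, hc⟩ := (inV_iff c1 fun k => (hβ k).fun_mul (b3.ana_pf t)).1
        (InV.congr (inV_dt C₀ c1 fun k => c2.fun_mul (hβ k)) (c4.mono fun x hx k => by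
          rw [hx]; ring))
      exact ⟨c, fun k => by rw [← hc, gm_mul (hβ k) (b3.ana_pf t), e]⟩
  let σ := (Fintype.equivFin (κ × Fin b)).symm
  let τ := (Fintype.equivFin (ι × Fin b)).symm
  refine ⟨U, Ω, _, _, fun a => gen κ b (σ a), fun i a => S (τ i) (σ a).1 (σ a).2,
    fun x hx => (hb x (hUb x hx)).1.2, ⟨oU, oΩ, ⟨Metric.mem_ball_self hε, mΩ⟩, fun x hx => hx.2, hGU,
      fun a k x _ => ana_gen _ _ _, fun i a z hz => (hΩ z hz).2.2.2 _ _ _,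
      fun z hz => Pres.equiv τ σ (hpr z hz), fun z hz => Pres.sp (Pres.equiv τ σ (hpr z hz)) hGU
        (fun a k x _ => ana_gen _ _ _) fun i a => (hΩ z hz).2.2.2 _ _ _, fun z _ => ?_,
      fun x hx hs e => ?_, fun K hK cK => ?_⟩, fun a j x x' e => by simp only [gen, e]⟩
  · refine ((finite_setOfPred_isRoot (hm z).1.ne_zero).image fun t => (t, z)).subset ?_
    rintro ⟨t, _⟩ ⟨h1, h2, rfl⟩
    exact ⟨t, hz _ h1 h2, rfl⟩
  · obtain ⟨t, y⟩ := x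
    cases e
    rw [h0 t (hz _ hx hs)]
  · have oV : IsOpen (U ∩ (Sp G)ᶜ) := isOpen_iff_mem_nhds.2 fun x hx =>
      inter_mem (oU.mem_nhds hx.1) (notMem_ev hx.2 fun i k => hGU i k x hx.1)
    have e : U ∩ Sp G ∩ Prod.snd ⁻¹' K = (Metric.closedBall t₀ (ε / 2) ×ˢ K) \ (U ∩ (Sp G)ᶜ) := by
      refine Set.ext fun x => ⟨fun hx => ⟨⟨mem_closedBall_iff_norm.2
        ((hΩ _ hx.1.1.2).1.1 _ (hz x hx.1.1 hx.1.2)).le, hx.2⟩, fun k => k.2 hx.1.2⟩, fun hx => ?_⟩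
      have h1 : x ∈ U := ⟨Metric.closedBall_subset_ball (half_lt_self hε) hx.1.1, hK hx.1.2⟩
      exact ⟨⟨h1, by_contra fun k => hx.2 ⟨h1, k⟩⟩, hx.1.2⟩
    exact e ▸ ((isCompact_closedBall t₀ _).prod cK).diff oV

end Pu

/-- **PUSH** -/
theorem push_of (H : PSA) : PUSH := fun _ _ _ _ _ _ _ _ G x₀ hG hc => Pu.push H G x₀ hG hc

end Vale.Agent.P281Z.El
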