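import Vale.Agent.P281Z.El.Sk
import Vale.Agent.P277Z.Oka.All

/-!
# P281Z, elimination of indeterminacy: the rank does not depend on the projection
-/

open scoped Manifold ContDiff Topology
open Set Filter Function
open Vale.Agent.P272.K
open Vale.Agent.P277Z (Hol gW gW_eq_iff gW_add gW_sub gW_mul gW_pow gW_surj gW_comp at_chart
  hol_const hol_comp)
open Vale.Agent.P277Z.Oka (gm gm_eq gm_surj gm_eq_iff gm_congr gm_sum gm_zero gm_eq_zero nul_all noe)
open Vale.Agent.P298.H941 (O)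

noncomputable section

namespace Vale.Agent.P281Z.El

namespace Rki

section alg

variable {R S S' : Type} [CommRing R] [CommRing S] [CommRing S'] [IsDomain S] [IsDomain S']
  [a : Algebra S R] [a' : Algebra S' R]

theorem rank_add (S : Type) [CommRing S] [IsDomain S] [Algebra S R] {A : Type} [AddCommGroup A]
    [Module R A] [Module S A] [IsScalarTower S R A] (B : Submodule R A) :
    Module.rank S A = Module.rank S (A ⧸ B) + Module.rank S B := by
  rw [← rank_quotient_add_rank_of_isDomain (B.restrictScalars S),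
    (Submodule.Quotient.restrictScalarsEquiv S B).rank_eq]
  rfl

theorem rank_eq {p : Ideal R} {ε : S → S'} (hε : Bijective ε)
    (hp : ∀ s, algebraMap S' R (ε s) - algebraMap S R s ∈ p) (N : ℕ) :
    ∀ (A : Type) [AddCommGroup A] [Module R A] [Module S A] [Module S' A] [IsScalarTower S R A]
      [IsScalarTower S' R A], (∀ a ∈ p ^ N, ∀ x : A, a • x = 0) →
      Module.rank S A = Module.rank S' A := by
  have key : ∀ (A : Type) [AddCommGroup A] [Module R A] [Module S A] [Module S' A]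
      [IsScalarTower S R A] [IsScalarTower S' R A], (∀ a ∈ p, ∀ x : A, a • x = 0) →
      Module.rank S A = Module.rank S' A := fun A _ _ _ _ _ _ h =>
    rank_eq_of_equiv_equiv ε (AddEquiv.refl A) hε fun s x => by
      have k := h _ (hp s) x
      rw [sub_smul, sub_eq_zero, algebraMap_smul, algebraMap_smul] at k
      exact k.symm
  induction N with
  | zero => exact fun A _ _ _ _ _ _ h => key A fun a _ => h a (by simp)
  | succ N ih =>
    intro A _ _ _ _ _ _ h
    rw [rank_add S (Submodule.torsionBySet R A p), rank_add S' (Submodule.torsionBySet R A p),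
      ih _ fun a ha x => ?_, key _ fun a ha x => Subtype.ext
        ((Submodule.mem_torsionBySet_iff _ _).1 x.2 ⟨a, ha⟩)]
    obtain ⟨x, rfl⟩ := Submodule.Quotient.mk_surjective _ x
    rw [← Submodule.Quotient.mk_smul, Submodule.Quotient.mk_eq_zero, Submodule.mem_torsionBySet_iff]
    intro b
    rw [smul_smul, mul_comm]
    exact h _ (pow_succ p N ▸ Ideal.mul_mem_mul ha b.2) x

variable (S) in
/-- the `b i` are a basis of the quotient by `I` -/
def Bq (I : Ideal R) {m : ℕ} (b : Fin m → R) : Prop :=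
  (∀ g, ∃ c : Fin m → S, g - ∑ i, algebraMap S R (c i) * b i ∈ I) ∧
    ∀ c : Fin m → S, ∑ i, algebraMap S R (c i) * b i ∈ I → ∀ i, c i = 0

theorem Bq.rank {I : Ideal R} {m : ℕ} {b : Fin m → R} (hb : Bq S I b) :
    Module.rank S (R ⧸ I) = m := by
  have h : ∀ c : Fin m → S, ∑ i, c i • Ideal.Quotient.mk I (b i) =
      Ideal.Quotient.mk I (∑ i, algebraMap S R (c i) * b i) := fun c => by
    rw [map_sum]
    exact Finset.sum_congr rfl fun i _ => by rw [← Algebra.smul_def]; rfl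
  rw [rank_eq_card_basis (Module.Basis.mk (v := fun i => Ideal.Quotient.mk I (b i))
    (Fintype.linearIndependent_iff.2 fun c hc => hb.2 c
      (Ideal.Quotient.eq_zero_iff_mem.1 ((h c).symm.trans hc))) fun g _ => ?_), Fintype.card_fin]
  obtain ⟨g, rfl⟩ := Ideal.Quotient.mk_surjective g
  obtain ⟨c, hc⟩ := hb.1 g
  exact (Submodule.mem_span_range_iff_exists_fun S).2
    ⟨c, (h c).trans (Ideal.Quotient.eq.2 hc).symm⟩

theorem Bq.eq {p I : Ideal R} {ε : S → S'} (hε : Bijective ε)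
    (hp : ∀ s, algebraMap S' R (ε s) - algebraMap S R s ∈ p) {N m m' : ℕ} (hN : p ^ N ≤ I)
    {b : Fin m → R} {b' : Fin m' → R} (hb : Bq S I b) (hb' : Bq S' I b') : m = m' :=
  Nat.cast_injective (hb.rank.symm.trans ((rank_eq hε hp N (R ⧸ I) fun a ha x => by
    obtain ⟨x, rfl⟩ := Ideal.Quotient.mk_surjective x
    exact Ideal.Quotient.eq_zero_iff_mem.2 (I.mul_mem_right x (hN ha))).trans hb'.rank))

end alg

theorem exists_pb {E E' : Type} [NormedAddCommGroup E] [NormedSpace ℂ E] [NormedAddCommGroup E']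
    [NormedSpace ℂ E'] {Φ : E' → E} {x' : E'} {x : E} (hΦ : AnalyticAt ℂ Φ x') (e : Φ x' = x) :
    ∃ φ : O E →+* O E', ∀ c, AnalyticAt ℂ c x → φ (gm x c) = gm x' fun z => c (Φ z) := by
  refine ⟨(P298.H941.pull (fun z => Φ (x' + z) - x) ((hΦ.comp_of_eq
    (analyticAt_const.add analyticAt_id) (add_zero x')).sub analyticAt_const)
    (by rw [add_zero, e, sub_self]) : O E →+* O E'), fun c hc => ?_⟩
  rw [gm_eq hc, gm_eq (f := fun z => c (Φ z)) (hc.comp_of_eq hΦ e)]
  exact P298.H941.mk_congr _ _ (.of_forall fun z => by simp only [add_sub_cancel])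

variable {n D r : ℕ} {X : Mf n} {W : Mf D} {Γ : Set (X.prod W).X} {y : X.X} {w : W.X}
  {a b : W.X → ℂ} {f : W.X → Cm r} {σ : Cm r → W.X} {e : Chart D W.X}

theorem hol_pair (y : X.X) (w : W.X) : HolA D (n + D) (fun x => X.pair W y x) w :=
  ((holM_const y).pair holM_id).at w

theorem fi_congr (h : Fi Γ y w a) (k : ∀ᶠ x in 𝓝 w, a x = b x) : Fi Γ y w b :=
  let ⟨g, h1, h2, h3⟩ := h
  ⟨g, h1, h2, by filter_upwards [h3, k] with x p q using q ▸ p⟩

/-- the ideal of the fibre -/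
def I (Γ : Set (X.prod W).X) (y : X.X) (he : At e w) : Ideal (O (Cm D)) where
  carrier := {g | ∃ a, Hol D a w ∧ gW e w a = g ∧ Fi Γ y w a}
  zero_mem' := ⟨fun _ => 0, hol_const 0 w, gm_zero _, fun _ => 0, hol_const 0 _,
    .of_forall fun _ _ => rfl, .of_forall fun _ => rfl⟩
  add_mem' := by
    rintro _ _ ⟨a, ha, rfl, g, h1, h2, h3⟩ ⟨b, hb, rfl, g', k1, k2, k3⟩
    refine ⟨_, ha.add hb, gW_add he ha hb, _, h1.add k1, ?_, ?_⟩
    · filter_upwards [h2, k2] with z p q hz using by rw [p hz, q hz, add_zero]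
    · filter_upwards [h3, k3] with z p q using by rw [p, q]
  smul_mem' := by
    rintro c _ ⟨b, hb, rfl, g, k1, k2, k3⟩
    obtain ⟨a, ha, rfl⟩ := gW_surj he c
    refine ⟨_, ha.mul hb, gW_mul he ha hb, _, (hol_p2.hol (x := X.pair W y w) ha).mul k1, ?_, ?_⟩
    · filter_upwards [k2] with z q hz using by rw [q hz, mul_zero]
    · filter_upwards [k3] with z q using by rw [q, p2_pair]

theorem mem_I (he : At e w) (ha : Hol D a w) : gW e w a ∈ I Γ y he ↔ Fi Γ y w a :=
  ⟨fun ⟨_, hb, k, h⟩ => fi_congr h ((gW_eq_iff he hb ha).1 k), fun h => ⟨a, ha, rfl, h⟩⟩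

theorem gW_sum (he : At e w) {m : ℕ} {c : Fin m → W.X → ℂ} (hc : ∀ i, Hol D (c i) w) :
    gW e w (fun x => ∑ i, c i x) = ∑ i, gW e w (c i) := gm_sum _ fun i => hc i e he

theorem hol_f (h : AnV D f w) {c : Cm r → ℂ} (hc : AnalyticAt ℂ c (f w)) :
    Hol D (fun x => c (f x)) w := h.cmp hc

theorem bq (he : At e w) (h : AnV D f w) {φ : O (Cm r) →+* O (Cm D)}
    (hφ : ∀ c, AnalyticAt ℂ c (f w) → φ (gm (f w) c) = gW e w fun x => c (f x)) {m : ℕ}
    {b : Fin m → W.X → ℂ} (hb : Bs Γ y w f b) :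
    Bq (a := φ.toAlgebra) (O (Cm r)) (I Γ y he) fun i => gW e w (b i) := by
  have key : ∀ c : Fin m → Cm r → ℂ, (∀ i, AnalyticAt ℂ (c i) (f w)) →
      ∑ i, φ (gm (f w) (c i)) * gW e w (b i) = gW e w fun x => ∑ i, c i (f x) * b i x :=
    fun c hc => by
      rw [gW_sum he fun i => (hol_f h (hc i)).mul (hb.hol i)]
      exact Finset.sum_congr rfl fun i _ => by
        rw [gW_mul he (hol_f h (hc i)) (hb.hol i), hφ _ (hc i)]
  have hs : ∀ c : Fin m → Cm r → ℂ, (∀ i, AnalyticAt ℂ (c i) (f w)) →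
      Hol D (fun x => ∑ i, c i (f x) * b i x) w := fun c hc =>
    .sum _ fun i _ => (hol_f h (hc i)).mul (hb.hol i)
  refine ⟨fun g => ?_, fun c hc i => ?_⟩
  · obtain ⟨a, ha, rfl⟩ := gW_surj he g
    obtain ⟨c, hc, k⟩ := hb.gen a ha
    refine ⟨fun i => gm (f w) (c i), ?_⟩
    have k' := (mem_I he (ha.sub (hs c hc))).2 k
    rwa [gW_sub he ha (hs c hc), ← key c hc] at k'
  · choose c' hc' k using fun i => gm_surj (f w) (c i)
    obtain rfl : c = fun i => gm (f w) (c' i) := funext fun i => (k i).symm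
    exact (gm_eq_zero (hc' i)).2 (hb.ind c' hc' ((mem_I he (hs c' hc')).1 (key c' hc' ▸ hc)) i)

theorem an_s (h : Sh Γ y w f σ) (he : At e w) : AnalyticAt ℂ (fun s => e (σ s)) (f w) :=
  (contMDiffAt_iff_contDiffAt.1 (ContMDiffAt.comp (f w) (g := e)
    (by rw [h.ctr]; exact chart_contMDiffAt he) h.hol)).analyticAt

theorem tendsto_s (h : Sh Γ y w f σ) : Tendsto σ (𝓝 (f w)) (𝓝 w) := by
  simpa only [h.ctr] using h.hol.cont.tendsto

theorem an_comp (h : Sh Γ y w f σ) (ha : Hol D a w) : AnalyticAt ℂ (fun s => a (σ s)) (f w) := by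
  have he := at_chart (n := D) w
  refine ((ha _ he).comp_of_eq (an_s h he) (by rw [h.ctr])).congr ?_
  filter_upwards [(tendsto_s h).eventually (P277Z.At.left he)] with s hs using congrArg a hs

theorem homs (h : Sh Γ y w f σ) (he : At e w) :
    ∃ (φ : O (Cm r) →+* O (Cm D)) (τ : O (Cm D) →+* O (Cm r)),
      (∀ c, AnalyticAt ℂ c (f w) → φ (gm (f w) c) = gW e w fun x => c (f x)) ∧
      (∀ a, Hol D a w → τ (gW e w a) = gm (f w) fun s => a (σ s)) ∧ ∀ s, τ (φ s) = s := by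
  obtain ⟨φ, hφ⟩ := exists_pb (h.an e he) (x := f w) (by rw [he.left_inv])
  obtain ⟨τ, hτ⟩ := exists_pb (an_s h he) (x := e w) (by rw [h.ctr])
  have k : ∀ a, Hol D a w → τ (gW e w a) = gm (f w) fun s => a (σ s) := fun a ha =>
    (hτ _ (ha e he)).trans (gm_congr (an_comp h ha) (by
      filter_upwards [(tendsto_s h).eventually (P277Z.At.left he)] with s hs
        using (congrArg a hs).symm)).symm
  refine ⟨φ, τ, hφ, k, fun s => ?_⟩
  obtain ⟨c, hc, rfl⟩ := gm_surj (f w) s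
  exact (congrArg τ (hφ c hc)).trans ((k _ (hol_f h.an hc)).trans
    (gm_congr hc (h.sec.mono fun s hs => (congrArg c hs).symm)).symm)

theorem nilp (hΓ : An (n + D) Γ) (h : Sh Γ y w f σ) (he : At e w) {τ : O (Cm D) →+* O (Cm r)}
    (hτ : ∀ a, Hol D a w → τ (gW e w a) = gm (f w) fun s => a (σ s)) :
    ∃ N, RingHom.ker τ ^ N ≤ I Γ y he := by
  have := noe (Cm D)
  refine Ideal.exists_pow_le_of_le_radical_of_fg (fun g hg => ?_) (IsNoetherian.noetherian _)
  obtain ⟨a, ha, rfl⟩ := gW_surj he g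
  obtain ⟨m, g, h1, h2⟩ := hΓ (X.pair W y w)
  have h3 : ∀ i, Hol D (fun x => g i (X.pair W y x)) w := fun i => (hol_pair y w).hol (h1 i)
  obtain ⟨N, c, hc, k⟩ := nul_all (Cm D) (Fin m) (e w) _ (fun i => h3 i e he) _ (ha e he)
    (at_ev he (P := fun x => (∀ i, g i (X.pair W y x) = 0) → a x = 0) (by
      filter_upwards [(hol_pair y w).cont.eventually h2, h.sub, h.an.cont.eventually
        ((gm_eq_zero (an_comp h ha)).1 ((hτ a ha).symm.trans hg))] with x p q s t
      rwa [q (p.2 t)] at s))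
  refine ⟨N, ?_⟩
  rw [← gW_pow he ha, (gW_eq_iff he (ha.pow N) (.sum _ fun i _ =>
    (hol_comp he (hc i)).mul (h3 i))).2 ((P277Z.At.ev he).1 ?_),
    gW_sum he fun i => (hol_comp he (hc i)).mul (h3 i)]
  · refine Ideal.sum_mem _ fun i _ => ?_
    rw [gW_mul he (hol_comp he (hc i)) (h3 i)]
    exact Ideal.mul_mem_left _ _ ((mem_I he (h3 i)).2
      ⟨g i, h1 i, h2.mono fun z p q => p.1 q i, .of_forall fun _ => rfl⟩)
  · filter_upwards [k, P277Z.At.right he] with z p q using by rw [p, q]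

theorem retr {f' : W.X → Cm r} {σ' : Cm r → W.X} (h : Sh Γ y w f σ) (h' : Sh Γ y w f' σ')
    (he : At e w) {φ' : O (Cm r) →+* O (Cm D)} {τ τ' : O (Cm D) →+* O (Cm r)}
    (hφ : ∀ c, AnalyticAt ℂ c (f' w) → φ' (gm (f' w) c) = gW e w fun x => c (f' x))
    (hτ : ∀ a, Hol D a w → τ (gW e w a) = gm (f w) fun s => a (σ s))
    (hτ' : ∀ a, Hol D a w → τ' (gW e w a) = gm (f' w) fun s => a (σ' s))
    (k : ∀ᶠ s in 𝓝 (f w), σ' (f' (σ s)) = σ s) (g : O (Cm D)) : τ (φ' (τ' g)) = τ g := by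
  obtain ⟨a, ha, rfl⟩ := gW_surj he g
  rw [hτ' a ha, hφ _ (an_comp h' ha), hτ _ (hol_f h'.an (an_comp h' ha)), hτ a ha]
  exact (gm_congr (an_comp h ha) (k.mono fun s hs => (congrArg a hs).symm)).symm

end Rki

open Rki in
theorem rki : RKI := by
  rintro n D X W Γ hΓ r m m' y w f f' σ σ' h h' k k' ⟨b, hb⟩ ⟨b', hb'⟩
  have he := at_chart (n := D) w
  obtain ⟨φ, τ, h1, h2, h3⟩ := homs h he
  obtain ⟨φ', τ', k1, k2, k3⟩ := homs h' he
  obtain ⟨N, hN⟩ := nilp hΓ h' he k2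
  refine Bq.eq (a := φ.toAlgebra) (a' := φ'.toAlgebra) (ε := fun s => τ' (φ s))
    (bijective_iff_has_inverse.2 ⟨fun s => τ (φ' s),
      fun s => (retr h h' he k1 h2 k2 k _).trans (h3 s),
      fun s => (retr h' h he h1 k2 h2 k' _).trans (k3 s)⟩) (fun s => ?_) hN
    (bq he h.an h1 hb) (bq he h'.an k1 hb')
  change τ' (φ' (τ' (φ s)) - φ s) = 0
  rw [map_sub, k3, sub_self]

end Vale.Agent.P281Z.El
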