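import Vale.Agent.P281Z.El.Sk
import Vale.Agent.P281Z.Fi.Top
import Vale.Agent.P281Z.Mf.Fib

/-!
# P281Z, elimination of indeterminacy: the components of the regular fibres
-/

open scoped Manifold ContDiff Topology
open Set Filter Function
open Vale.Agent.P272.K
open Vale.Agent.P277Z.Slc (Snc)

noncomputable section

namespace Vale.Agent.P281Z.El

namespace TubeH

section top

variable {F V B : Type} [TopologicalSpace F] [TopologicalSpace V] [TopologicalSpace B]

theorem cc_img {i : F → V} (hi : Topology.IsEmbedding i) (x : F) :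
    connectedComponentIn (range i) (i x) = i '' connectedComponent x := by
  refine subset_antisymm (fun u hu => ?_) ((isPreconnected_connectedComponent.image i
    hi.continuous.continuousOn).subset_connectedComponentIn ⟨x, mem_connectedComponent, rfl⟩
      (image_subset_range _ _))
  have h1 := connectedComponentIn_subset (range i) (i x)
  have h2 : IsPreconnected (i ⁻¹' connectedComponentIn (range i) (i x)) := by
    rw [← hi.isInducing.isPreconnected_image, image_preimage_eq_of_subset h1]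
    exact isPreconnected_connectedComponentIn
  obtain ⟨y, rfl⟩ := h1 hu
  exact ⟨y, h2.subset_connectedComponent (mem_connectedComponentIn (mem_range_self x)) hu, rfl⟩

theorem cst_top {A : Set F} (hA : Dense A)
    (hl : ∀ x, ∃ O, IsOpen O ∧ x ∈ O ∧ IsPreconnected (O ∩ A)) {β : Type} {P : F → β}
    (hP : ∀ x ∈ A, ∀ᶠ y in 𝓝 x, P y = P x) {x y : F} (hx : x ∈ A) (hy : y ∈ A)
    (h : y ∈ connectedComponent x) : P y = P x := by
  have ex : ∀ x, ∃ c, ∀ᶠ a in 𝓝 x, a ∈ A → P a = c := fun x => by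
    obtain ⟨O, h1, h2, h3⟩ := hl x
    obtain ⟨a, a1, a2⟩ := hA.inter_open_nonempty O h1 ⟨x, h2⟩
    refine ⟨P a, (h1.eventually_mem h2).mono fun b b1 b2 => ?_⟩
    exact h3.induction₂ (fun a b => P a = P b) (fun a ha =>
      mem_nhdsWithin_of_mem_nhds ((hP a ha.2).mono fun _ => Eq.symm))
      (fun _ _ _ _ _ _ => Eq.trans) (fun _ _ _ _ => Eq.symm) ⟨b1, b2⟩ ⟨a1, a2⟩
  choose Q hQ using ex
  have k : Q x = Q y := isPreconnected_connectedComponent.induction₂ (fun a b => Q a = Q b)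
    (fun a _ => mem_nhdsWithin_of_mem_nhds ((hQ a).eventually_nhds.mono fun b hb => by
      obtain ⟨c, c1, c2, c3⟩ := ((mem_closure_iff_frequently.1 (hA b)).and_eventually
        (hb.and (hQ b))).exists
      exact (c2 c1).symm.trans (c3 c1)))
    (fun _ _ _ _ _ _ => Eq.trans) (fun _ _ _ _ => Eq.symm) mem_connectedComponent h
  rw [(hQ y).self_of_nhds hy, (hQ x).self_of_nhds hx, k]

theorem tube_top [CompactSpace F] [LocallyConnectedSpace F] [CompactSpace V] [T2Space V]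
    [T2Space B] {i : F → V} (hi : Topology.IsEmbedding i) {g : V → B} (hg : Continuous g) {b : B}
    (hr : range i = g ⁻¹' {b}) (hL : ∀ v, g v = b → Fi.LP g v) {A : Set V} (hA : IsOpen A)
    (hd : Dense (i ⁻¹' A)) :
    ∃ (ν : ℕ) (v : Fin ν → V), ((∀ k, g (v k) = b ∧ v k ∈ A) ∧
      ∀ u, g u = b → ∃! k, u ∈ connectedComponentIn (g ⁻¹' {b}) (v k)) ∧
      ∀ N : Fin ν → Set V, (∀ k, N k ∈ 𝓝 (v k)) → ∀ᶠ b' in 𝓝 b, ∃ v' : Fin ν → V,
        (∀ k, v' k ∈ N k) ∧ (∀ k, g (v' k) = b' ∧ v' k ∈ A) ∧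
          ∀ u, g u = b' → ∃! k, u ∈ connectedComponentIn (g ⁻¹' {b'}) (v' k) := by
  obtain ⟨ν, ⟨ε⟩⟩ := Finite.exists_equiv_fin (ConnectedComponents F)
  have ex : ∀ k, ∃ x, i x ∈ A ∧ ε (ConnectedComponents.mk x) = k := fun k => by
    obtain ⟨y, hy⟩ := ConnectedComponents.surjective_coe (ε.symm k)
    obtain ⟨x, x1, x2⟩ := hd.inter_open_nonempty _ isOpen_connectedComponent
      ⟨y, mem_connectedComponent⟩
    exact ⟨x, x2, by rw [ConnectedComponents.coe_eq_coe'.2 x1, hy, ε.apply_symm_apply]⟩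
  choose x x1 x2 using ex
  have hm : ∀ k y, y ∈ connectedComponent (x k) ↔ ε (ConnectedComponents.mk y) = k := fun k y => by
    rw [← ConnectedComponents.coe_eq_coe', ← ε.injective.eq_iff, x2]
  have hb : ∀ y, g (i y) = b := fun y => (hr ▸ mem_range_self y : i y ∈ g ⁻¹' {b})
  refine ⟨ν, fun k => i (x k), ⟨fun k => ⟨hb _, x1 k⟩, fun u hu => ?_⟩, fun N hN => ?_⟩
  · obtain ⟨y, rfl⟩ : u ∈ range i := hr ▸ hu
    simp only [← hr, cc_img hi, hi.injective.mem_set_image, hm]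
    exact ⟨_, rfl, fun _ => Eq.symm⟩
  have hK : ∀ k, IsCompact (i '' connectedComponent (x k)) := fun k =>
    isClosed_connectedComponent.isCompact.image hi.continuous
  have hp : Pairwise (Disjoint on fun k => 𝓝ˢ (i '' connectedComponent (x k))) := fun k l h =>
    separatedNhds_iff_disjoint.1 (SeparatedNhds.of_isCompact_isCompact (hK k) (hK l)
      ((disjoint_image_iff hi.injective).2 (disjoint_left.2 fun y a c =>
        h (((hm k y).1 a).symm.trans ((hm l y).1 c)))))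
  obtain ⟨U, u1, u2⟩ := hp.exists_mem_filter_basis_of_disjoint fun k => hasBasis_nhdsSet _
  choose O o1 o2 o3 o4 using fun k => Fi.tube (f := g) (z := b) (hK k)
    (isConnected_connectedComponent.image i hi.continuous.continuousOn)
    (by rintro _ ⟨y, -, rfl⟩; exact ⟨hb y, hL _ (hb y)⟩) (u1 k).1 (u1 k).2
  have hd : ∀ k l u, u ∈ O k → u ∈ O l → k = l := fun k l u a c =>
    by_contra fun h => disjoint_left.1 (u2 h) (o3 k a) (o3 l c)
  have h1 : ∀ k, ∀ᶠ b' in 𝓝 b, ∃ v' ∈ N k ∩ (O k ∩ A), g v' = b' := fun k =>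
    hb (x k) ▸ (hL _ (hb _)).ev (inter_mem (hN k) (((o1 k).inter hA).mem_nhds
      ⟨o2 k ⟨_, mem_connectedComponent, rfl⟩, x1 k⟩))
  filter_upwards [eventually_all.2 o4, eventually_all.2 h1, Fi.ev_sub hg (isOpen_iUnion o1)
    (by
      rw [← hr]
      rintro _ ⟨y, rfl⟩
      exact mem_iUnion.2 ⟨_, o2 _ ⟨y, (hm _ y).2 rfl, rfl⟩⟩)] with b' k1 k2 k3
  choose v' v1 v2 using k2
  refine ⟨v', fun k => (v1 k).1, fun k => ⟨v2 k, (v1 k).2.2⟩, fun u hu => ?_⟩
  obtain ⟨k, hk⟩ := mem_iUnion.1 (k3 hu)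
  refine ⟨k, (k1 k).subset_connectedComponentIn ⟨(v1 k).2.1, v2 k⟩ inter_subset_right ⟨hk, hu⟩,
    fun l hl => hd l k u ?_ hk⟩
  refine IsPreconnected.subset_left_of_subset_union (v := ⋃ m, ⋃ (_ : m ≠ l), O m) (o1 l)
    (isOpen_iUnion fun m => isOpen_iUnion fun _ => o1 m) (disjoint_left.2 fun w a c => ?_)
    (fun w hw => ?_) ⟨v' l, mem_connectedComponentIn (v2 l), (v1 l).2.1⟩
    isPreconnected_connectedComponentIn hl
  · obtain ⟨m, m1, m2⟩ := mem_iUnion₂.1 c
    exact m1 (hd m l w m2 a)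
  · obtain ⟨m, hm⟩ := mem_iUnion.1 (k3 (connectedComponentIn_subset _ _ hw))
    by_cases c : m = l
    · exact .inl (c ▸ hm)
    · exact .inr (mem_iUnion₂.2 ⟨m, c, hm⟩)

end top

end TubeH

open TubeH

/-- **TUBE** -/
theorem tube : TUBE := by
  intro n D d X₀ W L h b hb
  obtain ⟨F, i, hi, hS⟩ := (h.reg b hb).fib rfl h.hg h.snc
  have := ChartedSpace.locallyConnectedSpace (Cm (d + 1)) F.X
  exact tube_top hi.cemb.isEmbedding h.hg.cont hi.rng
    (fun v hv => Fi.lp_of_sbm ((h.reg b hb).sbm h.hg h.snc hv) (h.hg.at v)) (snc_open_off h.snc)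
    (snc_dense_off hS)

/-- **CST** -/
theorem cst : CST := by
  intro n D d X₀ W L h b β P hb hP u hu u' hu' hc
  obtain ⟨F, i, hi, hS⟩ := (h.reg b hb).fib rfl h.hg h.snc
  obtain ⟨x, rfl⟩ := hi.ex (connectedComponentIn_nonempty_iff.1 ⟨u', hc⟩)
  rw [← hi.rng, cc_img hi.cemb.isEmbedding] at hc
  obtain ⟨y, hy, rfl⟩ := hc
  refine cst_top (P := fun x => P (i x)) (snc_dense_off hS) (fun x => ?_) (fun x hx => ?_) hu hu' hy
  · obtain ⟨O, h1, h2, -, h3⟩ := (snc_thin_off hS).loc_conn x univ_mem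
    exact ⟨O, h1, h2, by rwa [sdiff_compl] at h3⟩
  · exact (hi.hol.cont.continuousAt.eventually (hP _ hx (hi.fib x))).mono fun y k => k (hi.fib y)

end Vale.Agent.P281Z.El
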