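import Vale.Agent.P281Z.El.Sk
import Vale.Agent.P281Z.An.Reml
import Vale.Agent.P281Z.Mf.Adapt
import Vale.Agent.P281Z.Mf.Fib

/-!
# P281Z, elimination of indeterminacy: transversal projections
-/

open scoped Manifold ContDiff Topology
open Set Filter Function
open Vale.Agent.P272.K
open Vale.Agent.P277Z (Hol at_chart)
open Vale.Agent.P277Z.Slc (Ind dd ind_iff_surj)
open Vale.Agent.P277.H762 (Cv)
open Vale.Agent.P281Z.Ana (rk rkM dC rk_dC dC_clm an_near rkM_lsc cv_man factor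
  rk_eq_iff_surj rk_le_right rk_le_left)

noncomputable section

namespace Vale.Agent.P281Z.El

namespace TvH

section man

variable {m N : ℕ} {F : Type} [TopologicalSpace F] [ChartedSpace (Cm m) F]
  [IsManifold 𝓘(ℂ, Cm m) ω F] {t : F → Cm N} {x : F}

theorem near (h : AnV m t x) : ∀ᶠ y in 𝓝 x, AnV m t y := an_near h

theorem ind (h : AnV m t x) (hr : N ≤ rkM m t x) : Ind m (fun a y => t y a) x := by
  have he := at_chart (n := m) x
  refine Ind.of_chart h.hol he ((ind_iff_surj _).2 ?_)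
  have k := fderiv_pi fun a => (h.hol a _ he).differentiableAt
  have k' := (rk_eq_iff_surj _).1 (le_antisymm (rk_le_right _) hr)
  unfold dC at k'
  exact k ▸ k'

theorem proj {c : ℕ} (h : AnV m t x) (hc : c ≤ rkM m t x) :
    ∃ π : Cm N →L[ℂ] Cm c, c ≤ rkM m (fun y => π (t y)) x := by
  obtain ⟨σ, τ, k⟩ := (Ana.minor _ _ _ _).1 hc
  refine ⟨ContinuousLinearMap.pi fun a => ContinuousLinearMap.proj (σ a), ?_⟩
  rw [rkM, dC_clm h _ (at_chart x)]
  exact (Ana.minor _ _ _ _).2 ⟨id, τ, k⟩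

/-- a map with countable fibres is an immersion at some points near `x` -/
theorem cnt (h : AnV m t x) {U : Set F} (hU : U ∈ 𝓝 x)
    (hc : ∀ s, {y | y ∈ U ∧ t y = s}.Countable) : ∃ᶠ y in 𝓝 x, m ≤ rkM m t y := by
  intro hn
  obtain ⟨O, h1, h2, h3⟩ := eventually_nhds_iff.1 (hn.and ((near h).and hU))
  have hb : BddAbove (rkM m t '' O) := ⟨m, by
    rintro _ ⟨y, hy, rfl⟩
    exact (not_le.1 (h1 y hy).1).le⟩
  obtain ⟨y, hy, hmax⟩ := Nat.sSup_mem ⟨_, mem_image_of_mem (rkM m t) h3⟩ hb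
  have hlt : rkM m t y < m := not_le.1 (h1 y hy).1
  have ha := (h1 y hy).2.1
  obtain ⟨π, hπ⟩ := proj ha le_rfl
  have hO := h2.mem_nhds hy
  obtain ⟨α, -, k1⟩ := factor π ha (by
    filter_upwards [hO] with z hz
    exact hmax ▸ le_csSup hb (mem_image_of_mem _ hz)) hπ
  obtain ⟨Θ, -, t2, t3, t4⟩ := exists_co (ind (ha.cmp (π.analyticAt _)) hπ) (d := m - rkM m t y)
    (by simpa using Nat.add_sub_cancel' hlt.le) (k1.and hO)
  have : Nonempty (Fin (m - rkM m t y)) := ⟨⟨0, by omega⟩⟩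
  have k2 : {u | ((Θ y).1, u) ∈ Θ.target} ∈ 𝓝 (Θ y).2 :=
    (Continuous.prodMk_right (Θ y).1).continuousAt.preimage_mem_nhds
      (Θ.open_target.mem_nhds (Θ.map_source t2))
  have k3 : {u | ((Θ y).1, u) ∈ Θ.target}.Countable := by
    refine ((hc (t y)).image fun z => (Θ z).2).mono fun u hu => ?_
    have l1 := Θ.map_target hu
    have l2 : π (t (Θ.symm ((Θ y).1, u))) = π (t y) :=
      (t4 _ l1).symm.trans ((congrArg Prod.fst (Θ.right_inv hu)).trans (t4 y t2))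
    refine ⟨_, ⟨(h1 _ (t3 l1).2).2.2, ?_⟩, congrArg Prod.snd (Θ.right_inv hu)⟩
    rw [(t3 l1).1, l2, ← k1.self_of_nhds]
  obtain ⟨u, l1, l2⟩ := (k3.dense_compl ℂ).inter_nhds_nonempty k2
  exact l1 l2

end man

/-- the coordinates are put in the right order -/
def sw (p r : ℕ) : (((Fin r ⊕ Fin p) → ℂ) × Cm 0) ≃L[ℂ] Cm p × Cm r :=
  LinearEquiv.toContinuousLinearEquiv
    { toFun := fun w => (fun a => w.1 (.inr a), fun a => w.1 (.inl a))
      invFun := fun q => (Sum.elim q.2 q.1, 0)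
      map_add' := fun _ _ => rfl
      map_smul' := fun _ _ => rfl
      left_inv := fun _ => Prod.ext (funext fun a => by cases a <;> rfl) (Subsingleton.elim _ _)
      right_inv := fun _ => rfl }

variable {n D d : ℕ} {X₀ : Mf n} {W : Mf D} {L : Lab X₀ W d} {f : W.X → Cm (d + 1)} {b : L.B.X}
  {F : Mf (d + 1)} {i : F.X → L.V.X}

theorem an (hL : L.Ok) (hi : Emb (d + 1) (L.p + (d + 1)) i (L.g ⁻¹' {b})) {x : F.X}
    (hf : AnV D f (L.j (i x))) : AnV (d + 1) (fun z => f (L.j (i z))) x :=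
  AnV.pi fun a => (hL.hj.comp hi.hol).hol (hf.hol a)

theorem crit (hL : L.Ok) (hb : L.θ b ∉ L.T') (hi : Emb (d + 1) (L.p + (d + 1)) i (L.g ⁻¹' {b}))
    {x : F.X} (hf : AnV D f (L.j (i x))) (hr : d + 1 ≤ rkM (d + 1) (fun z => f (L.j (i z))) x) :
    L.Tv f (i x) := by
  have he := at_chart (n := L.p) (L.g (i x))
  obtain ⟨Θ, t1, t2, t3, t4⟩ := exists_co (hi.ind_fib hL.hg
    ((hL.reg b hb).sbm hL.hg hL.snc (hi.fib x)) (ζ := fun a v => f (L.j v) a)
    (fun a => hL.hj.hol (hf.hol a)) he (ind (an hL hi hf) hr)) (d := 0) (by simp [add_comm])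
    (hL.hg.cont.continuousAt.eventually (at_near he))
  refine ⟨hf, _, he.1, _, t1.trans (sw L.p (d + 1)), t2, fun v hv => ⟨(t3 hv).2, ?_⟩⟩
  exact Prod.ext (funext fun a => congrFun (t4 v hv) (.inr a))
    (funext fun a => congrFun (t4 v hv) (.inl a))

theorem fibre (hL : L.Ok) (hb : L.θ b ∉ L.T') :
    ∃ (F : Mf (d + 1)) (i : F.X → L.V.X), Emb (d + 1) (L.p + (d + 1)) i (L.g ⁻¹' {b}) :=
  let ⟨F, i, h, _⟩ := (hL.reg b hb).fib rfl hL.hg hL.snc
  ⟨F, i, h⟩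

end TvH

open TvH

theorem tvx : TVX := fun _ D d _ W L hL v hv hb => by
  obtain ⟨F, i, hi⟩ := fibre hL hb
  obtain ⟨x, hx⟩ := hi.ex (y := v) rfl
  have hc := at_chart (n := d + 1) x
  have he := at_chart (n := D) (L.j (i x))
  have hg := (hL.hg.comp hi.hol).at x
  have hj := (hL.hj.comp hi.hol).at x
  have h1 : Imm (d + 1) (L.p + D) (fun z => L.B.pair W (L.g (i z)) (L.j (i z))) x :=
    Imm.comp (g := fun v => L.B.pair W (L.g v) (L.j v)) ((hL.hg.pair hL.hj).at _) (hi.hol.at x)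
      (hL.imm _ (hx ▸ hv)) (hi.imm x)
  have h2 : Injective (df (fun z => L.j (i z)) (chartAt _ x) (chartAt _ (L.j (i x))) x) :=
    (injective_iff_map_eq_zero _).2 fun u hu => (imm_pair hg hj hc (at_chart _) he).1 h1 u (by
      rw [show (fun z => L.g (i z)) = fun _ => L.g v from funext hi.fib]
      simp [df]) hu
  obtain ⟨P, hP⟩ := (df (fun z => L.j (i z)) (chartAt _ x)
    (chartAt _ (L.j (i x))) x).toLinearMap.exists_leftInverse_of_injective
      (LinearMap.ker_eq_bot.2 h2)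
  let P' : Cm D →L[ℂ] Cm (d + 1) := LinearMap.toContinuousLinearMap P
  refine ⟨fun w => P' (chartAt (Cm D) (L.j (i x)) w), hx ▸ crit hL hb hi
    ((anV_chart he).cmp (P'.analyticAt _)) ?_⟩
  rw [rkM, dC_clm (t := fun z => chartAt (Cm D) (L.j (i x)) (L.j (i z))) (hj.anV he) P' hc]
  exact ((rk_eq_iff_surj _).2 fun u => ⟨u, LinearMap.congr_fun hP u⟩).ge

theorem crv : CRV := fun _ _ d _ _ L hL b O f hb hO hf => by
  obtain ⟨F, i, hi⟩ := fibre hL hb
  refine (cv_man (t := fun z => f (L.j (i z))) (hO.preimage (hL.hj.comp hi.hol).cont)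
    (fun z hz => an hL hi (hf _ hz)) d).mono ?_
  rintro _ ⟨v, ⟨h1, h2, h3⟩, rfl⟩
  obtain ⟨x, rfl⟩ := hi.ex (y := v) h1
  exact ⟨x, ⟨h2, Nat.lt_succ_iff.1 (not_le.1 fun k => h3 (crit hL hb hi (hf _ h2) k))⟩, rfl⟩

theorem imd : IMD := fun _ _ d _ _ L hL v f hb hf ⟨N, hN, hc⟩ => by
  obtain ⟨F, i, hi⟩ := fibre hL hb
  obtain ⟨x, hx⟩ := hi.ex (y := v) rfl
  have h1 : Tendsto i (𝓝 x) (𝓝 v) := hx ▸ hi.hol.cont.continuousAt
  have h2 : Tendsto i (𝓝 x) (𝓝[L.g ⁻¹' {L.g v}] v) :=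
    tendsto_nhdsWithin_iff.2 ⟨h1, .of_forall hi.mem⟩
  have h3 := cnt (t := fun z => f (L.j (i z))) (U := i ⁻¹' N) (an hL hi (hx ▸ hf)) (h1 hN) fun s =>
    ((hc s).preimage hi.inj).mono fun y (hy : _ ∧ _) => And.intro hy.1 ⟨hi.fib y, hy.2⟩
  refine h2.frequently ((h3.and_eventually ((hL.hj.cont.continuousAt.tendsto.comp h1).eventually
    (near hf))).mono fun y hy => crit hL hb hi hy.2 hy.1)

namespace Lab

variable {n D d : ℕ} {X₀ : Mf n} {W : Mf D} {L : Lab X₀ W d} {f : W.X → Cm (d + 1)} {v : L.V.X}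

theorem Tv.near (h : L.Tv f v) (hL : L.Ok) : ∀ᶠ v' in 𝓝 v, L.Tv f v' := by
  obtain ⟨h1, β, h2, Θ, h3, h4, h5⟩ := h
  filter_upwards [hL.hj.cont.continuousAt.eventually (TvH.near h1), Θ.open_source.mem_nhds h4]
    with u k1 k2 using ⟨k1, β, h2, Θ, h3, k2, h5⟩

/-- the local inverse of `f ∘ j` on the fibre -/
theorem Tv.sec (h : L.Tv f v) : ∃ σ : Cm (d + 1) → L.V.X, σ (f (L.j v)) = v ∧
    HolA (d + 1) (L.p + (d + 1)) σ (f (L.j v)) ∧
    (∀ᶠ s in 𝓝 (f (L.j v)), L.g (σ s) = L.g v ∧ f (L.j (σ s)) = s) ∧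
    ∀ᶠ u in 𝓝 v, L.g u = L.g v → σ (f (L.j u)) = u := by
  obtain ⟨-, β, -, Θ, h3, h4, h5⟩ := h
  have k1 : (β (L.g v), f (L.j v)) ∈ Θ.target := (h5 v h4).2 ▸ Θ.map_source h4
  have k2 : AnV (d + 1) (fun s : Cm (d + 1) => (β (L.g v), s)) (f (L.j v)) :=
    (anV_const _ _).prod (anV_chart (at_chart _))
  refine ⟨fun s => Θ.symm (β (L.g v), s), ?_, h3.holA k2 k1, ?_, ?_⟩
  · exact (congrArg Θ.symm (h5 v h4).2.symm).trans (Θ.left_inv h4)
  · filter_upwards [k2.cont.eventually (Θ.open_target.mem_nhds k1)] with s hs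
    have l1 := h5 _ (Θ.map_target hs)
    have l2 := l1.2.symm.trans (Θ.right_inv hs)
    exact ⟨β.injOn l1.1 (h5 v h4).1 (congrArg Prod.fst l2), congrArg Prod.snd l2⟩
  · filter_upwards [Θ.open_source.mem_nhds h4] with u hu k
    rw [← k, ← (h5 u hu).2, Θ.left_inv hu]

theorem Tv.map (h : L.Tv f v) (hL : L.Ok) :
    map (fun u => f (L.j u)) (𝓝[L.g ⁻¹' {L.g v}] v) = 𝓝 (f (L.j v)) := by
  obtain ⟨σ, h1, h2, h3, -⟩ := h.sec
  refine le_antisymm ((h.1.cont.tendsto.comp hL.hj.cont.continuousAt.tendsto).mono_left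
    nhdsWithin_le_nhds) fun U hU => ?_
  have h4 : Tendsto σ (𝓝 (f (L.j v))) (𝓝[L.g ⁻¹' {L.g v}] v) := tendsto_nhdsWithin_iff.2
    ⟨by simpa only [ContinuousAt, h1] using h2.cont, h3.mono fun _ k => k.1⟩
  filter_upwards [h3, h4.eventually (mem_map.1 hU)] with s k1 k2 using k1.2 ▸ k2

end Lab

end Vale.Agent.P281Z.El
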