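import Vale.Agent.P281Z.El.Main
import Vale.Agent.P281Z.El.Psa
import Vale.Agent.P281Z.El.Push
import Vale.Agent.P281Z.El.Fin
import Vale.Agent.P281Z.El.Had
import Vale.Agent.P281Z.El.Coef
import Vale.Agent.P281Z.El.Dma
import Vale.Agent.P281Z.El.Dcc
import Vale.Agent.P281Z.El.Bnd
import Vale.Agent.P281Z.El.Box
import Vale.Agent.P281Z.El.Cov
import Vale.Agent.P281Z.El.F1
import Vale.Agent.P281Z.El.F2
import Vale.Agent.P281Z.El.Bsp
import Vale.Agent.P281Z.El.Rki
import Vale.Agent.P281Z.El.Blt
import Vale.Agent.P281Z.El.Genr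
import Vale.Agent.P281Z.El.Nf
import Vale.Agent.P281Z.El.Bfl
import Vale.Agent.P281Z.El.Drop
import Vale.Agent.P281Z.El.Lab
import Vale.Agent.P281Z.El.Tv
import Vale.Agent.P281Z.El.Tube
import Vale.Agent.P281Z.El.One
import Vale.Agent.P281Z.El.Mub
import Vale.Agent.P281Z.El.Phi
import Vale.Agent.P281Z.El.Low
import Vale.Agent.P281Z.El.Can1
import Vale.Agent.P281Z.El.Locd
import Vale.Agent.P281Z.El.Imp
import Vale.Agent.P281Z.El.Jmp
import Vale.Agent.P281Z.El.ExtB
import Vale.Agent.P281Z.El.Gra

/-!
# P281Z, elimination of indeterminacy over a compact Kähler manifold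
-/

namespace Vale.Agent.P281Z.El

theorem elim : ELIM :=
  have coef := coef_of had
  have spr := spr_of coef
  have box := box_of had (fin_of (push_of psa))
  have bsp := bsp_of had
  have bas := bas_of genr nf bsp
  have bfl := bfl_of coef spr genr nf (f1_of coef) (f2_of had)
  have fg := fg_of coef spr
  have zer := zer_of dma
  have one := one_of box
  have mub := mub_of genr bas rki
  have phr := phr_of tvx cst one mub
  have phi := phi_of tvx tube cst one mub (qj_of genr bfl) zer phr
  elim_of dma gra
    (locd_of genr (covb_of box) fg (can1_of dma genr bfl zer crv) (can2_of genr bfl imd) phi)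
    (cons_of jmp) extB
    (imp_of genr bas blt fg (drop_of coef genr nf bsp blt) one mub phr phi) dcc (lab_of dma)
    (bnd_of jmp) (low_of dma tvx tube cst one mub phr) end_

end Vale.Agent.P281Z.El
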