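import Vale.Agent.P281Z.El.Sk
import Vale.Agent.P277.H762.CL1

/-!
# P281Z, elimination of indeterminacy: small lemmas
-/

open scoped Manifold ContDiff Topology
open Set Filter
open Vale.Agent.P272.K Vale.Agent.P272.K.Prod
open Vale.Agent.P277Z (Hol Nz at_chart hol_const hol_comp)
open Vale.Agent.P277.H762 (Cv cv_empty cv_iUnion analyticAt_det)

set_option linter.unusedSectionVars false

noncomputable section

namespace Vale.Agent.P281Z.El

/-! ### `InV`, `Sp` -/

section loc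

variable {E Y : Type} [NormedAddCommGroup E] [NormedSpace ℂ E] [NormedAddCommGroup Y]
  [NormedSpace ℂ Y] {ι κ ι' : Type} [Fintype ι] [Fintype κ] [Fintype ι']
  {x : E} {G : ι → κ → E → ℂ} {G' : ι' → κ → E → ℂ} {v w : κ → E → ℂ}

theorem InV.congr (h : InV x G v) (k : ∀ᶠ y in 𝓝 x, ∀ a, v a y = w a y) : InV x G w :=
  let ⟨c, h1, h2⟩ := h
  ⟨c, h1, (h2.and k).mono fun _ hy a => (hy.2 a).symm.trans (hy.1 a)⟩

theorem InV.congr_gen {G₁ : ι → κ → E → ℂ} (h : InV x G v)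
    (k : ∀ᶠ y in 𝓝 x, ∀ i a, G i a y = G₁ i a y) : InV x G₁ v :=
  let ⟨c, h1, h2⟩ := h
  ⟨c, h1, (h2.and k).mono fun _ hy a => by simp only [hy.1 a, hy.2]⟩

theorem inV_zero : InV x G fun _ _ => 0 :=
  ⟨fun _ _ => 0, fun _ => analyticAt_const, .of_forall fun _ _ => by simp⟩

theorem InV.add (h : InV x G v) (h' : InV x G w) : InV x G fun a y => v a y + w a y :=
  let ⟨c, h1, h2⟩ := h
  let ⟨c', h1', h2'⟩ := h'
  ⟨fun i y => c i y + c' i y, fun i => (h1 i).fun_add (h1' i), (h2.and h2').mono fun _ hy a => by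
    simp only [hy.1 a, hy.2 a, add_mul, Finset.sum_add_distrib]⟩

theorem InV.smul {u : E → ℂ} (h : InV x G v) (hu : AnalyticAt ℂ u x) :
    InV x G fun a y => u y * v a y :=
  let ⟨c, h1, h2⟩ := h
  ⟨fun i y => u y * c i y, fun i => hu.fun_mul (h1 i), h2.mono fun _ hy a => by
    simp only [hy a, Finset.mul_sum, mul_assoc]⟩

theorem InV.neg (h : InV x G v) : InV x G fun a y => -v a y :=
  (h.smul (analyticAt_const (v := (-1 : ℂ)))).congr (.of_forall fun _ _ => by simp)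

theorem InV.sub (h : InV x G v) (h' : InV x G w) : InV x G fun a y => v a y - w a y :=
  (h.add h'.neg).congr (.of_forall fun _ _ => (sub_eq_add_neg _ _).symm)

theorem InV.sum {α : Type} (s : Finset α) {v : α → κ → E → ℂ} (h : ∀ l ∈ s, InV x G (v l)) :
    InV x G fun a y => ∑ l ∈ s, v l a y := by
  classical
  induction s using Finset.induction_on with
  | empty => simpa using inV_zero
  | insert l s hl ih =>
    simp only [Finset.sum_insert hl]
    exact (h l (Finset.mem_insert_self _ _)).add (ih fun l hl => h l (Finset.mem_insert_of_mem hl))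

theorem InV.eventually [CompleteSpace E] (h : InV x G v) : ∀ᶠ y in 𝓝 x, InV y G v := by
  obtain ⟨c, h1, h2⟩ := h
  filter_upwards [eventually_all.2 fun i => (h1 i).eventually_analyticAt,
    h2.eventually_nhds] with y k1 k2 using ⟨c, k1, k2⟩

theorem InV.comp {φ : Y → E} {y : Y} (h : InV (φ y) G v) (hφ : AnalyticAt ℂ φ y) :
    InV y (fun i a z => G i a (φ z)) fun a z => v a (φ z) :=
  let ⟨c, h1, h2⟩ := h
  ⟨fun i z => c i (φ z), fun i => (h1 i).comp hφ, hφ.continuousAt.eventually h2⟩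

theorem inV_self (i : ι) : InV x G (G i) := by
  classical
  exact ⟨fun j _ => if j = i then 1 else 0, fun _ => analyticAt_const,
    .of_forall fun _ _ => by simp⟩

theorem InV.trans (h : InV x G v) (k : ∀ i, InV x G' (G i)) : InV x G' v := by
  obtain ⟨c, h1, h2⟩ := h
  exact (InV.sum Finset.univ fun i _ => (k i).smul (h1 i)).congr
    (h2.mono fun _ hy a => (hy a).symm)

theorem InV.not_sp (h : ∀ v : κ → ℂ, InV x G fun a _ => v a) : x ∉ Sp G := fun k => k fun v =>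
  let ⟨c, _, h2⟩ := h v
  ⟨fun i => c i x, h2.self_of_nhds⟩

theorem inV_of_not_sp (hG : ∀ i a, AnalyticAt ℂ (G i a) x) (hv : ∀ a, AnalyticAt ℂ (v a) x)
    (h : x ∉ Sp G) : InV x G v := by
  classical
  have h0 := not_not.1 h
  choose c hc using fun a : κ => h0 (Pi.single a 1)
  let M : E → Matrix κ κ ℂ := fun y a b => ∑ i, c a i * G i b y
  have hM : ∀ a b, AnalyticAt ℂ (fun y => M y a b) x := fun a b =>
    Finset.analyticAt_fun_sum _ fun i _ => analyticAt_const.fun_mul (hG i b)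
  have hM1 : M x = 1 := by
    ext a b
    rw [Matrix.one_apply, show M x a b = _ from (hc a b).symm, Pi.single_apply]
    exact if_congr eq_comm rfl rfl
  have det : ∀ {N : E → Matrix κ κ ℂ}, (∀ a b, AnalyticAt ℂ (fun y => N y a b) x) →
      AnalyticAt ℂ (fun y => (N y).det) x := fun hN => by
    simp only [Matrix.det_apply, Units.smul_def, zsmul_eq_mul]
    exact Finset.analyticAt_fun_sum _ fun σ _ => analyticAt_const.fun_mul
      (Finset.analyticAt_fun_prod _ fun i _ => hN _ _)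
  have hd : (M x).det ≠ 0 := by simp [hM1]
  have hA : ∀ a b, AnalyticAt ℂ (fun y => (M y).adjugate a b) x := fun a b => by
    simp only [Matrix.adjugate_apply]
    refine det fun a' b' => ?_
    by_cases e : a' = b
    · simp only [e, Matrix.updateRow_self]
      exact analyticAt_const
    · simp only [Matrix.updateRow_ne e]
      exact hM _ _
  have hr : ∀ a, InV x G fun b y => M y a b := fun a =>
    ⟨fun i _ => c a i, fun _ => analyticAt_const, .of_forall fun _ _ => rfl⟩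
  refine (InV.sum Finset.univ fun a _ => InV.sum Finset.univ fun a' _ => (hr a').smul
    (((hv a).fun_mul ((det hM).fun_inv hd)).fun_mul (hA a a'))).congr ?_
  filter_upwards [(det hM).continuousAt.eventually_ne hd] with y hy b
  have e : ∀ a, ∑ a', (M y).adjugate a a' * M y a' b = (M y).det * if a = b then 1 else 0 :=
    fun a => by
      have := congrFun (congrFun (Matrix.adjugate_mul (M y)) a) b
      simpa only [Matrix.mul_apply, Matrix.smul_apply, Matrix.one_apply, smul_eq_mul] using this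
  simp only [mul_assoc, ← Finset.mul_sum, e, mul_ite, mul_one, mul_zero,
    Finset.sum_ite_eq', Finset.mem_univ, if_true, inv_mul_cancel₀ hy]

theorem not_sp_near (hG : ∀ i a, AnalyticAt ℂ (G i a) x) (h : x ∉ Sp G) :
    ∀ᶠ y in 𝓝 x, y ∉ Sp G := by
  classical
  choose c _ hc using fun a : κ => inV_of_not_sp (v := fun b _ => (Pi.single a 1 : κ → ℂ) b) hG
    (fun _ => analyticAt_const) h
  filter_upwards [eventually_all.2 hc] with y hy k
  refine k fun v => ⟨fun i => ∑ a, v a * c a i y, fun b => ?_⟩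
  simp only [Finset.sum_mul, mul_assoc]
  rw [Finset.sum_comm]
  simp only [← Finset.mul_sum, ← hy, Pi.single_apply, mul_ite, mul_one, mul_zero,
    Finset.sum_ite_eq, Finset.mem_univ, if_true]

theorem isOpen_not_sp {O : Set E} (hO : IsOpen O) (hG : ∀ i a, ∀ x ∈ O, AnalyticAt ℂ (G i a) x) :
    IsOpen (O \ Sp G) := isOpen_iff_mem_nhds.2 fun x hx =>
  inter_mem (hO.mem_nhds hx.1) (not_sp_near (fun i a => hG i a x hx.1) hx.2)

theorem inV_unit {a : ι → E → ℂ} {f : E → ℂ} :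
    InV x (fun i (_ : Unit) => a i) (fun _ => f) ↔ P277Z.Oka.In x a f :=
  exists_congr fun _ => and_congr_right fun _ => eventually_congr (.of_forall fun _ =>
    ⟨fun h => h (), fun h _ => h⟩)

end loc

/-! ### `In` -/

section ideal

variable {n p : ℕ} {X : Mf n} {X₁ : Mf p} {ι ι' : Type} [Fintype ι] [Fintype ι'] {y : X.X}
  {a : ι → X.X → ℂ} {b : ι' → X.X → ℂ} {f g : X.X → ℂ}

theorem in_chart {c : Chart n X.X} (hc : At c y) :
    In y a f ↔ P277Z.Oka.In (c y) (fun i z => a i (c.symm z)) fun z => f (c.symm z) :=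
  ⟨fun ⟨u, h1, h2⟩ => ⟨fun i z => u i (c.symm z), fun i => h1 i c hc, at_ev hc h2⟩,
    fun ⟨u, h1, h2⟩ => ⟨fun i x => u i (c x), fun i => hol_comp hc (h1 i), by
      filter_upwards [(c.continuousAt hc.2).eventually h2, P277Z.At.left hc] with x k1 k2
      simpa only [k2] using k1⟩⟩

theorem In.congr (h : In y a f) (k : ∀ᶠ x in 𝓝 y, f x = g x) : In y a g :=
  let ⟨c, h1, h2⟩ := h
  ⟨c, h1, (h2.and k).mono fun _ hy => hy.2.symm.trans hy.1⟩

theorem In.congr_gen {a₁ : ι → X.X → ℂ} (h : In y a f) (k : ∀ᶠ x in 𝓝 y, ∀ i, a i x = a₁ i x) :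
    In y a₁ f :=
  let ⟨c, h1, h2⟩ := h
  ⟨c, h1, (h2.and k).mono fun _ hy => by simp only [hy.1, hy.2]⟩

theorem in_zero : In y a fun _ => 0 :=
  ⟨fun _ _ => 0, fun _ => hol_const _ _, .of_forall fun _ => by simp⟩

theorem In.add (h : In y a f) (h' : In y a g) : In y a fun x => f x + g x :=
  let ⟨c, h1, h2⟩ := h
  let ⟨c', h1', h2'⟩ := h'
  ⟨fun i y => c i y + c' i y, fun i => (h1 i).add (h1' i), (h2.and h2').mono fun _ hy => by
    simp only [hy.1, hy.2, add_mul, Finset.sum_add_distrib]⟩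

theorem In.mul (h : In y a f) (hg : Hol n g y) : In y a fun x => g x * f x :=
  let ⟨c, h1, h2⟩ := h
  ⟨fun i y => g y * c i y, fun i => hg.mul (h1 i), h2.mono fun _ hy => by
    simp only [hy, Finset.mul_sum, mul_assoc]⟩

theorem In.neg (h : In y a f) : In y a fun x => -f x :=
  (h.mul (hol_const (-1) y)).congr (.of_forall fun _ => by simp)

theorem In.sub (h : In y a f) (h' : In y a g) : In y a fun x => f x - g x :=
  (h.add h'.neg).congr (.of_forall fun _ => (sub_eq_add_neg _ _).symm)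

theorem In.sum {α : Type} (s : Finset α) {f : α → X.X → ℂ} (h : ∀ l ∈ s, In y a (f l)) :
    In y a fun x => ∑ l ∈ s, f l x := by
  classical
  induction s using Finset.induction_on with
  | empty => simpa using in_zero
  | insert l s hl ih =>
    simp only [Finset.sum_insert hl]
    exact (h l (Finset.mem_insert_self _ _)).add (ih fun l hl => h l (Finset.mem_insert_of_mem hl))

theorem in_self (i : ι) : In y a (a i) := by
  classical
  exact ⟨fun j _ => if j = i then 1 else 0, fun _ => hol_const _ _, .of_forall fun _ => by simp⟩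

theorem In.trans (h : In y a f) (k : ∀ i, In y b (a i)) : In y b f := by
  obtain ⟨c, h1, h2⟩ := h
  exact (In.sum Finset.univ fun i _ => (k i).mul (h1 i)).congr (h2.mono fun _ hy => hy.symm)

theorem In.near (h : In y a f) : ∀ᶠ x in 𝓝 y, In x a f := by
  obtain ⟨c, h1, h2⟩ := h
  filter_upwards [eventually_all.2 fun i => (h1 i).near, h2.eventually_nhds] with x k1 k2
    using ⟨c, k1, k2⟩

theorem In.van (h : In y a f) : ∀ᶠ x in 𝓝 y, (∀ i, a i x = 0) → f x = 0 :=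
  let ⟨_, _, h2⟩ := h
  h2.mono fun _ hx k => by simp only [hx, k, mul_zero, Finset.sum_const_zero]

theorem In.zero (h : In y a f) (k : ∀ i, a i y = 0) : f y = 0 := h.van.self_of_nhds k

theorem In.hol (h : In y a f) (k : ∀ i, Hol n (a i) y) : Hol n f y :=
  let ⟨_, h1, h2⟩ := h
  (Hol.sum _ fun i _ => (h1 i).mul (k i)).congr (h2.mono fun _ => Eq.symm)

theorem In.comp {φ : X₁.X → X.X} {x : X₁.X} (h : In (φ x) a f) (hφ : HolA p n φ x) :
    In x (fun i z => a i (φ z)) fun z => f (φ z) :=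
  let ⟨c, h1, h2⟩ := h
  ⟨fun i z => c i (φ z), fun i => hφ.hol (h1 i), hφ.cont.eventually h2⟩

theorem in_of_ne {i : ι} (ha : Hol n (a i) y) (h : a i y ≠ 0) (hf : Hol n f y) : In y a f :=
  ((in_self i).mul (hf.div ha h)).congr ((ha.ne_near h).mono fun _ k => div_mul_cancel₀ _ k)

end ideal

/-! ### Products -/

section prod

variable {n D r p : ℕ} {X : Mf n} {W : Mf D} {X₁ : Mf p} {Γ : Set (X.prod W).X}
  {Γ₁ : Set (X₁.prod W).X} {y : X.X} {w : W.X} {h h' : (X.prod W).X → ℂ} {g g' : W.X → ℂ}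

theorem ev_pair {P : (X.prod W).X → Prop} :
    (∀ᶠ z in 𝓝 (X.pair W y w), P z) ↔ ∀ᶠ q in 𝓝 (y, w), P (X.pair W q.1 q.2) := Iff.rfl

theorem nhds_pair : 𝓝 (X.pair W y w) = map (fun q : X.X × W.X => X.pair W q.1 q.2) (𝓝 (y, w)) :=
  rfl

theorem ev_slice {P : (X.prod W).X → Prop} (h : ∀ᶠ z in 𝓝 (X.pair W y w), P z) :
    ∀ᶠ x in 𝓝 w, P (X.pair W y x) :=
  (emb_slice2 (W := W) y).hol.cont.continuousAt.eventually h

theorem hol_slice (k : Hol (n + D) h (X.pair W y w)) : Hol D (fun x => h (X.pair W y x)) w :=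
  (emb_slice2 (W := W) y).hol.hol k

theorem hol_fst {a : X.X → ℂ} (k : Hol n a y) :
    Hol (n + D) (fun z => a (X.p1 W z)) (X.pair W y w) := hol_p1.hol k

theorem hol_snd (k : Hol D g w) : Hol (n + D) (fun z => g (X.p2 W z)) (X.pair W y w) :=
  hol_p2.hol k

theorem hol_prod_iff {c : Chart n X.X} {e : Chart D W.X} (hc : At c y) (he : At e w) :
    Hol (n + D) h (X.pair W y w) ↔ AnalyticAt ℂ
      (fun q : Cm n × Cm D => h (X.pair W (c.symm q.1) (e.symm q.2))) (c y, e w) := by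
  refine ⟨fun k => ?_, fun k => Hol.of_chart (at_prod hc he) ?_⟩
  · have h1 : AnalyticAt ℂ (fun q : Cm n × Cm D => Prod.glue q.1 q.2) (c y, e w) :=
      (contDiff_glue (r := ω) contDiffAt_fst contDiffAt_snd).analyticAt
    simpa only [Function.comp_def, pc_symm, fstP_glue, sndP_glue] using
      (k _ (at_prod hc he)).comp_of_eq h1 rfl
  · have h1 : AnalyticAt ℂ (fun z : Cm (n + D) => (fstP z, sndP z)) (Prod.glue (c y) (e w)) :=
      (contDiff_fstP (r := ω)).contDiffAt.analyticAt.prod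
        (contDiff_sndP (r := ω)).contDiffAt.analyticAt
    exact k.comp_of_eq h1 (Prod.ext (fstP_glue _ _) (sndP_glue _ _))

theorem an_fib (hΓ : An (n + D) Γ) (y : X.X) : An D (fib Γ y) := hΓ.pre (emb_slice2 y).hol

theorem anV_pull {k : ℕ} {F : W.X → Cm k}
    {φ : X.X → W.X} (hF : AnV D F (φ y)) (hφ : HolA n D φ y) : AnV n (fun x => F (φ x)) y :=
  AnV.pi fun a => hφ.hol (hF.hol a)

theorem hol_two {c : Chart n X.X} {f : W.X → Cm r} (hc : At c y) (hf : AnV D f w)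
    {v : Cm n × Cm r → ℂ} (hv : AnalyticAt ℂ v (c y, f w)) :
    Hol (n + D) (fun z => v (c (X.p1 W z), f (X.p2 W z))) (X.pair W y w) :=
  AnV.cmp (F := fun z => (c (X.p1 W z), f (X.p2 W z))) (x := X.pair W y w)
    ((AnV.pi fun a => hol_fst (hol_chart hc a)).prod (AnV.pi fun a => hol_snd (hf.hol a))) hv

theorem hol_cmb {c : Chart n X.X} {f : W.X → Cm r} {k : ℕ} {e : Fin k → W.X → ℂ}
    {v : Fin k → Cm n × Cm r → ℂ} (hc : At c y) (hf : AnV D f w) (he : ∀ i, Hol D (e i) w)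
    (hv : ∀ i, AnalyticAt ℂ (v i) (c y, f w)) : Hol (n + D) (cmb c f e v) (X.pair W y w) :=
  Hol.sum _ fun i _ => (hol_two hc hf (hv i)).mul (hol_snd (he i))

theorem holA_map {ϖ : X₁.X → X.X} {x : X₁.X} (hϖ : HolA p n ϖ x) (w : W.X) :
    HolA (p + D) (n + D) (fun z => X.pair W (ϖ (X₁.p1 W z)) (X₁.p2 W z)) (X₁.pair W x w) :=
  (HolA.cmp (f := X₁.p1 W) (x := X₁.pair W x w) hϖ (hol_p1.at _)).pair (hol_p2.at _)

/-! ### `Vn` -/

theorem Vn.of_closed (hΓ : IsClosed Γ) (k : w ∉ fib Γ y) (h : (X.prod W).X → ℂ) : Vn Γ y w h :=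
  Eventually.mono (hΓ.isOpen_compl.mem_nhds k) fun _ hz hz' => (hz hz').elim

theorem Vn.of_not_mem (hΓ : An (n + D) Γ) (k : w ∉ fib Γ y) (h : (X.prod W).X → ℂ) : Vn Γ y w h :=
  .of_closed hΓ.closed k h

theorem Vn.congr' (k : Vn Γ y w h) (e : ∀ᶠ z in 𝓝 (X.pair W y w), z ∈ Γ → h z = h' z) :
    Vn Γ y w h' := (k.and e).mono fun _ hz m => (hz.2 m).symm.trans (hz.1 m)

theorem Vn.congr (k : Vn Γ y w h) (e : ∀ᶠ z in 𝓝 (X.pair W y w), h z = h' z) : Vn Γ y w h' :=
  k.congr' (e.mono fun _ hz _ => hz)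

theorem vn_zero : Vn Γ y w fun _ => 0 := .of_forall fun _ _ => rfl

theorem Vn.add (k : Vn Γ y w h) (k' : Vn Γ y w h') : Vn Γ y w fun z => h z + h' z :=
  (k.and k').mono fun _ hz m => by simp only [hz.1 m, hz.2 m, add_zero]

theorem Vn.sub (k : Vn Γ y w h) (k' : Vn Γ y w h') : Vn Γ y w fun z => h z - h' z :=
  (k.and k').mono fun _ hz m => by simp only [hz.1 m, hz.2 m, sub_zero]

theorem Vn.neg (k : Vn Γ y w h) : Vn Γ y w fun z => -h z :=
  k.mono fun _ hz m => by simp only [hz m, neg_zero]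

theorem Vn.mul (k : Vn Γ y w h) (u : (X.prod W).X → ℂ) : Vn Γ y w fun z => u z * h z :=
  k.mono fun _ hz m => by simp only [hz m, mul_zero]

theorem Vn.sum {α : Type} (s : Finset α) {h : α → (X.prod W).X → ℂ} (k : ∀ l ∈ s, Vn Γ y w (h l)) :
    Vn Γ y w fun z => ∑ l ∈ s, h l z :=
  ((eventually_all_finset s).2 k).mono fun _ hz m => Finset.sum_eq_zero fun l hl => hz l hl m

theorem Vn.near (k : Vn Γ y w h) : ∀ᶠ q in 𝓝 (y, w), Vn Γ q.1 q.2 h :=
  ev_pair.1 (Eventually.eventually_nhds k)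

theorem Vn.zero (k : Vn Γ y w h) (m : w ∈ fib Γ y) : h (X.pair W y w) = 0 := k.self_of_nhds m

theorem Vn.pull {ϖ : X₁.X → X.X} {x : X₁.X} (k : Vn Γ (ϖ x) w h) (hϖ : ContinuousAt ϖ x)
    (hs : ∀ x, fib Γ₁ x ⊆ fib Γ (ϖ x)) :
    Vn Γ₁ x w fun z => h (X.pair W (ϖ (X₁.p1 W z)) (X₁.p2 W z)) := by
  have h1 : ContinuousAt (fun z => X.pair W (ϖ (X₁.p1 W z)) (X₁.p2 W z)) (X₁.pair W x w) :=
    (ContinuousAt.comp (f := X₁.p1 W) (x := X₁.pair W x w) hϖ cont_p1.continuousAt).prodMk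
      cont_p2.continuousAt
  exact (h1.eventually k).mono fun z hz m => hz (hs _ m)

/-! ### `Fi` -/

theorem Vn.fi (k : Vn Γ y w h) (hh : Hol (n + D) h (X.pair W y w)) :
    Fi Γ y w fun x => h (X.pair W y x) := ⟨h, hh, k, .of_forall fun _ => rfl⟩

theorem Fi.congr (k : Fi Γ y w g) (e : ∀ᶠ x in 𝓝 w, g x = g' x) : Fi Γ y w g' :=
  let ⟨u, h1, h2, h3⟩ := k
  ⟨u, h1, h2, (h3.and e).mono fun _ hx => hx.2.symm.trans hx.1⟩

theorem fi_zero : Fi Γ y w fun _ => 0 := vn_zero.fi (hol_const _ _)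

theorem Fi.add (k : Fi Γ y w g) (k' : Fi Γ y w g') : Fi Γ y w fun x => g x + g' x :=
  let ⟨_, h1, h2, h3⟩ := k
  let ⟨_, h1', h2', h3'⟩ := k'
  ⟨_, h1.add h1', h2.add h2', (h3.and h3').mono fun _ hx => by simp only [hx.1, hx.2]⟩

theorem Fi.mul (k : Fi Γ y w g) (hg : Hol D g' w) : Fi Γ y w fun x => g' x * g x :=
  let ⟨_, h1, h2, h3⟩ := k
  ⟨_, (hol_snd hg).mul h1, h2.mul _, h3.mono fun _ hx => by simp only [hx, p2_pair]⟩

theorem Fi.neg (k : Fi Γ y w g) : Fi Γ y w fun x => -g x :=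
  (k.mul (hol_const (-1) w)).congr (.of_forall fun _ => by simp)

theorem Fi.sub (k : Fi Γ y w g) (k' : Fi Γ y w g') : Fi Γ y w fun x => g x - g' x :=
  (k.add k'.neg).congr (.of_forall fun _ => (sub_eq_add_neg _ _).symm)

theorem Fi.sum {α : Type} (s : Finset α) {g : α → W.X → ℂ} (k : ∀ l ∈ s, Fi Γ y w (g l)) :
    Fi Γ y w fun x => ∑ l ∈ s, g l x := by
  classical
  induction s using Finset.induction_on with
  | empty => simpa using fi_zero
  | insert l s hl ih =>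
    simp only [Finset.sum_insert hl]
    exact (k l (Finset.mem_insert_self _ _)).add (ih fun l hl => k l (Finset.mem_insert_of_mem hl))

theorem Fi.hol (k : Fi Γ y w g) : Hol D g w :=
  let ⟨_, h1, _, h3⟩ := k
  (hol_slice h1).congr (h3.mono fun _ => Eq.symm)

theorem Fi.van (k : Fi Γ y w g) : ∀ᶠ x in 𝓝 w, x ∈ fib Γ y → g x = 0 :=
  let ⟨_, _, h2, h3⟩ := k
  ((ev_slice h2).and h3).mono fun _ hx m => hx.2.trans (hx.1 m)

theorem Fi.near (k : Fi Γ y w g) : ∀ᶠ x in 𝓝 w, Fi Γ y x g := by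
  obtain ⟨u, h1, h2, h3⟩ := k
  filter_upwards [ev_slice h1.near, ev_slice (Eventually.eventually_nhds h2),
    h3.eventually_nhds] with x k1 k2 k3 using ⟨u, k1, k2, k3⟩

theorem Fi.of_not_mem (hΓ : An (n + D) Γ) (k : w ∉ fib Γ y) (hg : Hol D g w) : Fi Γ y w g :=
  (Vn.of_not_mem hΓ k _).fi (hol_snd hg)

theorem Fi.pull {ϖ : X₁.X → X.X} {x : X₁.X} (k : Fi Γ (ϖ x) w g) (hϖ : HolA p n ϖ x)
    (hs : ∀ x, fib Γ₁ x ⊆ fib Γ (ϖ x)) : Fi Γ₁ x w g :=
  let ⟨_, h1, h2, h3⟩ := k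
  ⟨_, (holA_map hϖ w).hol h1, h2.pull hϖ.cont hs, h3⟩

theorem Fl.of_not_mem {ι : Type} [Fintype ι] (hΓ : An (n + D) Γ) (k : w ∉ fib Γ y)
    (a : ι → X.X → ℂ) : Fl Γ y w a := fun _ _ _ _ _ _ _ _ =>
  ⟨0, Fin.elim0, Fin.elim0, fun l => l.elim0, fun l => l.elim0, fun l => l.elim0,
    fun _ => .of_not_mem hΓ k _⟩

end prod

/-! ### `FO` -/

section fo

variable {n D d : ℕ} {X₀ : Mf n} {W : Mf D} {L : Lab X₀ W d} {v : L.V.X} {P Q : L.V.X → Prop}

theorem Lab.FO.of_ev (h : ∀ᶠ u in 𝓝[L.g ⁻¹' {L.g v}] v, P u) : L.FO v P :=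
  haveI : (𝓝[L.g ⁻¹' {L.g v}] v).NeBot := mem_closure_iff_nhdsWithin_neBot.1 (subset_closure rfl)
  (eventually_eventually_nhdsWithin.2 h).frequently

theorem Lab.FO.mono (h : L.FO v P) (k : ∀ u, P u → Q u) : L.FO v Q :=
  Frequently.mono h fun _ hu => hu.mono k

theorem Lab.FO.and_ev (h : L.FO v P) (k : ∀ᶠ u in 𝓝[L.g ⁻¹' {L.g v}] v, Q u) :
    L.FO v fun u => P u ∧ Q u :=
  (Frequently.and_eventually h (eventually_eventually_nhdsWithin.2 k)).mono fun _ hu =>
    hu.1.and hu.2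

theorem Lab.FO.mono_ev (h : L.FO v P) (k : ∀ᶠ u in 𝓝[L.g ⁻¹' {L.g v}] v, P u → Q u) : L.FO v Q :=
  (h.and_ev k).mono fun _ hu => hu.2 hu.1

theorem Lab.FO.trans (h : ∃ᶠ u in 𝓝[L.g ⁻¹' {L.g v}] v, L.FO u P) : L.FO v P := fun k => by
  refine h ?_
  filter_upwards [eventually_eventually_nhdsWithin.2 k, self_mem_nhdsWithin] with u k1 k2 k3
  have e : L.g u = L.g v := k2
  rw [Lab.FO, e] at k3
  exact k3 k1

theorem Lab.FO.freq (h : L.FO v P) : ∃ᶠ u in 𝓝[L.g ⁻¹' {L.g v}] v, P u :=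
  (Frequently.and_eventually h self_mem_nhdsWithin).mono fun _ hu =>
    hu.1.self_of_nhdsWithin hu.2

end fo

/-! ### `Dm` -/

section dm

variable {D d : ℕ} {W : Mf D} {A B : Set W.X}

theorem Dm.mono (h : Dm d A) (k : B ⊆ A) : Dm d B := fun c hc =>
  (h c hc).mono (image_mono (inter_subset_inter_left _ k))

theorem dm_empty : Dm d (∅ : Set W.X) := fun _ _ => by simpa using cv_empty

theorem Dm.iUnion {ι : Type} [Countable ι] {A : ι → Set W.X} (h : ∀ i, Dm d (A i)) :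
    Dm d (⋃ i, A i) := fun c hc => by
  rw [iUnion_inter, image_iUnion]
  exact cv_iUnion fun i => h i c hc

theorem Dm.union (h : Dm d A) (k : Dm d B) : Dm d (A ∪ B) := fun c hc => by
  rw [union_inter_distrib_right, image_union]
  exact (h c hc).union (k c hc)

theorem Dm.succ (h : Dm d A) : Dm (d + 1) A := fun c hc => (h c hc).succ

theorem Dm.le {e : ℕ} (h : Dm d A) (k : d ≤ e) : Dm e A := by
  induction k with
  | refl => exact h
  | step _ ih => exact ih.succ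

end dm

end Vale.Agent.P281Z.El
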