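import Vale.Agent.P281Z.Mf.Prod
import Vale.Agent.P281Z.Mf.Mod
import Vale.Agent.P281Z.Rs.Defs
import Vale.Agent.P281Z.An.Defs
import Vale.Agent.P277Z.Oka.Sk

/-!
# P281Z, elimination of indeterminacy: definitions
-/

open scoped Manifold ContDiff Topology
open Set Filter
open Vale.Agent.P272.K
open Vale.Agent.P277Z (Hol Nz)
open Vale.Agent.P277Z.Slc (Snc)
open Vale.Agent.P277.H762 (Cv)

noncomputable section

namespace Vale.Agent.P281Z.El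

/-! ### Modules over rings of germs -/

section loc

variable {E Y : Type} [NormedAddCommGroup E] [NormedSpace ℂ E] [NormedAddCommGroup Y]
  [NormedSpace ℂ Y] {ι κ ι' κ' : Type} [Fintype ι] [Fintype κ] [Fintype ι'] [Fintype κ']

/-- the germ of the vector `v` at `x` is a combination of the germs of the vectors `G i` -/
def InV (x : E) (G : ι → κ → E → ℂ) (v : κ → E → ℂ) : Prop :=
  ∃ c : ι → E → ℂ, (∀ i, AnalyticAt ℂ (c i) x) ∧ ∀ᶠ y in 𝓝 x, ∀ k, v k y = ∑ i, c i y * G i k y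

/-- the support of the cokernel -/
def Sp (G : ι → κ → E → ℂ) : Set E := {x | ¬ ∀ v : κ → ℂ, ∃ c : ι → ℂ, ∀ k, v k = ∑ i, c i * G i k x}

/-- `G'` presents at `z` the direct image of the cokernel of `G` on `O`, with the generators `e` -/
structure Pres (p : E → Y) (G : ι → κ → E → ℂ) (O : Set E) (e : κ' → κ → E → ℂ)
    (G' : ι' → κ' → Y → ℂ) (z : Y) : Prop where
  rel : ∀ v : κ' → Y → ℂ, (∀ k, AnalyticAt ℂ (v k) z) →
    (InV z G' v ↔ ∀ x ∈ O, p x = z → InV x G fun k y => ∑ a, v a (p y) * e a k y)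
  sur : ∀ u : E → κ → E → ℂ, (∀ x ∈ O, p x = z → ∀ k, AnalyticAt ℂ (u x k) x) →
    ∃ v : κ' → Y → ℂ, (∀ a, AnalyticAt ℂ (v a) z) ∧
      ∀ x ∈ O, p x = z → InV x G fun k y => u x k y - ∑ a, v a (p y) * e a k y

/-- the direct image of the cokernel of `G` on `O` is presented by `G'` on `Ω` -/
structure Psh (p : E → Y) (G : ι → κ → E → ℂ) (x₀ : E) (O : Set E) (Ω : Set Y)
    (e : κ' → κ → E → ℂ) (G' : ι' → κ' → Y → ℂ) : Prop where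
  opn : IsOpen O
  opn' : IsOpen Ω
  mem : x₀ ∈ O
  maps : MapsTo p O Ω
  anG : ∀ i k, ∀ x ∈ O, AnalyticAt ℂ (G i k) x
  ane : ∀ a k, ∀ x ∈ O, AnalyticAt ℂ (e a k) x
  anG' : ∀ i a, ∀ z ∈ Ω, AnalyticAt ℂ (G' i a) z
  pres : ∀ z ∈ Ω, Pres p G O e G' z
  sp : ∀ z ∈ Ω, z ∈ Sp G' ↔ ∃ x ∈ O, x ∈ Sp G ∧ p x = z
  fin : ∀ z ∈ Ω, {x | x ∈ O ∧ x ∈ Sp G ∧ p x = z}.Finite
  one : ∀ x ∈ O, x ∈ Sp G → p x = p x₀ → x = x₀
  prp : ∀ K ⊆ Ω, IsCompact K → IsCompact (O ∩ Sp G ∩ p ⁻¹' K)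

/-- there are arbitrarily small finite presentations, whose generators depend only on `q` -/
def FP {F : Type} (p : E → Y) (q : E → F) (G : ι → κ → E → ℂ) (x₀ : E) : Prop :=
  ∀ N ∈ 𝓝 x₀, ∃ (O : Set E) (Ω : Set Y) (k l : ℕ) (e : Fin k → κ → E → ℂ)
    (G' : Fin l → Fin k → Y → ℂ), O ⊆ N ∧ Psh p G x₀ O Ω e G' ∧
      ∀ a i x x', q x = q x' → e a i x = e a i x'

end loc

/-! ### Analytic subsets of products -/

/-- `A` has dimension at most `d` -/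
def Dm {D : ℕ} {W : Mf D} (d : ℕ) (A : Set W.X) : Prop :=
  ∀ c ∈ atlas (Cm D) W.X, Cv d (c '' (A ∩ c.source))

/-- the germ of `f` at `y` is a combination of the germs of the `a i` -/
def In {n : ℕ} {X : Mf n} {ι : Type} [Fintype ι] (y : X.X) (a : ι → X.X → ℂ) (f : X.X → ℂ) : Prop :=
  ∃ c : ι → X.X → ℂ, (∀ i, Hol n (c i) y) ∧ ∀ᶠ x in 𝓝 y, f x = ∑ i, c i x * a i x

section prod

variable {n D r : ℕ} {X : Mf n} {W : Mf D} (Γ : Set (X.prod W).X)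

/-- the fibre -/
def fib (y : X.X) : Set W.X := {w | X.pair W y w ∈ Γ}

/-- `h` vanishes on `Γ` near `(y, w)` -/
def Vn (y : X.X) (w : W.X) (h : (X.prod W).X → ℂ) : Prop :=
  ∀ᶠ z in 𝓝 (X.pair W y w), z ∈ Γ → h z = 0

/-- `g` is in the ideal of the fibre -/
def Fi (y : X.X) (w : W.X) (g : W.X → ℂ) : Prop :=
  ∃ h, Hol (n + D) h (X.pair W y w) ∧ Vn Γ y w h ∧ ∀ᶠ w' in 𝓝 w, g w' = h (X.pair W y w')

/-- the `e i` are a basis of the local ring of the fibre, over the germs at `f w` -/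
structure Bs (y : X.X) (w : W.X) (f : W.X → Cm r) {m : ℕ} (e : Fin m → W.X → ℂ) : Prop where
  hol : ∀ i, Hol D (e i) w
  gen : ∀ g, Hol D g w → ∃ c : Fin m → Cm r → ℂ, (∀ i, AnalyticAt ℂ (c i) (f w)) ∧
    Fi Γ y w fun x => g x - ∑ i, c i (f x) * e i x
  ind : ∀ c : Fin m → Cm r → ℂ, (∀ i, AnalyticAt ℂ (c i) (f w)) →
    (Fi Γ y w fun x => ∑ i, c i (f x) * e i x) → ∀ i, ∀ᶠ s in 𝓝 (f w), c i s = 0

/-- the local ring of the fibre is free of rank `m` -/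
def Bas (y : X.X) (w : W.X) (f : W.X → Cm r) (m : ℕ) : Prop :=
  ∃ e : Fin m → W.X → ℂ, Bs Γ y w f e

/-- near `w` the fibre is contained in the image of the section `σ` of `f` -/
structure Sh (y : X.X) (w : W.X) (f : W.X → Cm r) (σ : Cm r → W.X) : Prop where
  an : AnV D f w
  hol : HolA r D σ (f w)
  ctr : σ (f w) = w
  sec : ∀ᶠ s in 𝓝 (f w), f (σ s) = s
  sub : ∀ᶠ x in 𝓝 w, x ∈ fib Γ y → σ (f x) = x

/-- the local ring of `Γ` at `(y, w)` modulo `a` is flat over the local ring of `X` modulo `a` -/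
def Fl (y : X.X) (w : W.X) {ι : Type} [Fintype ι] (a : ι → X.X → ℂ) : Prop :=
  ∀ (m : ℕ) (α : Fin m → X.X → ℂ) (g : Fin m → (X.prod W).X → ℂ) (c : ι → (X.prod W).X → ℂ),
    (∀ i, Hol n (α i) y) → (∀ i, Hol (n + D) (g i) (X.pair W y w)) →
    (∀ j, Hol (n + D) (c j) (X.pair W y w)) →
    (Vn Γ y w fun z => ∑ i, α i (X.p1 W z) * g i z - ∑ j, a j (X.p1 W z) * c j z) →
    ∃ (k : ℕ) (γ : Fin k → Fin m → X.X → ℂ) (u : Fin k → (X.prod W).X → ℂ),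
      (∀ l i, Hol n (γ l i) y) ∧ (∀ l, Hol (n + D) (u l) (X.pair W y w)) ∧
      (∀ l, In y a fun x => ∑ i, α i x * γ l i x) ∧
      ∀ i, Vn Γ y w fun z => g i z - ∑ l, γ l i (X.p1 W z) * u l z

/-- a combination of the `e i` -/
def cmb (c : Chart n X.X) (f : W.X → Cm r) {k : ℕ} (e : Fin k → W.X → ℂ)
    (v : Fin k → Cm n × Cm r → ℂ) (z : (X.prod W).X) : ℂ :=
  ∑ i, v i (c (X.p1 W z), f (X.p2 W z)) * e i (X.p2 W z)

/-- `G` presents the product of the local rings of `Γ` at the points over `(y, t)` -/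
structure PP (c : Chart n X.X) (O : Set W.X) (f : W.X → Cm r) (y : X.X) (t : Cm r) {k l : ℕ}
    (e : Fin k → W.X → ℂ) (G : Fin l → Fin k → Cm n × Cm r → ℂ) : Prop where
  atc : At c y
  anf : ∀ w ∈ O, f w = t → AnV D f w
  hol : ∀ i, ∀ w ∈ O, f w = t → Hol D (e i) w
  anG : ∀ i j, AnalyticAt ℂ (G i j) (c y, t)
  fin : {w | w ∈ O ∧ f w = t ∧ w ∈ fib Γ y}.Finite
  rel : ∀ v : Fin k → Cm n × Cm r → ℂ, (∀ i, AnalyticAt ℂ (v i) (c y, t)) →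
    (InV (c y, t) G v ↔ ∀ w ∈ O, f w = t → Vn Γ y w (cmb c f e v))
  sur : ∀ u : W.X → (X.prod W).X → ℂ, (∀ w ∈ O, f w = t → Hol (n + D) (u w) (X.pair W y w)) →
    ∃ v : Fin k → Cm n × Cm r → ℂ, (∀ i, AnalyticAt ℂ (v i) (c y, t)) ∧
      ∀ w ∈ O, f w = t → Vn Γ y w fun z => u w z - cmb c f e v z

end prod

/-- a box -/
structure Box {n D : ℕ} (X : Mf n) (W : Mf D) (r : ℕ) where
  c : Chart n X.X
  U : Set X.X
  O : Set W.X
  f : W.X → Cm r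
  Δ : Set (Cm r)
  k : ℕ
  l : ℕ
  e : Fin k → W.X → ℂ
  G : Fin l → Fin k → Cm n × Cm r → ℂ

namespace Box

variable {n D r : ℕ} {X : Mf n} {W : Mf D} (b : Box X W r)

structure Ok (Γ : Set (X.prod W).X) : Prop where
  oU : IsOpen b.U
  oO : IsOpen b.O
  oΔ : IsOpen b.Δ
  conn : IsConnected b.Δ
  maps : MapsTo b.f b.O b.Δ
  pp : ∀ y ∈ b.U, ∀ t ∈ b.Δ, PP Γ b.c b.O b.f y t b.e b.G
  prp : ∀ y ∈ b.U, ∀ t ∈ b.Δ, ∀ N, IsOpen N → (∀ w ∈ b.O, b.f w = t → w ∈ fib Γ y → w ∈ N) →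
    ∀ᶠ q in 𝓝 (y, t), ∀ w ∈ b.O, b.f w = q.2 → w ∈ fib Γ q.1 → w ∈ N

/-- the rank of the matrix -/
def rank (y : X.X) (t : Cm r) : ℕ := (Matrix.of fun i j => b.G i j (b.c y, t)).rank

/-- the general rank -/
def rk (y : X.X) : ℕ := sSup (b.rank y '' b.Δ)

/-- the general length of the fibre -/
def a (y : X.X) : ℕ := b.k - b.rk y

/-- the general points -/
def Gn (y : X.X) : Set (Cm r) := {t | t ∈ b.Δ ∧ b.rank y t = b.rk y}

/-- the minors of order `ρ + 1` -/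
def mn (ρ : ℕ) (q : (Fin (ρ + 1) → Fin b.l) × (Fin (ρ + 1) → Fin b.k)) (z : Cm n × Cm r) : ℂ :=
  (Matrix.of fun i j => b.G (q.1 i) (q.2 j) z).det

/-- the values of the minors are in the ideal generated by the `a i` -/
def J (ρ : ℕ) (y : X.X) {ι : Type} [Fintype ι] (a : ι → X.X → ℂ) : Prop :=
  ∀ q, ∀ t ∈ b.Δ, In y a fun x => b.mn ρ q (b.c x, t)

end Box

/-! ### Labels -/

/-- the family of the components of dimension `d + 1` of the fibres -/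
structure Lab {n D : ℕ} (X₀ : Mf n) (W : Mf D) (d : ℕ) : Type 1 where
  Γ₀ : Set (X₀.prod W).X
  T : Set X₀.X
  T' : Set X₀.X
  p : ℕ
  B : Mf p
  θ : B.X → X₀.X
  V : Mf (p + (d + 1))
  g : V.X → B.X
  j : V.X → W.X
  s : ℕ
  G : Fin s → Set V.X

/-- a manifold over `X₀` with a subset of the pull back of the graph -/
structure Sg {n D : ℕ} (X₀ : Mf n) (W : Mf D) : Type 1 where
  X : Mf n
  π : X.X → X₀.X
  Γ : Set (X.prod W).X

namespace Lab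

variable {n D d : ℕ} {X₀ : Mf n} {W : Mf D} (L : Lab X₀ W d)

structure Ok : Prop where
  top : ∀ x, Dm (d + 1) (fib L.Γ₀ x)
  anT : An n L.T
  anT' : An n L.T'
  ovr : Over L.p n L.θ L.T L.T'
  hg : HolM (L.p + (d + 1)) L.p L.g
  hj : HolM (L.p + (d + 1)) D L.j
  snc : Snc (L.p + (d + 1)) L.G
  reg : ∀ b, L.θ b ∉ L.T' → RegAt (L.p + (d + 1)) L.p L.g L.G b
  imm : ∀ v ∈ off L.G, Imm (L.p + (d + 1)) (L.p + D) (fun v => L.B.pair W (L.g v) (L.j v)) v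
  sheet : ∀ v ∈ off L.G, ∀ N ∈ 𝓝 v, ∀ᶠ q in 𝓝 (L.g v, L.j v), q.2 ∈ fib L.Γ₀ (L.θ q.1) →
    ∃ v' ∈ N, L.g v' = q.1 ∧ L.j v' = q.2
  low : ∀ b, L.θ b ∉ L.T' → Dm d (fib L.Γ₀ (L.θ b) \ L.j '' (L.g ⁻¹' {b} ∩ off L.G))

/-- the stage is adapted -/
structure Ad (S : Sg X₀ W) : Prop where
  hol : HolM n n S.π
  an : An (n + D) S.Γ
  sub : ∀ y, fib S.Γ y ⊆ fib L.Γ₀ (S.π y)
  low : ∀ y, S.π y ∉ L.T → Dm d (fib S.Γ y)

/-- `(g, f ∘ j)` is a system of coordinates at `v` -/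
def Tv (f : W.X → Cm (d + 1)) (v : L.V.X) : Prop :=
  AnV D f (L.j v) ∧ ∃ β ∈ atlas (Cm L.p) L.B.X,
    ∃ Θ : OpenPartialHomeomorph L.V.X (Cm L.p × Cm (d + 1)), Co (L.p + (d + 1)) Θ ∧
      v ∈ Θ.source ∧ ∀ v' ∈ Θ.source, L.g v' ∈ β.source ∧ Θ v' = (β (L.g v'), f (L.j v'))

/-- `v` is in the closure of the interior of the set defined by `P` in the fibre -/
def FO (v : L.V.X) (P : L.V.X → Prop) : Prop :=
  ∃ᶠ v' in 𝓝[L.g ⁻¹' {L.g v}] v, ∀ᶠ v'' in 𝓝[L.g ⁻¹' {L.g v}] v', P v''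

/-- representatives of the connected components of the fibre -/
def Rep (b : L.B.X) {ν : ℕ} (v : Fin ν → L.V.X) : Prop :=
  (∀ k, L.g (v k) = b ∧ v k ∈ off L.G) ∧
    ∀ u, L.g u = b → ∃! k, u ∈ connectedComponentIn (L.g ⁻¹' {b}) (v k)

variable (S : Sg X₀ W)

/-- `v` is a good point over `y` -/
structure Gd (y : S.X.X) (v : L.V.X) : Prop where
  off : v ∈ off L.G
  eq : L.θ (L.g v) = S.π y
  nm : S.π y ∉ L.T'

/-- the multiplicity -/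
def mu (y : S.X.X) (v : L.V.X) : ℕ :=
  sInf {m | ∃ f, L.Tv f v ∧ L.FO v fun v' => Bas S.Γ y (L.j v') f m}

/-- the sum of the multiplicities -/
def phi (y : S.X.X) : ℕ :=
  sInf {m | ∃ (b : L.B.X) (ν : ℕ) (v : Fin ν → L.V.X), L.θ b = S.π y ∧ L.Rep b v ∧
    m = ∑ k, L.mu S y (v k)}

/-- generic flatness near `v` -/
def Q (y : S.X.X) (v : L.V.X) {ι : Type} [Fintype ι] (a : ι → S.X.X → ℂ) : Prop :=
  L.FO v fun v' => Fl S.Γ y (L.j v') a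

/-- generic flatness -/
def Gen (y : S.X.X) {ι : Type} [Fintype ι] (a : ι → S.X.X → ℂ) : Prop :=
  ∀ v, L.Gd S y v → L.Q S y v a

/-- the flattener -/
def JJ (y : S.X.X) (f : S.X.X → ℂ) : Prop :=
  ∀ (ι : Type) [Fintype ι] (a : ι → S.X.X → ℂ), (∀ i, Hol n (a i) y) → L.Gen S y a → In y a f

/-- `b` is a box with one sheet at `(y, v)` -/
structure One (y : S.X.X) (v : L.V.X) (b : Box S.X W (d + 1)) : Prop where
  ok : b.Ok S.Γ
  mem : y ∈ b.U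
  tv : L.Tv b.f v
  near : ∀ᶠ q in 𝓝 (y, v), L.θ (L.g q.2) = S.π q.1 → L.j q.2 ∈ b.O ∧
    ∀ w ∈ b.O, b.f w = b.f (L.j q.2) → w ∈ fib S.Γ q.1 → w = L.j q.2

end Lab

/-- the local structure of the function `φ` and of the ideals `J` near `x` -/
def Loc {n : ℕ} {X : Mf n} (Θ : Set X.X) (φ : X.X → ℕ) (J : X.X → (X.X → ℂ) → Prop) (x : X.X) :
    Prop :=
  ∃ (α : Type) (_ : Fintype α) (_ : PartialOrder α) (r : X.X → α) (ι : α → Type)
    (_ : ∀ a, Fintype (ι a)) (g : ∀ a, ι a → X.X → ℂ), (∀ a i, Hol n (g a i) x) ∧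
    ∀ᶠ y in 𝓝 x, (∀ a, (∀ i, g a i y = 0) ↔ r y ≤ a) ∧ (y ∉ Θ →
      (∀ f, Hol n f y → (J y f ↔ In y (g (r y)) f)) ∧
        ∀ᶠ y' in 𝓝 y, φ y' ≤ φ y ∧ (φ y' = φ y ↔ r y' ≤ r y))

/-! ### Graphs -/

/-- the closure of the graph -/
def gr {n D : ℕ} (X : Mf n) (W : Mf D) (Z : Set X.X) (τ : X.X → W.X) : Set (X.prod W).X :=
  closure {z | X.p1 W z ∉ Z ∧ X.p2 W z = τ (X.p1 W z)}

/-- a meromorphic map -/
structure Mg {n D : ℕ} (X : Mf n) (W : Mf D) (Z : Set X.X) (τ : X.X → W.X) : Prop where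
  thin : Thin n Z
  hol : ∀ x ∉ Z, HolA n D τ x
  an : An (n + D) (gr X W Z τ)

/-- the map is holomorphic on a Kähler modification -/
def Ex {n D : ℕ} (X : Mf n) (W : Mf D) (Z : Set X.X) (τ : X.X → W.X) : Prop :=
  ∃ (X₁ : Mf n) (π : X₁.X → X.X) (g : X₁.X → W.X), X₁.Kah ∧ Modif n π Z ∧ HolM n D g ∧
    ∀ x, π x ∉ Z → g x = τ (π x)

/-- the stage defined by a modification -/
@[reducible] def stg {n D : ℕ} {X₀ : Mf n} (W : Mf D) (Z : Set X₀.X) (τ : X₀.X → W.X) (X : Mf n)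
    (π : X.X → X₀.X) : Sg X₀ W := ⟨X, π, gr X W (π ⁻¹' Z) fun x => τ (π x)⟩

end Vale.Agent.P281Z.El
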