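import Vale.Agent.P281Z.El.Sk
import Vale.Agent.P281Z.An.Rk

/-!
# P281Z, elimination of indeterminacy: the general rank of a box
-/

open scoped Topology
open Set Filter
open Vale.Agent.P272.K
open Vale.Agent.P277.H762 (analyticAt_det)

noncomputable section

namespace Vale.Agent.P281Z.El

namespace Genr

variable {n D r : ℕ} {X : Mf n} {W : Mf D} {Γ : Set (X.prod W).X} {b : Box X W r}

/-- a minor -/
def mi (b : Box X W r) {c : ℕ} (σ : Fin c → Fin b.l) (τ : Fin c → Fin b.k) (z : Cm n × Cm r) : ℂ :=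
  (Matrix.of fun i j => b.G (σ i) (τ j) z).det

theorem le_iff {c : ℕ} {y : X.X} {t : Cm r} :
    c ≤ b.rank y t ↔ ∃ (σ : Fin c → Fin b.l) (τ : Fin c → Fin b.k), mi b σ τ (b.c y, t) ≠ 0 :=
  Ana.rank_iff

theorem rank_le (y : X.X) (t : Cm r) : b.rank y t ≤ b.k :=
  (Matrix.rank_le_width _)

theorem bdd (y : X.X) : BddAbove (b.rank y '' b.Δ) :=
  ⟨b.k, by rintro _ ⟨t, -, rfl⟩; exact rank_le y t⟩

theorem le_rk (y : X.X) {t : Cm r} (ht : t ∈ b.Δ) : b.rank y t ≤ b.rk y :=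
  le_csSup (bdd y) ⟨t, ht, rfl⟩

theorem ex (h : b.Ok Γ) (y : X.X) : ∃ t ∈ b.Δ, b.rank y t = b.rk y :=
  Nat.sSup_mem (h.conn.nonempty.image _) (bdd y)

theorem an (h : b.Ok Γ) {y : X.X} (hy : y ∈ b.U) {t : Cm r} (ht : t ∈ b.Δ) {c : ℕ}
    (σ : Fin c → Fin b.l) (τ : Fin c → Fin b.k) : AnalyticAt ℂ (mi b σ τ) (b.c y, t) :=
  analyticAt_det (M := fun z => Matrix.of fun i j => b.G (σ i) (τ j) z) fun _ _ =>
    (h.pp y hy t ht).anG _ _

theorem lsc (h : b.Ok Γ) {y : X.X} (hy : y ∈ b.U) {t : Cm r} (ht : t ∈ b.Δ) :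
    ∀ᶠ q in 𝓝 (y, t), b.rank y t ≤ b.rank q.1 q.2 := by
  obtain ⟨σ, τ, h0⟩ := le_iff.1 (le_refl (b.rank y t))
  have hc : ContinuousAt (fun q : X.X × Cm r => (b.c q.1, q.2)) (y, t) :=
    (ContinuousAt.comp (f := Prod.fst) (b.c.continuousAt (h.pp y hy t ht).atc.2)
      continuousAt_fst).prodMk continuousAt_snd
  have h1 : ContinuousAt (fun q : X.X × Cm r => mi b σ τ (b.c q.1, q.2)) (y, t) :=
    ContinuousAt.comp (g := mi b σ τ) (f := fun q : X.X × Cm r => (b.c q.1, q.2))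
      (x := (y, t)) (an h hy ht σ τ).continuousAt hc
  exact (h1.eventually_ne h0).mono fun q hq => le_iff.2 ⟨σ, τ, hq⟩

theorem opn (h : b.Ok Γ) {y : X.X} (hy : y ∈ b.U) : IsOpen (b.Gn y) := by
  refine isOpen_iff_mem_nhds.2 fun t ht => ?_
  have h1 : ∀ᶠ s in 𝓝 t, b.rank y t ≤ b.rank y s :=
    (continuousAt_const.prodMk continuousAt_id :
      ContinuousAt (fun s : Cm r => (y, s)) t).eventually (lsc h hy ht.1)
  filter_upwards [h1, h.oΔ.mem_nhds ht.1] with s h2 h3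
  exact ⟨h3, le_antisymm (le_rk y h3) (ht.2 ▸ h2)⟩

theorem dense (h : b.Ok Γ) {y : X.X} (hy : y ∈ b.U) : b.Δ ⊆ closure (b.Gn y) := by
  intro t ht
  obtain ⟨t₀, h0, e0⟩ := ex h y
  obtain ⟨σ, τ, h1⟩ := le_iff.1 e0.ge
  have ha : AnalyticOnNhd ℂ (fun s : Cm r => mi b σ τ (b.c y, s)) b.Δ := fun s hs =>
    AnalyticAt.comp (f := fun s : Cm r => (b.c y, s)) (an h hy hs σ τ)
      (analyticAt_const.prod analyticAt_id)
  by_contra hn
  rw [mem_closure_iff_frequently, not_frequently] at hn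
  have h2 : (fun s : Cm r => mi b σ τ (b.c y, s)) =ᶠ[𝓝 t] 0 := by
    filter_upwards [hn, h.oΔ.mem_nhds ht] with s h3 h4
    by_contra h5
    exact h3 ⟨h4, le_antisymm (le_rk y h4) (le_iff.2 ⟨σ, τ, h5⟩)⟩
  exact h1 (ha.eqOn_zero_of_preconnected_of_eventuallyEq_zero h.conn.isPreconnected ht h2 h0)

theorem lsc' (h : b.Ok Γ) {y : X.X} (hy : y ∈ b.U) : ∀ᶠ y' in 𝓝 y, b.rk y ≤ b.rk y' := by
  obtain ⟨t, ht, e⟩ := ex h y
  have h1 : ∀ᶠ y' in 𝓝 y, b.rank y t ≤ b.rank y' t :=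
    (continuousAt_id.prodMk continuousAt_const :
      ContinuousAt (fun y' : X.X => (y', t)) y).eventually (lsc h hy ht)
  exact h1.mono fun y' h2 => (e ▸ h2).trans (le_rk y' ht)

theorem rk_le_iff (h : b.Ok Γ) (y : X.X) (ρ : ℕ) :
    b.rk y ≤ ρ ↔ ∀ q, ∀ t ∈ b.Δ, b.mn ρ q (b.c y, t) = 0 := by
  refine ⟨fun h1 q t ht => ?_, fun h1 => ?_⟩
  · by_contra h2
    have h3 : ρ + 1 ≤ b.rank y t := le_iff.2 ⟨q.1, q.2, h2⟩
    have := le_rk y ht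
    omega
  · obtain ⟨t, ht, e⟩ := ex h y
    by_contra h2
    obtain ⟨σ, τ, h3⟩ := le_iff.1 (show ρ + 1 ≤ b.rank y t by omega)
    exact h3 (h1 (σ, τ) t ht)

end Genr

/-- **GENR** -/
theorem genr : GENR := fun _ _ _ _ _ _ _ b y h hy =>
  ⟨by obtain ⟨t, -, e⟩ := Genr.ex h y; exact e ▸ Genr.rank_le y t, Genr.opn h hy, Genr.dense h hy,
    Genr.lsc' h hy, Genr.rk_le_iff h y⟩

end Vale.Agent.P281Z.El
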