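import Vale.Agent.P281Z.El.Sk
import Vale.Agent.P281Z.Rs.All

/-!
# P281Z, elimination of indeterminacy: the induction
-/

open scoped Manifold ContDiff Topology
open Set Filter
open Vale.Agent.P272.K
open Vale.Agent.P277Z (Hol Nz)
open Vale.Agent.P277Z.Slc (Snc LEq)

noncomputable section

namespace Vale.Agent.P281Z.El

namespace Main

variable {n D d : ℕ} {X₀ : Mf n} {W : Mf D} {Z : Set X₀.X} {τ : X₀.X → W.X}

theorem mono {A B : Set W.X} (h : Dm d B) (k : A ⊆ B) : Dm d A := fun c hc =>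
  (h c hc).mono (image_mono (inter_subset_inter_left _ k))

theorem ex_of {X : Mf n} {π : X.X → X₀.X} (h : Modif n π Z)
    (k : Ex X W (π ⁻¹' Z) fun x => τ (π x)) : Ex X₀ W Z τ :=
  let ⟨X₁, u, g, a, b, c, e⟩ := k
  ⟨X₁, fun x => π (u x), g, a, h.comp_of b h.thin subset_rfl (image_preimage_subset _ _), c, e⟩

theorem phi_zero {L : Lab X₀ W d} (hL : L.Ok) (S : Sg X₀ W) {y : S.X.X} (hy : S.π y ∉ L.T) :
    L.phi S y = 0 :=
  Nat.sInf_eq_zero.2 (.inr (eq_empty_of_forall_notMem fun _ ⟨b, _, _, e, _⟩ =>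
    hy (e ▸ hL.ovr.maps b)))

theorem mon {V : Mf n} {r : ℕ} {G : Fin r → Set V.X} (hG : Snc n G) {y : V.X}
    {ζ : Fin r → V.X → ℂ} (h : ∀ l, LEq n (G l) y (ζ l)) (e : Fin r → ℕ) :
    Hol n (fun z => ∏ l, ζ l z ^ e l) y ∧ Nz (fun z => ∏ l, ζ l z ^ e l) y := by
  refine ⟨fun c hc => Finset.analyticAt_fun_prod _ fun l _ => ((h l).2 c hc).1.fun_pow _,
    fun k => ?_⟩
  obtain ⟨z, ⟨k1, k2⟩, k3⟩ := mem_closure_iff_nhds.1 (snc_dense_off hG y) _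
    (k.and (eventually_all.2 fun l => (h l).1))
  exact Finset.prod_ne_zero_iff.2 (fun l _ => pow_ne_zero _ fun c => k3 l ((k2 l).1 c)) k1

theorem step (h1 : GRA) (h2 : LOCD) (h3 : CONS) (h4 : EXT) (h5 : IMP) (hM : Mg X₀ W Z τ)
    {L : Lab X₀ W d} (hL : L.Ok) (hT : L.T ⊆ Z) (hT' : L.T' ⊆ Z)
    {X : Mf n} {π : X.X → X₀.X} (hπ : Modif n π Z) (hK : X.Kah) (hA : L.Ad (stg W Z τ X π)) {c : ℕ}
    (hc : ∀ y, π y ∉ L.T' → L.phi (stg W Z τ X π) y ≤ c + 1) :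
    ∃ (X₁ : Mf n) (π₁ : X₁.X → X₀.X), Modif n π₁ Z ∧ X₁.Kah ∧ L.Ad (stg W Z τ X₁ π₁) ∧
      ∀ y, π₁ y ∉ L.T' → L.phi (stg W Z τ X₁ π₁) y ≤ c := by
  have a1 : An n (π ⁻¹' L.T') := hL.anT'.pre hπ.hol
  have a2 := h2 n D d X₀ W L hL _ hA
  obtain ⟨I, i1, i2⟩ := h4 n X _ _ _ a1 a2 (c + 1) hc (h3 n X _ _ _ a1 a2 (c + 1) hc)
  have i3 : I.Z ⊆ π ⁻¹' Z := fun y hy => (i1 hy).elim (fun k => hT' k) fun k => hT (by_contra fun e =>
    Nat.succ_ne_zero c ((show L.phi (stg W Z τ X π) y = c + 1 from k).symm.trans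
      (phi_zero hL (stg W Z τ X π) e)))
  obtain ⟨R⟩ := Rs.res n n X univ I an_univ (subM_open (isOpen_univ.sdiff I.an.closed))
  have b1 : Modif n R.π (π ⁻¹' Z) :=
    Modif.mono ⟨hπ.thin_pre.sub I.an i3, R.ovr⟩ hπ.thin_pre i3
  have b2 : Modif n (fun x => π (R.π x)) Z :=
    hπ.comp_of b1 hπ.thin subset_rfl (image_preimage_subset _ _)
  obtain ⟨b3, b4⟩ := (h1 n D X W _ _ ((h1 n D X₀ W Z τ hM).2.1 X π hπ).1).2.1 R.V R.π b1
  have b5 : L.Ad (stg W Z τ R.V fun x => π (R.π x)) :=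
    ⟨b2.hol, b3.an, fun y => (b4 y).trans (hA.sub _), fun y hy => mono (hA.low _ hy) (b4 y)⟩
  refine ⟨R.V, _, b2, R.kah hK, b5, fun y hy => ?_⟩
  obtain ⟨c1, c2⟩ := h5 n D d X₀ W L hL _ hA (stg W Z τ R.V fun x => π (R.π x)) R.π y b5 b1.hol
    (fun _ => rfl) b4 hy
  rcases (hc _ hy).eq_or_lt with e | e
  · obtain ⟨γ, hγ⟩ := I.cover (R.π y)
    obtain ⟨ζ, hζ, -⟩ := R.snc y
    obtain ⟨u, u1, u2, u3⟩ := R.prin y γ hγ ζ hζ
    obtain ⟨m1, m2⟩ := mon R.snc hζ R.e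
    exact Nat.lt_succ_iff.1 ((c2 _ (I.g γ) u _ (fun i => I.hol γ i _ hγ) (i2 γ _ hγ hy e) u1 u2 m1
      m2 u3 fun w h => (h1 n D R.V W _ _ b3).2.2 y w _ h m1 m2).trans_eq e)
  · exact c1.trans (Nat.lt_succ_iff.1 e)

end Main

open Main in
theorem elim_of (h0 : DMA) (h1 : GRA) (h2 : LOCD) (h3 : CONS) (h4 : EXT) (h5 : IMP) (h6 : DCC)
    (h7 : LAB) (h8 : BND) (h9 : LOW) (h10 : END) : ELIM := by
  suffices H : ∀ (n D d : ℕ) (W : Mf D) (X : Mf n) Z τ, Mg X W Z τ → X.Kah →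
      (∀ x, Dm d (fib (gr X W Z τ) x)) → Ex X W Z τ from
    fun n D X W Z τ hM hK => H n D D W X Z τ hM hK fun _ => h0.top _ _ _
  intro n D d W
  induction d with
  | zero =>
    intro X Z τ hM hK h
    obtain ⟨g, a, b⟩ := h10 n D X W Z τ hM fun y => h0.cnt _ _ _ (h y)
    exact ⟨X, fun x => x, g, hK, modif_id.mono hM.thin (empty_subset _), a, b⟩
  | succ d ih =>
    intro X₀ Z τ hM hK h
    have hG := h1 n D X₀ W Z τ hM
    refine h6 n X₀ (fun T => T ⊆ Z → ∀ (X : Mf n) (π : X.X → X₀.X), Modif n π Z → X.Kah →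
      (∀ y, π y ∉ T → Dm d (fib (stg W Z τ X π).Γ y)) → Ex X₀ W Z τ) (fun T hT H hZ X π a b c => ?_)
      Z hM.thin.an subset_rfl X₀ (fun x => x) (modif_id.mono hM.thin (empty_subset _)) hK
      fun y hy => h0.sub _ _ _ _ (subsingleton_singleton.anti (hG.1 y hy).le)
    rcases T.eq_empty_or_nonempty with rfl | hne
    · exact ex_of a (ih X _ _ (hG.2.1 X π a).1 b fun y => c y id)
    obtain ⟨L, l1, rfl, l3, hL⟩ := h7 n D X₀ W _ hM.an d T h hT hne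
    have hA : L.Ad (stg W Z τ X π) :=
      ⟨a.hol, (hG.2.1 X π a).1.an, fun y => ((hG.2.1 X π a).2 y).trans (l1 ▸ subset_rfl), c⟩
    obtain ⟨m, hm⟩ := h8 n X _ _ _ (hL.anT'.pre a.hol) (h2 n D d X₀ W L hL _ hA)
    clear c
    induction m generalizing X with
    | zero =>
      exact H _ hL.anT' l3 (l3.subset.trans hZ) X π a b fun y hy =>
        h9 n D d X₀ W L hL _ hA y hy (Nat.le_zero.1 (hm y hy))
    | succ m ihm =>
      obtain ⟨X₁, π₁, k1, k2, k3, k4⟩ := step h1 h2 h3 h4 h5 hM hL hZ (l3.subset.trans hZ) a b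
        hA hm
      exact ihm X₁ π₁ k1 k2 k3 k4

end Vale.Agent.P281Z.El
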