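import Vale.Agent.P281Z.El.Sk
import Vale.Agent.P281Z.Top3
import Vale.Agent.P281Z.Nt.Conv

/-!
# P281Z, elimination of indeterminacy: meromorphic images of compact Kähler manifolds
-/

open scoped Manifold ContDiff Topology
open Set Filter
open Vale.Agent.P272.K

namespace Vale.Agent.P281Z.El

theorem an_prod {m n : ℕ} {V : Mf m} {X : Mf n} {S : Set (V.X × X.X)}
    (h : Top.IsAn (𝓘(ℂ, Cm m).prod 𝓘(ℂ, Cm n)) S) : An (X := (V.prod X).X) (m + n) S := fun z =>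
  let ⟨r, g, a, b⟩ := h (V.p1 X z, V.p2 X z)
  ⟨r, g, fun c => Nt.hol_iff.2 (ContMDiffAt.comp (f := fun z => (V.p1 X z, V.p2 X z)) z (a c)
    ((hol_p1 z).prodMk (hol_p2 z))), b⟩

theorem fujiki_of (h : ELIM) {n : ℕ} (X : Type) [TopologicalSpace X] [ChartedSpace (Cm n) X]
    [T2Space X] [CompactSpace X] [IsManifold 𝓘(ℂ, Cm n) ω X] (hX : Top.ClassF n X) :
    Top.Fujiki n X := by
  obtain ⟨m, V, _, _, Z, τ, _, _, _, h1, h2, h3, h4, h5, h6⟩ := hX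
  obtain ⟨X₁, π, g, k1, k2, k3, k4⟩ := h m n ⟨V⟩ ⟨X⟩ Z τ ⟨⟨fun x => let ⟨r, g, a, b⟩ := h2 x
    ⟨r, g, fun c => Nt.hol_iff.2 (a c), b⟩, h3⟩, h4, an_prod h6⟩ h1
  refine ⟨m, X₁.X, _, _, g, X₁.t2, X₁.cpt, X₁.mf, k1, k3, fun x => ?_⟩
  refine closure_minimal ?_ (isCompact_range k3.cont).isClosed (h5 x)
  rintro _ ⟨v, a, rfl⟩
  obtain ⟨y, rfl⟩ := k2.ex a
  exact ⟨y, k4 y a⟩

end Vale.Agent.P281Z.El
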