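import Vale.Agent.P281Z.El.Sk
import Vale.Agent.P277Z.Oka.Wal

/-!
# P281Z, elimination of indeterminacy: modules over rings of germs, general facts
-/

open scoped Topology Polynomial
open Set Filter Polynomial
open Vale.Agent.P277Z.Oka
open Vale.Agent.P298.H941 (O)

set_option linter.unusedSectionVars false

noncomputable section

namespace Vale.Agent.P281Z.El

namespace Pu

section gen

variable {E Y : Type} [NormedAddCommGroup E] [NormedSpace ℂ E] [NormedAddCommGroup Y]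
  [NormedSpace ℂ Y] {ι κ ι' κ' : Type} [Fintype ι] [Fintype κ] [Fintype ι'] [Fintype κ']

theorem ana_det {m : Type} [Fintype m] [DecidableEq m] {A : E → Matrix m m ℂ} {x : E}
    (h : ∀ i j, AnalyticAt ℂ (fun y => A y i j) x) : AnalyticAt ℂ (fun y => (A y).det) x := by
  simp only [Matrix.det_apply']
  exact Finset.analyticAt_fun_sum _ fun σ _ =>
    analyticAt_const.fun_mul (Finset.analyticAt_fun_prod _ fun i _ => h _ _)

theorem ana_adj {m : Type} [Fintype m] [DecidableEq m] {A : E → Matrix m m ℂ} {x : E}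
    (h : ∀ i j, AnalyticAt ℂ (fun y => A y i j) x) (i j : m) :
    AnalyticAt ℂ (fun y => (A y).adjugate i j) x := by
  simp only [Matrix.adjugate_apply]
  refine ana_det fun a b => ?_
  simp only [Matrix.updateRow_apply]
  split_ifs
  exacts [analyticAt_const, h _ _]

theorem inV_iff {x : E} {G : ι → κ → E → ℂ} {v : κ → E → ℂ} (hG : ∀ i k, AnalyticAt ℂ (G i k) x)
    (hv : ∀ k, AnalyticAt ℂ (v k) x) :
    InV x G v ↔ ∃ c : ι → O E, ∀ k, gm x (v k) = ∑ i, c i * gm x (G i k) := by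
  have key : ∀ c : ι → E → ℂ, (∀ i, AnalyticAt ℂ (c i) x) → ∀ k,
      (gm x (v k) = ∑ i, gm x (c i) * gm x (G i k) ↔ ∀ᶠ y in 𝓝 x, v k y = ∑ i, c i y * G i k y) := by
    intro c hc k
    rw [← gm_eq_iff (hv k) (Finset.analyticAt_fun_sum _ fun i _ => (hc i).fun_mul (hG i k)),
      gm_sum _ fun i => (hc i).fun_mul (hG i k),
      Finset.sum_congr rfl fun i _ => gm_mul (hc i) (hG i k)]
  refine ⟨fun ⟨c, hc, e⟩ => ⟨_, fun k => (key c hc k).2 (e.mono fun y h => h k)⟩, fun ⟨a, e⟩ => ?_⟩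
  choose c hc hca using fun i => gm_surj x (a i)
  exact ⟨c, hc, eventually_all.2 fun k => (key c hc k).1 (by simpa only [hca] using e k)⟩

/-- the determinant of a combination of the rows -/
def dt [DecidableEq κ] (C : κ → ι → ℂ) (G : ι → κ → E → ℂ) (x : E) : ℂ :=
  (Matrix.of fun a k => ∑ i, C a i * G i k x).det

theorem ana_dt [DecidableEq κ] (C : κ → ι → ℂ) {G : ι → κ → E → ℂ} {x : E}
    (hG : ∀ i k, AnalyticAt ℂ (G i k) x) : AnalyticAt ℂ (dt C G) x :=
  ana_det fun _ k => Finset.analyticAt_fun_sum _ fun i _ => analyticAt_const.fun_mul (hG i k)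

theorem cramer [DecidableEq κ] (C : κ → ι → ℂ) (G : ι → κ → E → ℂ) (x : E) (v : κ → ℂ) (k : κ) :
    dt C G x * v k = ∑ i, (∑ a, (∑ b, v b *
      (Matrix.of fun a k => ∑ i, C a i * G i k x).adjugate b a) * C a i) * G i k x := by
  set M := Matrix.of fun a k => ∑ i, C a i * G i k x with hM
  have h1 : ∀ b, ∑ a, M.adjugate b a * M a k = if b = k then dt C G x else 0 := fun b => by
    have := congrFun (congrFun (Matrix.adjugate_mul M) b) k
    rw [Matrix.mul_apply] at this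
    rw [this, Matrix.smul_apply, Matrix.one_apply, dt, ← hM]
    split_ifs <;> simp
  calc dt C G x * v k = ∑ b, v b * ∑ a, M.adjugate b a * M a k := by
        simp only [h1]
        simp [mul_comm]
    _ = ∑ a, (∑ b, v b * M.adjugate b a) * M a k := by
      simp only [Finset.mul_sum, Finset.sum_mul, mul_assoc]
      exact Finset.sum_comm
    _ = _ := by
      have h2 : ∀ w : κ → ℂ, ∑ a, w a * M a k = ∑ i, (∑ a, w a * C a i) * G i k x := fun w => by
        simp only [hM, Matrix.of_apply, Finset.mul_sum, Finset.sum_mul, mul_assoc]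
        exact Finset.sum_comm
      exact h2 _

theorem inV_dt [DecidableEq κ] (C : κ → ι → ℂ) {G : ι → κ → E → ℂ} {x : E} {v : κ → E → ℂ}
    (hG : ∀ i k, AnalyticAt ℂ (G i k) x) (hv : ∀ k, AnalyticAt ℂ (v k) x) :
    InV x G fun k y => dt C G y * v k y :=
  ⟨_, fun _ => Finset.analyticAt_fun_sum _ fun a _ => (Finset.analyticAt_fun_sum _ fun b _ =>
    (hv b).fun_mul (ana_adj (fun _ k => Finset.analyticAt_fun_sum _ fun i _ =>
      analyticAt_const.fun_mul (hG i k)) b a)).fun_mul analyticAt_const,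
    .of_forall fun y k => cramer C G y (fun k => v k y) k⟩

theorem dt_eq_zero [DecidableEq κ] (C : κ → ι → ℂ) {G : ι → κ → E → ℂ} {x : E} (h : x ∈ Sp G) :
    dt C G x = 0 := by
  by_contra h0
  exact h fun v => ⟨_, fun k => (mul_inv_cancel_left₀ h0 _).symm.trans
    (cramer C G x (fun k => (dt C G x)⁻¹ * v k) k)⟩

theorem exists_dt [DecidableEq κ] {G : ι → κ → E → ℂ} {x : E} (h : x ∉ Sp G) :
    ∃ C : κ → ι → ℂ, dt C G x = 1 := by
  choose C hC using fun a : κ => not_not.1 h (Pi.single a 1)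
  refine ⟨C, ?_⟩
  rw [dt, ← Matrix.det_one (n := κ)]
  congr 1
  ext a k
  rw [Matrix.of_apply, ← hC, Matrix.one_apply, Pi.single_apply]
  simp only [eq_comm]

theorem InV.congr {x : E} {G : ι → κ → E → ℂ} {v v' : κ → E → ℂ} (h : InV x G v)
    (e : ∀ᶠ y in 𝓝 x, ∀ k, v k y = v' k y) : InV x G v' :=
  let ⟨c, hc, e'⟩ := h
  ⟨c, hc, by filter_upwards [e, e'] with y h1 h2 k using h1 k ▸ h2 k⟩

theorem InV.add {x : E} {G : ι → κ → E → ℂ} {v v' : κ → E → ℂ} (h : InV x G v) (h' : InV x G v') :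
    InV x G fun k y => v k y + v' k y := by
  obtain ⟨c, hc, e⟩ := h
  obtain ⟨c', hc', e'⟩ := h'
  refine ⟨fun i y => c i y + c' i y, fun i => (hc i).fun_add (hc' i), ?_⟩
  filter_upwards [e, e'] with y h1 h2 k
  simp only [h1, h2, add_mul, Finset.sum_add_distrib]

theorem inV_of_notMem {x : E} {G : ι → κ → E → ℂ} {v : κ → E → ℂ} (h : x ∉ Sp G)
    (hG : ∀ i k, AnalyticAt ℂ (G i k) x) (hv : ∀ k, AnalyticAt ℂ (v k) x) : InV x G v := by
  classical
  obtain ⟨C, hC⟩ := exists_dt h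
  have h0 : dt C G x ≠ 0 := hC ▸ one_ne_zero
  refine InV.congr (inV_dt C hG fun k => ((ana_dt C hG).fun_inv h0).fun_mul (hv k)) ?_
  filter_upwards [(ana_dt C hG).continuousAt.eventually_ne h0] with y hy k
  exact mul_inv_cancel_left₀ hy _

theorem notMem_of_inV {x : E} {G : ι → κ → E → ℂ} (h : ∀ v : κ → ℂ, InV x G fun k _ => v k) :
    x ∉ Sp G := not_not.2 fun v =>
  let ⟨c, _, e⟩ := h v
  ⟨fun i => c i x, e.self_of_nhds⟩

theorem notMem_ev {x : E} {G : ι → κ → E → ℂ} (h : x ∉ Sp G)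
    (hG : ∀ i k, AnalyticAt ℂ (G i k) x) : ∀ᶠ y in 𝓝 x, y ∉ Sp G := by
  classical
  obtain ⟨C, hC⟩ := exists_dt h
  filter_upwards [(ana_dt C hG).continuousAt.eventually_ne (hC ▸ one_ne_zero : dt C G x ≠ 0)]
    with y hy k using hy (dt_eq_zero C k)

/-- the support of the direct image -/
theorem Pres.sp {p : E → Y} {G : ι → κ → E → ℂ} {U : Set E} {e : κ' → κ → E → ℂ}
    {G' : ι' → κ' → Y → ℂ} {z : Y} (h : Pres p G U e G' z)
    (hG : ∀ i k, ∀ x ∈ U, AnalyticAt ℂ (G i k) x)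
    (he : ∀ a k, ∀ x ∈ U, AnalyticAt ℂ (e a k) x) (hG' : ∀ i a, AnalyticAt ℂ (G' i a) z) :
    z ∈ Sp G' ↔ ∃ x ∈ U, x ∈ Sp G ∧ p x = z := by
  refine ⟨fun hz => ?_, fun ⟨x, hx, hs, e1⟩ => by_contra fun hz => ?_⟩
  · by_contra! k
    refine notMem_of_inV (fun v => (h.rel _ fun _ => analyticAt_const).2 fun x hx e1 =>
      inV_of_notMem (fun hs => k x hx hs e1) (fun i k => hG i k x hx) fun k =>
        Finset.analyticAt_fun_sum _ fun a _ => analyticAt_const.fun_mul (he a k x hx)) hz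
  · refine notMem_of_inV (fun u => ?_) hs
    obtain ⟨v, hv, e2⟩ := h.sur (fun _ k _ => u k) fun _ _ _ _ => analyticAt_const
    exact InV.congr (InV.add (e2 x hx e1) ((h.rel v hv).1 (inV_of_notMem hz hG' hv) x hx e1))
      (.of_forall fun y k => sub_add_cancel _ _)

theorem inV_equiv {ι₁ κ₁ : Type} [Fintype ι₁] [Fintype κ₁] (τ : ι₁ ≃ ι) (σ : κ₁ ≃ κ) {x : E}
    {G : ι → κ → E → ℂ} {v : κ → E → ℂ} :
    InV x (fun i k => G (τ i) (σ k)) (fun k => v (σ k)) ↔ InV x G v := by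
  refine ⟨fun ⟨c, hc, e⟩ => ⟨fun i => c (τ.symm i), fun i => hc _, e.mono fun y h k => ?_⟩,
    fun ⟨c, hc, e⟩ => ⟨fun i => c (τ i), fun i => hc _, e.mono fun y h k => ?_⟩⟩
  · have := h (σ.symm k)
    simp only [σ.apply_symm_apply] at this
    rw [this, ← τ.sum_comp]
    simp only [τ.symm_apply_apply]
  · exact (h _).trans (τ.sum_comp fun i => c i y * G i (σ k) y).symm

/-- change of the index sets -/
theorem Pres.equiv {ι₁ κ₁ : Type} [Fintype ι₁] [Fintype κ₁] (τ : ι₁ ≃ ι') (σ : κ₁ ≃ κ')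
    {p : E → Y} {G : ι → κ → E → ℂ} {U : Set E} {e : κ' → κ → E → ℂ}
    {G' : ι' → κ' → Y → ℂ} {z : Y} (h : Pres p G U e G' z) :
    Pres p G U (fun a => e (σ a)) (fun i a => G' (τ i) (σ a)) z := by
  refine ⟨fun v hv => ?_, fun u hu => ?_⟩
  · have h1 := h.rel (fun a => v (σ.symm a)) fun a => hv _
    rw [← inV_equiv τ σ] at h1
    simp only [σ.symm_apply_apply, ← σ.sum_comp] at h1
    exact h1
  · obtain ⟨v, hv, e1⟩ := h.sur u hu
    refine ⟨fun a => v (σ a), fun a => hv _, ?_⟩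
    simpa only [← σ.sum_comp] using e1

end gen

/-! ### Algebra -/

theorem alg_rel {A ι κ : Type} [CommRing A] [Nontrivial A] [Fintype ι] {b : ℕ} {P : A[X]}
    (hP : P.Monic) (hb : P.natDegree = b) (R : ι → κ → A[X]) (S : ι × Fin b → κ × Fin b → A)
    (Q : ι × Fin b → κ → A[X])
    (h : ∀ i k, X ^ (i.2 : ℕ) * R i.1 k = P * Q i k + ∑ l : Fin b, C (S i (k, l)) * X ^ (l : ℕ))
    (v : κ × Fin b → A) :
    (∃ (F : ι → A[X]) (B : κ → A[X]), ∀ k,
      ∑ l : Fin b, C (v (k, l)) * X ^ (l : ℕ) = ∑ i, F i * R i k + B k * P) ↔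
    ∃ c : ι × Fin b → A, ∀ a, v a = ∑ i, c i * S i a := by
  classical
  have key : ∀ (c : ι × Fin b → A) k, ∑ l : Fin b, C (∑ i, c i * S i (k, l)) * X ^ (l : ℕ) =
      ∑ i, (∑ j : Fin b, C (c (i, j)) * X ^ (j : ℕ)) * R i k - P * ∑ i, C (c i) * Q i k := by
    intro c k
    have h1 : ∀ i, ∑ l : Fin b, C (S i (k, l)) * X ^ (l : ℕ) =
      X ^ (i.2 : ℕ) * R i.1 k - P * Q i k := fun i => by rw [h, add_sub_cancel_left]
    calc _ = ∑ i, C (c i) * ∑ l : Fin b, C (S i (k, l)) * X ^ (l : ℕ) := by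
          simp only [map_sum, map_mul, Finset.sum_mul, Finset.mul_sum, mul_assoc]
          exact Finset.sum_comm
      _ = _ := by
          simp only [h1, mul_sub, Finset.sum_sub_distrib, Finset.mul_sum, Finset.sum_mul,
            mul_left_comm P, mul_assoc]
          rw [Fintype.sum_prod_type]
  have hd : P.degree = b := by rw [← hb, degree_eq_natDegree hP.ne_zero]
  refine ⟨fun ⟨F, B, e⟩ => ⟨fun i => (F i.1 %ₘ P).coeff i.2, fun ⟨k, l⟩ => ?_⟩,
    fun ⟨c, e⟩ => ⟨fun i => ∑ j : Fin b, C (c (i, j)) * X ^ (j : ℕ),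
      fun k => -∑ i, C (c i) * Q i k, fun k => ?_⟩⟩
  · have h1 : ∀ i, ∑ j : Fin b, C ((F i %ₘ P).coeff j) * X ^ (j : ℕ) = F i - P * (F i /ₘ P) := by
      intro i
      rw [← modByMonic_eq_sub_mul_div, Fin.sum_univ_eq_sum_range
        (fun j => C ((F i %ₘ P).coeff j) * X ^ j) b]
      by_cases h0 : F i %ₘ P = 0
      · simp [h0]
      · exact (as_sum_range_C_mul_X_pow' _ ((natDegree_lt_iff_degree_lt h0).2
          (hd ▸ degree_modByMonic_lt _ hP))).symm
    set w : Fin b → A := fun l => v (k, l) - ∑ i : ι × Fin b, (F i.1 %ₘ P).coeff i.2 * S i (k, l)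
    have h2 : ∑ l : Fin b, C (w l) * X ^ (l : ℕ) = 0 := by
      by_contra h0
      refine hP.not_dvd_of_degree_lt h0 (hd ▸ degree_sum_fin_lt w) ⟨B k + ∑ i, (F i /ₘ P) * R i k +
        ∑ i : ι × Fin b, C ((F i.1 %ₘ P).coeff i.2) * Q i k, ?_⟩
      simp only [w, map_sub, sub_mul, Finset.sum_sub_distrib, e k, key, h1, mul_assoc,
        ← Finset.mul_sum]
      ring
    have h3 := congrArg (fun p => p.coeff l) h2
    simp only [finsetSum_coeff, coeff_C_mul_X_pow, Fin.val_inj, coeff_zero, Finset.sum_ite_eq,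
      Finset.mem_univ, if_true] at h3
    exact sub_eq_zero.1 h3
  · simp only [e, key]
    ring

end Pu

end Vale.Agent.P281Z.El
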