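import Vale.Agent.P281Z.El.Defs

/-!
# P281Z, elimination of indeterminacy: statements
-/

open scoped Manifold ContDiff Topology Polynomial
open Set Filter
open Vale.Agent.P272.K
open Vale.Agent.P277Z (Hol Nz)
open Vale.Agent.P277Z.Oka (ev)
open Vale.Agent.P298.H941 (O)
open Vale.Agent.P277.H762 (Cv)

noncomputable section

namespace Vale.Agent.P281Z.El

/-- a statement on finite dimensional spaces -/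
def ForY (P : ∀ (Y : Type) [NormedAddCommGroup Y] [NormedSpace ℂ Y], Prop) : Prop :=
  ∀ (Y : Type) [NormedAddCommGroup Y] [NormedSpace ℂ Y] [FiniteDimensional ℂ Y], P Y

/-! ### Finite direct images -/

/-- **PSA** -/
def PSA : Prop := ForY fun Y _ _ => ∀ P : (O Y)[X], P.Monic →
  (∀ (ι κ : Type) [Fintype ι] [Fintype κ] (R : ι → κ → (O Y)[X]) (V : κ → (O Y)[X]),
    (∀ t, ∃ (c : ι → O (ℂ × Y)) (b : κ → O (ℂ × Y)), ∀ k,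
      ev Y t (V k) = ∑ i, c i * ev Y t (R i k) + b k * ev Y t P) →
    ∃ (C : ι → (O Y)[X]) (B : κ → (O Y)[X]), ∀ k, V k = ∑ i, C i * R i k + B k * P) ∧
  ∀ u : ℂ → O (ℂ × Y), ∃ V : (O Y)[X], ∀ t, ∃ b, ev Y t V = u t + b * ev Y t P

/-- **PUSH** -/
def PUSH : Prop := ForY fun Y _ _ => ∀ (ι κ : Type) [Fintype ι] [Fintype κ]
  (G : ι → κ → ℂ × Y → ℂ) (x₀ : ℂ × Y), (∀ i k, AnalyticAt ℂ (G i k) x₀) →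
  (∃ N ∈ 𝓝 x₀, {x | x ∈ N ∧ x ∈ Sp G ∧ x.2 = x₀.2}.Countable) → FP Prod.snd Prod.fst G x₀

/-- **FIN** -/
def FIN : Prop := ForY fun Y _ _ => ∀ (D : ℕ) (ι κ : Type) [Fintype ι] [Fintype κ]
  (G : ι → κ → Cm D × Y → ℂ) (x₀ : Cm D × Y), (∀ i k, AnalyticAt ℂ (G i k) x₀) →
  (∃ N ∈ 𝓝 x₀, {x | x ∈ N ∧ x ∈ Sp G ∧ x.2 = x₀.2}.Countable) → FP Prod.snd Prod.fst G x₀

/-! ### Coefficients -/

/-- **HAD** -/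
def HAD : Prop := ForY fun Y _ _ => ∀ (n : ℕ) (u : Cm n × Y → ℂ) (y : Cm n) (t : Y),
  AnalyticAt ℂ u (y, t) → (∀ᶠ s in 𝓝 t, u (y, s) = 0) →
  P277Z.Oka.In (y, t) (fun (i : Fin n) z => z.1 i - y i) u

/-- **COEF** -/
def COEF : Prop := ForY fun Y _ _ => ∀ (n : ℕ) (ι κ : Type) [Fintype ι] [Fintype κ]
  (a : ι → κ → Cm n → ℂ) (v : κ → Cm n × Y → ℂ) (y : Cm n) (t : Y),
  (∀ i k, AnalyticAt ℂ (a i k) y) → (∀ k, AnalyticAt ℂ (v k) (y, t)) →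
  (∃ᶠ s' in 𝓝 t, ∀ᶠ s in 𝓝 s', InV y a fun k x => v k (x, s)) →
  InV (y, t) (fun i k z => a i k z.1) v

/-- **SPR** -/
def SPR : Prop := ForY fun Y _ _ => ∀ (n : ℕ) (ι : Type) [Fintype ι] (a : ι → Cm n → ℂ)
  (u : Cm n × Y → ℂ) (y : Cm n) (Δ : Set Y), IsOpen Δ → IsPreconnected Δ →
  (∀ i, AnalyticAt ℂ (a i) y) → (∀ s ∈ Δ, AnalyticAt ℂ u (y, s)) →
  (∃ t ∈ Δ, P277Z.Oka.In (y, t) (fun i z => a i z.1) u) →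
  ∀ s ∈ Δ, P277Z.Oka.In (y, s) (fun i z => a i z.1) u

/-! ### Dimension -/

/-- **DMA** -/
structure DMA : Prop where
  img : ∀ (D d k : ℕ) (W : Mf D) (A O : Set W.X) (F : W.X → Cm k), Dm d A → IsOpen O →
    (∀ w ∈ O, AnV D F w) → Cv d (F '' (A ∩ O))
  top : ∀ (D : ℕ) (W : Mf D) (A : Set W.X), Dm D A
  sub : ∀ (D d : ℕ) (W : Mf D) (A : Set W.X), A.Subsingleton → Dm d A
  cnt : ∀ (D : ℕ) (W : Mf D) (A : Set W.X), Dm 0 A → A.Countable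
  rng : ∀ (D d e : ℕ) (W : Mf D) (F : Mf e) (j : F.X → W.X), HolM e D j → e ≤ d → Dm d (range j)
  thc : ∀ (D d : ℕ) (W : Mf D) (F : Mf (d + 1)) (j : F.X → W.X) (B : Set F.X), HolM (d + 1) D j →
    Thin (d + 1) B → Dm d (j '' B)
  imm : ∀ (D d e : ℕ) (W : Mf D) (F : Mf e) (j : F.X → W.X) (v : F.X), HolM e D j → Imm e D j v →
    Dm d (range j) → e ≤ d

/-- **DCC** -/
def DCC : Prop := ∀ (n : ℕ) (X : Mf n) (P : Set X.X → Prop),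
  (∀ A, An n A → (∀ B, An n B → B ⊂ A → P B) → P A) → ∀ A, An n A → P A

/-! ### Boxes -/

/-- a statement on analytic subsets of products -/
def ForG (P : ∀ (n D : ℕ) (X : Mf n) (W : Mf D), Set (X.prod W).X → Prop) : Prop :=
  ∀ (n D : ℕ) (X : Mf n) (W : Mf D) (Γ : Set (X.prod W).X), An (n + D) Γ → P n D X W Γ

/-- **BOX** -/
def BOX : Prop := ForG fun _ D X W Γ => ∀ (r : ℕ) (y : X.X) (w : W.X) (f : W.X → Cm r),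
  AnV D f w → (∃ N ∈ 𝓝 w, {x | x ∈ N ∧ f x = f w ∧ x ∈ fib Γ y}.Countable) → ∀ N ∈ 𝓝 w,
  ∃ b : Box X W r, b.Ok Γ ∧ b.f = f ∧ y ∈ b.U ∧ w ∈ b.O ∧ b.O ⊆ N

/-- **COVB** -/
def COVB : Prop := ForG fun _ _ X W Γ => ∀ (r : ℕ) (x : X.X), Dm r (fib Γ x) →
  ∃ (ν : ℕ) (b : Fin ν → Box X W r), (∀ k, (b k).Ok Γ ∧ x ∈ (b k).U) ∧
    ∀ᶠ y in 𝓝 x, ∀ w ∈ fib Γ y, ∃ k, w ∈ (b k).O

/-- **F1** -/
def F1 : Prop := ForG fun n _ X W Γ => ∀ (r k l : ℕ) (c : Chart n X.X) (O : Set W.X)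
  (f : W.X → Cm r) (y : X.X) (t : Cm r) (e : Fin k → W.X → ℂ) (G : Fin l → Fin k → _)
  (ι : Type) [Fintype ι] (a : ι → X.X → ℂ), PP Γ c O f y t e G → (∀ i, Hol n (a i) y) →
  (∀ i j, P277Z.Oka.In (c y, t) (fun i z => a i (c.symm z.1)) (G i j)) →
  ∀ w ∈ O, f w = t → Fl Γ y w a

/-- **F2** -/
def F2 : Prop := ForG fun n _ X W Γ => ∀ (r k l : ℕ) (c : Chart n X.X) (O : Set W.X)
  (f : W.X → Cm r) (y : X.X) (t : Cm r) (e : Fin k → W.X → ℂ) (G : Fin l → Fin k → _)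
  (ι : Type) [Fintype ι] (a : ι → X.X → ℂ), PP Γ c O f y t e G → (∀ i, Hol n (a i) y) →
  (∀ i j, ∀ᶠ s in 𝓝 t, G i j (c y, s) = 0) → (∀ w ∈ O, f w = t → Fl Γ y w a) →
  ∀ i j, P277Z.Oka.In (c y, t) (fun i z => a i (c.symm z.1)) (G i j)

/-- **BSP** -/
def BSP : Prop := ForG fun n _ X W Γ => ∀ (r k l : ℕ) (c : Chart n X.X) (O : Set W.X)
  (f : W.X → Cm r) (y : X.X) (w : W.X) (e : Fin k → W.X → ℂ) (G : Fin l → Fin k → _),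
  PP Γ c O f y (f w) e G → (∀ i j, ∀ᶠ s in 𝓝 (f w), G i j (c y, s) = 0) → w ∈ O →
  (∀ x ∈ O, f x = f w → x ∈ fib Γ y → x = w) → Bs Γ y w f e

/-- **RKI** -/
def RKI : Prop := ForG fun _ _ X W Γ => ∀ (r m m' : ℕ) (y : X.X) (w : W.X) (f f' : W.X → Cm r)
  (σ σ' : Cm r → W.X), Sh Γ y w f σ → Sh Γ y w f' σ' → (∀ᶠ s in 𝓝 (f w), σ' (f' (σ s)) = σ s) →
  (∀ᶠ s in 𝓝 (f' w), σ (f (σ' s)) = σ' s) → Bas Γ y w f m → Bas Γ y w f' m' → m = m'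

/-- **BLT** -/
def BLT : Prop := ∀ (n D r m m₁ : ℕ) (X X₁ : Mf n) (W : Mf D) (Γ : Set (X.prod W).X)
  (Γ₁ : Set (X₁.prod W).X) (ϖ : X₁.X → X.X) (y : X₁.X) (w : W.X) (f : W.X → Cm r)
  (e : Fin m → W.X → ℂ), HolM n n ϖ → (∀ x, fib Γ₁ x ⊆ fib Γ (ϖ x)) → AnV D f w →
  Bs Γ (ϖ y) w f e → Bas Γ₁ y w f m₁ → m₁ ≤ m ∧ ∀ c : Fin m → Cm r → ℂ,
    (∀ i, AnalyticAt ℂ (c i) (f w)) → (Fi Γ₁ y w fun x => ∑ i, c i (f x) * e i x) →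
    (∃ i, c i (f w) ≠ 0) → m₁ < m

/-- a statement on boxes -/
def ForB (P : ∀ (n D r : ℕ) (X : Mf n) (W : Mf D), Set (X.prod W).X → Box X W r → X.X → Prop) :
    Prop :=
  ForG fun n D X W Γ => ∀ (r : ℕ) (b : Box X W r) (y : X.X), b.Ok Γ → y ∈ b.U → P n D r X W Γ b y

/-- **GENR** -/
def GENR : Prop := ForB fun _ _ _ _ _ _ b y => b.rk y ≤ b.k ∧ IsOpen (b.Gn y) ∧
  b.Δ ⊆ closure (b.Gn y) ∧ (∀ᶠ y' in 𝓝 y, b.rk y ≤ b.rk y') ∧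
  ∀ ρ, b.rk y ≤ ρ ↔ ∀ q, ∀ t ∈ b.Δ, b.mn ρ q (b.c y, t) = 0

/-- **NF** -/
def NF : Prop := ForB fun n _ r _ _ Γ b y => ∀ t ∈ b.Gn y, ∃ (ι : Fin (b.a y) → Fin b.k)
  (G : Fin b.l → Fin (b.a y) → Cm n × Cm r → ℂ), PP Γ b.c b.O b.f y t (fun i => b.e (ι i)) G ∧
  (∀ i j, P277Z.Oka.In (b.c y, t) (b.mn (b.rk y)) (G i j)) ∧
  ∀ q, P277Z.Oka.In (b.c y, t) (fun s : Fin b.l × Fin (b.a y) => G s.1 s.2) (b.mn (b.rk y) q)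

/-- **BFL** -/
def BFL : Prop := ForB fun n _ _ X _ Γ b y => ∀ t ∈ b.Gn y, ∀ (ι : Type) [Fintype ι]
  (a : ι → X.X → ℂ), (∀ i, Hol n (a i) y) →
  (b.J (b.rk y) y a ↔ ∀ w ∈ b.O, b.f w = t → Fl Γ y w a)

/-- **BAS** -/
def BAS : Prop := ForB fun _ _ _ _ _ Γ b y => ∀ w ∈ b.O, b.f w ∈ b.Gn y →
  (∀ x ∈ b.O, b.f x = b.f w → x ∈ fib Γ y → x = w) → Bas Γ y w b.f (b.a y)

/-- **FG** -/
def FG : Prop := ForB fun n _ r X _ _ b x => ∀ ρ, ∃ (m : ℕ) (q : Fin m → _) (t : Fin m → Cm r),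
  (∀ i, t i ∈ b.Δ) ∧ (∀ q, ∀ t ∈ b.Δ, Hol n (fun z => b.mn ρ q (b.c z, t)) x) ∧
  ∀ᶠ y in 𝓝 x, b.J ρ y fun (i : Fin m) (z : X.X) => b.mn ρ (q i) (b.c z, t i)

/-- **ZER** -/
def ZER : Prop := ForG fun _ _ X W Γ => ∀ (d : ℕ) (b : Box X W (d + 1)) (y : X.X), b.Ok Γ →
  y ∈ b.U → Dm d (fib Γ y) → b.a y = 0

/-- **DROP** -/
def DROP : Prop := ForG fun n D X W Γ => ∀ (r : ℕ) (b : Box X W r) (X₁ : Mf n)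
  (Γ₁ : Set (X₁.prod W).X) (ϖ : X₁.X → X.X) (y : X₁.X) (φ : X₁.X → ℂ), b.Ok Γ → ϖ y ∈ b.U →
  HolM n n ϖ → (∀ x, fib Γ₁ x ⊆ fib Γ (ϖ x)) → Hol n φ y → Nz φ y →
  (∀ w h, Hol (n + D) h (X₁.pair W y w) → (Vn Γ₁ y w fun z => φ (X₁.p1 W z) * h z) →
    Vn Γ₁ y w h) →
  (∀ q, ∀ t ∈ b.Δ, ∃ u, Hol n u y ∧ ∀ᶠ x in 𝓝 y, b.mn (b.rk (ϖ y)) q (b.c (ϖ x), t) = u x * φ x) →
  (∃ q, ∃ t ∈ b.Δ, ∃ u, Hol n u y ∧ u y ≠ 0 ∧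
    ∀ᶠ x in 𝓝 y, b.mn (b.rk (ϖ y)) q (b.c (ϖ x), t) = u x * φ x) →
  ∀ t ∈ b.Δ, ∃ᶠ t' in 𝓝 t, ∀ᶠ s in 𝓝 t', ∀ w ∈ b.O, b.f w = s →
    (∀ x ∈ b.O, b.f x = s → x ∈ fib Γ (ϖ y) → x = w) → ∀ m, Bas Γ₁ y w b.f m → m < b.a (ϖ y)

/-! ### Labels -/

/-- **LAB** -/
def LAB : Prop := ForG fun n _ X W Γ => ∀ (d : ℕ) (T : Set X.X), (∀ x, Dm (d + 1) (fib Γ x)) →
  An n T → T.Nonempty → ∃ L : Lab X W d, L.Γ₀ = Γ ∧ L.T = T ∧ L.T' ⊂ T ∧ L.Ok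

/-- a statement on labels -/
def ForL (P : ∀ (n D d : ℕ) (X₀ : Mf n) (W : Mf D), Lab X₀ W d → Prop) : Prop :=
  ∀ (n D d : ℕ) (X₀ : Mf n) (W : Mf D) (L : Lab X₀ W d), L.Ok → P n D d X₀ W L

/-- **TVX** -/
def TVX : Prop := ForL fun _ _ _ _ _ L => ∀ v ∈ off L.G, L.θ (L.g v) ∉ L.T' → ∃ f, L.Tv f v

/-- **CRV** -/
def CRV : Prop := ForL fun _ D d _ W L => ∀ (b : L.B.X) (O : Set W.X) (f : W.X → Cm (d + 1)),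
  L.θ b ∉ L.T' → IsOpen O → (∀ w ∈ O, AnV D f w) →
  Cv d ((fun v => f (L.j v)) '' {v | L.g v = b ∧ L.j v ∈ O ∧ ¬ L.Tv f v})

/-- **IMD** -/
def IMD : Prop := ForL fun _ D d _ W L => ∀ (v : L.V.X) (f : W.X → Cm (d + 1)),
  L.θ (L.g v) ∉ L.T' → AnV D f (L.j v) →
  (∃ N ∈ 𝓝 v, ∀ t, {u | u ∈ N ∧ L.g u = L.g v ∧ f (L.j u) = t}.Countable) →
  ∃ᶠ v' in 𝓝[L.g ⁻¹' {L.g v}] v, L.Tv f v'

/-- **TUBE** -/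
def TUBE : Prop := ForL fun _ _ _ _ _ L => ∀ b, L.θ b ∉ L.T' →
  ∃ (ν : ℕ) (v : Fin ν → L.V.X), L.Rep b v ∧ ∀ N : Fin ν → Set L.V.X, (∀ k, N k ∈ 𝓝 (v k)) →
    ∀ᶠ b' in 𝓝 b, ∃ v' : Fin ν → L.V.X, (∀ k, v' k ∈ N k) ∧ L.Rep b' v'

/-- **CST** -/
def CST : Prop := ForL fun _ _ _ _ _ L => ∀ (b : L.B.X) (β : Type) (P : L.V.X → β),
  L.θ b ∉ L.T' → (∀ v ∈ off L.G, L.g v = b → ∀ᶠ v' in 𝓝 v, L.g v' = b → P v' = P v) →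
  ∀ u ∈ off L.G, ∀ u' ∈ off L.G, u' ∈ connectedComponentIn (L.g ⁻¹' {b}) u → P u' = P u

/-- a statement on stages -/
def ForS (P : ∀ (n D d : ℕ) (X₀ : Mf n) (W : Mf D), Lab X₀ W d → Sg X₀ W → Prop) : Prop :=
  ForL fun n D d X₀ W L => ∀ S : Sg X₀ W, L.Ad S → P n D d X₀ W L S

/-- **ONE** -/
def ONE : Prop := ForS fun _ _ _ _ _ L S => ∀ y v f, L.Gd S y v → L.Tv f v →
  ∃ b, L.One S y v b ∧ b.f = f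

/-- **MUB** -/
def MUB : Prop := ForS fun _ _ _ _ _ L S => ∀ y v b, L.Gd S y v → L.One S y v b →
  ∀ᶠ q in 𝓝 (y, v), L.θ (L.g q.2) = S.π q.1 → L.mu S q.1 q.2 = b.a q.1 ∧
    L.FO q.2 fun v' => Bas S.Γ q.1 (L.j v') b.f (b.a q.1)

/-- **QJ** -/
def QJ : Prop := ForS fun n _ _ _ _ L S => ∀ y v b, L.Gd S y v → L.One S y v b →
  ∀ᶠ q in 𝓝 (y, v), L.θ (L.g q.2) = S.π q.1 → ∀ (ι : Type) [Fintype ι] (a : ι → S.X.X → ℂ),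
    (∀ i, Hol n (a i) q.1) → (L.Q S q.1 q.2 a ↔ b.J (b.rk q.1) q.1 a)

/-- **PHR** -/
def PHR : Prop := ForS fun _ _ _ _ _ L S => ∀ y b (ν : ℕ) (v : Fin ν → L.V.X), L.θ b = S.π y →
  S.π y ∉ L.T' → L.Rep b v → L.phi S y = ∑ k, L.mu S y (v k)

/-- **PHI** -/
def PHI : Prop := ForS fun n _ d _ W L S => ∀ y, S.π y ∉ L.T' →
  ∃ (ν : ℕ) (v : Fin ν → L.V.X) (b : Fin ν → Box S.X W (d + 1)),
    (∀ k, L.Gd S y (v k) ∧ L.One S y (v k) (b k)) ∧ (∀ b₀, L.θ b₀ = S.π y → L.Rep b₀ v) ∧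
    (∀ᶠ y' in 𝓝 y, L.phi S y' = ∑ k, (b k).a y') ∧
    ∀ (ι : Type) [Fintype ι] (a : ι → S.X.X → ℂ), (∀ i, Hol n (a i) y) →
      (L.Gen S y a ↔ ∀ k, (b k).J ((b k).rk y) y a)

/-- **LOW** -/
def LOW : Prop := ForS fun _ _ d _ _ L S => ∀ y, S.π y ∉ L.T' → L.phi S y = 0 → Dm d (fib S.Γ y)

/-- **CAN1** -/
def CAN1 : Prop := ForS fun n _ d _ W L S => ∀ y (b : Box S.X W (d + 1)) (ι : Type) [Fintype ι]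
  (a : ι → S.X.X → ℂ), b.Ok S.Γ → y ∈ b.U → S.π y ∉ L.T' → (∀ i, Hol n (a i) y) →
  L.Gen S y a → b.J (b.rk y) y a

/-- **CAN2** -/
def CAN2 : Prop := ForS fun n _ d _ W L S => ∀ y v (ι : Type) [Fintype ι] (a : ι → S.X.X → ℂ),
  L.Gd S y v → (∀ i, Hol n (a i) y) → (L.j v ∉ fib S.Γ y ∨ ∃ b : Box S.X W (d + 1), b.Ok S.Γ ∧
    y ∈ b.U ∧ L.j v ∈ b.O ∧ b.J (b.rk y) y a) → L.Q S y v a

/-- **LOCD** -/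
def LOCD : Prop := ForS fun _ _ _ _ _ L S => ∀ x, Loc (S.π ⁻¹' L.T') (L.phi S) (L.JJ S) x

/-- **IMP** -/
def IMP : Prop := ForS fun n D _ X₀ W L S => ∀ (S₁ : Sg X₀ W) (ϖ : S₁.X.X → S.X.X) (y : S₁.X.X),
  L.Ad S₁ → HolM n n ϖ → (∀ x, S₁.π x = S.π (ϖ x)) → (∀ x, fib S₁.Γ x ⊆ fib S.Γ (ϖ x)) →
  S₁.π y ∉ L.T' → L.phi S₁ y ≤ L.phi S (ϖ y) ∧
  ∀ (ι : Type) [Fintype ι] (a : ι → S.X.X → ℂ) (c : ι → S₁.X.X → ℂ) (φ : S₁.X.X → ℂ),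
    (∀ i, Hol n (a i) (ϖ y)) → (∀ f, Hol n f (ϖ y) → (L.JJ S (ϖ y) f ↔ In (ϖ y) a f)) →
    (∀ i, Hol n (c i) y) → (∃ i, c i y ≠ 0) → Hol n φ y → Nz φ y →
    (∀ᶠ x in 𝓝 y, ∀ i, a i (ϖ x) = c i x * φ x) →
    (∀ w h, Hol (n + D) h (S₁.X.pair W y w) → (Vn S₁.Γ y w fun z => φ (S₁.X.p1 W z) * h z) →
      Vn S₁.Γ y w h) → L.phi S₁ y < L.phi S (ϖ y)

/-! ### Global ideals -/

/-- a statement on functions with a local structure -/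
def ForP (P : ∀ (n : ℕ) (X : Mf n), Set X.X → (X.X → ℕ) → (X.X → (X.X → ℂ) → Prop) → Prop) : Prop :=
  ∀ (n : ℕ) (X : Mf n) Θ φ J, An n Θ → (∀ x, Loc Θ φ J x) → P n X Θ φ J

/-- **JMP** -/
def JMP : Prop := ForP fun n X Θ φ _ => ∀ (m : ℕ) (V : Mf m) (ρ : V.X → X.X), ConnectedSpace V.X →
  HolM m n ρ → (∃ v, ρ v ∉ Θ) → ∃ (c : ℕ) (A : Set V.X), Thin m A ∧
    (∀ v ∉ A, ρ v ∉ Θ ∧ φ (ρ v) = c) ∧ ∀ v ∈ A, ρ v ∉ Θ → c < φ (ρ v)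

/-- **BND** -/
def BND : Prop := ForP fun _ _ Θ φ _ => ∃ c, ∀ y ∉ Θ, φ y ≤ c

/-- **CONS** -/
def CONS : Prop := ForP fun n _ Θ φ _ => ∀ c, (∀ y ∉ Θ, φ y ≤ c) → An n (Θ ∪ {y | φ y = c})

/-- **EXT** -/
def EXT : Prop := ForP fun n X Θ φ J => ∀ c, (∀ y ∉ Θ, φ y ≤ c) → An n (Θ ∪ {y | φ y = c}) →
  ∃ I : Idl n X.X, I.Z ⊆ Θ ∪ {y | φ y = c} ∧ ∀ γ, ∀ y ∈ I.U γ, y ∉ Θ → φ y = c →
    ∀ f, Hol n f y → (J y f ↔ In y (I.g γ) f)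

/-! ### Graphs -/

/-- a statement on meromorphic maps -/
def ForM (P : ∀ (n D : ℕ) (X : Mf n) (W : Mf D), Set X.X → (X.X → W.X) → Prop) : Prop :=
  ∀ (n D : ℕ) (X : Mf n) (W : Mf D) Z τ, Mg X W Z τ → P n D X W Z τ

/-- **GRA** -/
def GRA : Prop := ForM fun n D X W Z τ => (∀ y ∉ Z, fib (gr X W Z τ) y = {τ y}) ∧
  (∀ (X₁ : Mf n) (ϖ : X₁.X → X.X), Modif n ϖ Z → Mg X₁ W (ϖ ⁻¹' Z) (fun x => τ (ϖ x)) ∧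
    ∀ x, fib (gr X₁ W (ϖ ⁻¹' Z) fun x => τ (ϖ x)) x ⊆ fib (gr X W Z τ) (ϖ x)) ∧
  ∀ y w φ h, Hol n φ y → Nz φ y → Hol (n + D) h (X.pair W y w) →
    (Vn (gr X W Z τ) y w fun z => φ (X.p1 W z) * h z) → Vn (gr X W Z τ) y w h

/-- **END** -/
def END : Prop := ForM fun n D X W Z τ => (∀ y, (fib (gr X W Z τ) y).Countable) →
  ∃ g, HolM n D g ∧ ∀ x ∉ Z, g x = τ x

/-- **ELIM** -/
def ELIM : Prop := ForM fun _ _ X W Z τ => X.Kah → Ex X W Z τ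

end Vale.Agent.P281Z.El
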